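import Vale.Agent.P073.H894.AlxGL
import Vale.Agent.P073.H339.SphereJS
import Vale.Agent.P073.H248.Spec

/-!
# P073 (helper894): the cone inside a box is replaced by a disc of the boundary of the box
-/

open Set Metric Topology Filter

namespace P073.ALX

open P073 P073.Push P073.H248

section general

variable {E F : Type*} [NormedAddCommGroup E] [NormedSpace ℝ E]
  [NormedAddCommGroup F] [NormedSpace ℝ F]

/-- radial extension, with the formula on the cones -/
theorem exists_ambient_cone [Nontrivial E] [Nontrivial F] {K : Set E} {L : Set F}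
    (hK : IsCompact K) (hKc : Convex ℝ K) (hKl : LocCone K) {a : E} (ha : K ∈ 𝓝 a)
    (hL : IsCompact L) (hLc : Convex ℝ L) {b : F} (hb : L ∈ 𝓝 b)
    (φ : ConHomeo (frontier K) (frontier L)) :
    ∃ Φ : ConHomeo (univ : Set E) (univ : Set F), EqOn Φ.toFun φ.toFun (frontier K) ∧
      Φ.toFun '' K = L ∧
      ∀ x ∈ frontier K, ∀ s ∈ Icc (0:ℝ) 1, Φ.toFun (a + s • (x - a)) = b + s • (φ.toFun x - b) := by
  obtain ⟨Ψ, hΨ, hΨs⟩ := ConHomeo.exists_extend_convexBody hK hKc ha hL hLc hb φ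
  obtain ⟨Φ₀, h0, h0K⟩ := ConHomeo.exists_ambient_of_convexBody hK hKc
    ⟨a, mem_interior_iff_mem_nhds.2 ha⟩ hL hLc ⟨b, mem_interior_iff_mem_nhds.2 hb⟩ φ
  have hfK : K ∩ (interior K)ᶜ = frontier K := by rw [hK.isClosed.frontier_eq, sdiff_eq]
  have hfL : L ∩ (interior L)ᶜ = frontier L := by rw [hL.isClosed.frontier_eq, sdiff_eq]
  have huK : K ∪ (interior K)ᶜ = univ := by
    rw [eq_univ_iff_forall]
    intro x
    by_cases hx : x ∈ K
    · exact Or.inl hx
    · exact Or.inr fun h => hx (interior_subset h)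
  have huL : L ∪ (interior L)ᶜ = univ := by
    rw [eq_univ_iff_forall]
    intro x
    by_cases hx : x ∈ L
    · exact Or.inl hx
    · exact Or.inr fun h => hx (interior_subset h)
  let ρ : ConHomeo (interior K)ᶜ (interior L)ᶜ :=
    (Φ₀.restr hKl.interior.compl.conicalSet (subset_univ _)).cast rfl
      (by rw [Φ₀.image_compl, Φ₀.image_interior, h0K])
  have hX2 : IsClosed (interior K)ᶜ := isOpen_interior.isClosed_compl
  have hY2 : IsClosed (interior L)ᶜ := isOpen_interior.isClosed_compl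
  have hag : EqOn Ψ.toFun ρ.toFun (K ∩ (interior K)ᶜ) := by
    rw [hfK]
    intro x hx
    rw [hΨ hx]
    exact (h0 hx).symm
  have himg : L ∩ (interior L)ᶜ ⊆ Ψ.toFun '' (K ∩ (interior K)ᶜ) := by
    rw [hfK, hfL, hΨ.image_eq, φ.image_eq]
  have hgl := ConHomeo.glue_left Ψ ρ hK.isClosed hX2 hL.isClosed hY2 hag himg
  refine ⟨(ConHomeo.glue Ψ ρ hK.isClosed hX2 hL.isClosed hY2 hag himg).cast huK huL, ?_, ?_, ?_⟩
  · exact (hgl.mono hK.isClosed.frontier_subset).trans hΨ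
  · show (ConHomeo.glue Ψ ρ hK.isClosed hX2 hL.isClosed hY2 hag himg).toFun '' K = L
    rw [hgl.image_eq, Ψ.image_eq]
  · intro x hx s hs
    rw [← hΨs x hx s hs]
    refine hgl ?_
    have : a + s • (x - a) ∈ coneSetAt a (frontier K) := ⟨s, hs, x, hx, rfl⟩
    rwa [coneSetAt_frontier hK hKc ha] at this

end general

/-- the standard square -/
abbrev Qs : Set P := closedBall 0 1

theorem ambDisc_Qs : AmbDisc Qs :=
  ⟨ConHomeo.refl (IsOpen.conicalSet isOpen_univ), by
    show (fun x => x) '' closedBall (0 : P) 1 = _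
    exact image_id' _⟩

theorem Qs_prod : (Qs ×ˢ Icc (-1:ℝ) 1 : Set V) = closedBall 0 1 := by
  ext p
  rw [mem_prod, show (p ∈ closedBall (0 : V) 1 ↔ _) from mem_closedBall_zero_iff, Prod.norm_def,
    max_le_iff, mem_Icc, Real.norm_eq_abs, abs_le,
    show (p.1 ∈ Qs ↔ _) from mem_closedBall_zero_iff]

/-- upper hemisphere -/
abbrev Hu : Set V := frontier Qs ×ˢ Icc (0:ℝ) 1 ∪ Qs ×ˢ {(1:ℝ)}
/-- lower hemisphere -/
abbrev Hd : Set V := frontier Qs ×ˢ Icc (-1:ℝ) 0 ∪ Qs ×ˢ {(-1:ℝ)}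

theorem conBall_Hu : ConBall 2 Hu (frontier Qs ×ˢ {(0:ℝ)}) :=
  (conBall_cups ambDisc_Qs (by norm_num : (0:ℝ) < 1)).1

theorem conBall_Hd : ConBall 2 Hd (frontier Qs ×ˢ {(0:ℝ)}) :=
  (conBall_cups ambDisc_Qs (by norm_num : (-1:ℝ) < 0)).2

theorem Hu_union_Hd : Hu ∪ Hd = sphere (0 : V) 1 := by
  rw [← frontier_closedBall (0 : V) one_ne_zero, ← Qs_prod,
    column_frontier ambDisc_Qs (by norm_num : (-1:ℝ) < 1)]
  ext ⟨w, z⟩
  simp only [mem_union, mem_prod, mem_Icc, mem_singleton_iff, mem_insert_iff]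
  constructor
  · rintro ((⟨h1, h2, h3⟩ | ⟨h1, h2⟩) | (⟨h1, h2, h3⟩ | ⟨h1, h2⟩))
    · exact Or.inl ⟨h1, by linarith, h3⟩
    · exact Or.inr ⟨h1, Or.inr h2⟩
    · exact Or.inl ⟨h1, h2, by linarith⟩
    · exact Or.inr ⟨h1, Or.inl h2⟩
  · rintro (⟨h1, h2, h3⟩ | ⟨h1, h2 | h2⟩)
    · rcases le_total 0 z with h | h
      · exact Or.inl (Or.inl ⟨h1, h, h3⟩)
      · exact Or.inr (Or.inl ⟨h1, h2, h⟩)
    · exact Or.inr (Or.inr ⟨h1, h2⟩)
    · exact Or.inl (Or.inr ⟨h1, h2⟩)

theorem Hu_inter_Hd : Hu ∩ Hd = frontier Qs ×ˢ {(0:ℝ)} := by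
  ext ⟨w, z⟩
  simp only [mem_inter_iff, mem_union, mem_prod, mem_Icc, mem_singleton_iff]
  constructor
  · rintro ⟨⟨h1, h2, h3⟩ | ⟨h1, h2⟩, ⟨h4, h5, h6⟩ | ⟨h4, h5⟩⟩
    · exact ⟨h1, le_antisymm h6 h2⟩
    · exfalso; linarith
    · exfalso; linarith
    · exfalso; linarith
  · rintro ⟨h1, h2⟩
    subst h2
    exact ⟨Or.inl ⟨h1, le_rfl, zero_le_one⟩, Or.inl ⟨h1, by norm_num, le_rfl⟩⟩

theorem frontier_Qs : frontier Qs = sphere (0 : P) 1 := frontier_closedBall _ one_ne_zero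

theorem cone_equator : coneSetAt (0 : V) (frontier Qs ×ˢ {(0:ℝ)}) = Qs ×ˢ {(0:ℝ)} := by
  rw [frontier_Qs]
  ext ⟨w, z⟩
  constructor
  · rintro ⟨s, hs, ⟨u, v⟩, ⟨hu, hv⟩, h⟩
    rw [mem_singleton_iff] at hv
    simp only at hu hv
    rw [zero_add, sub_zero, Prod.smul_mk, Prod.mk.injEq] at h
    refine ⟨?_, ?_⟩
    · show w ∈ closedBall (0 : P) 1
      rw [mem_sphere_zero_iff_norm] at hu
      rw [mem_closedBall_zero_iff, h.1, norm_smul, hu, mul_one, Real.norm_eq_abs,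
        abs_of_nonneg hs.1]
      exact hs.2
    · show z ∈ ({0} : Set ℝ)
      rw [mem_singleton_iff, h.2, hv, smul_zero]
  · rintro ⟨h1, h2⟩
    have h1' : ‖w‖ ≤ 1 := by simpa using h1
    have h2' : z = 0 := h2
    by_cases hw : w = 0
    · refine ⟨0, ⟨le_rfl, zero_le_one⟩, ((1, 0), 0), ⟨?_, rfl⟩, ?_⟩
      · rw [mem_sphere_zero_iff_norm, Prod.norm_def]; simp
      · rw [zero_smul, add_zero, hw, h2']; rfl
    · have hn : 0 < ‖w‖ := norm_pos_iff.2 hw
      refine ⟨‖w‖, ⟨hn.le, h1'⟩, (‖w‖⁻¹ • w, 0), ⟨?_, rfl⟩, ?_⟩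
      · show ‖w‖⁻¹ • w ∈ sphere (0 : P) 1
        rw [mem_sphere_zero_iff_norm, norm_smul, norm_inv, norm_norm, inv_mul_cancel₀ hn.ne']
      · rw [zero_add, sub_zero, Prod.smul_mk, smul_smul, mul_inv_cancel₀ hn.ne', one_smul,
          smul_zero, h2']

theorem normCon_V : NormCon V := (normCon_real.prod normCon_real).prod normCon_real

theorem locCone_closedBall_V (p : V) (ρ : ℝ) : LocCone (closedBall p ρ) := by
  have hcu : ConicalSet (univ : Set V) := IsOpen.conicalSet isOpen_univ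
  have hdist : ConicalOn (fun y : V => ‖y - p‖) univ :=
    ConicalOn.comp normCon_V ((conicalOn_id hcu).sub (conicalOn_const p hcu)) (mapsTo_univ _ _)
      (Continuous.continuousOn (by fun_prop))
  have h := locCone_setOf_le (f := fun y : V => ‖y - p‖) (by fun_prop) hdist ρ
  have e : {y : V | ‖y - p‖ ≤ ρ} = closedBall p ρ := by
    ext y; rw [mem_closedBall, dist_eq_norm]; rfl
  rwa [e] at h

theorem ambStd_of_image {X : Set V} (Φ : ConHomeo (univ : Set V) (univ : Set V))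
    (h : AmbStd (Φ.toFun '' X)) : AmbStd X := (stdSphIn_image_iff Φ).1 h

theorem ambStd_image {X : Set V} (Φ : ConHomeo (univ : Set V) (univ : Set V))
    (h : AmbStd X) : AmbStd (Φ.toFun '' X) := (stdSphIn_image_iff Φ).2 h

/-- the half box is standard -/
theorem cone_halves {p : V} {ρ : ℝ} (hρ : 0 < ρ) {D₁ D₂ γ : Set V} (h₁ : ConBall 2 D₁ γ)
    (h₂ : ConBall 2 D₂ γ) (hu : D₁ ∪ D₂ = sphere p ρ) (hi : D₁ ∩ D₂ = γ) :
    ConBall 2 (coneSetAt p γ) γ ∧ AmbStd (D₁ ∪ coneSetAt p γ) := by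
  obtain ⟨θ, t1, t2, t3⟩ := exists_sphere_homeo h₁ h₂ hi conBall_Hu conBall_Hd Hu_inter_Hd
  have hfK : frontier (closedBall p ρ) = sphere p ρ := frontier_closedBall _ hρ.ne'
  have hfL : frontier (closedBall (0 : V) 1) = sphere (0 : V) 1 :=
    frontier_closedBall _ one_ne_zero
  obtain ⟨Φ, f1, f2, f3⟩ := exists_ambient_cone (isCompact_closedBall p ρ)
    (convex_closedBall p ρ) (locCone_closedBall_V p ρ) (closedBall_mem_nhds p hρ)
    (isCompact_closedBall (0 : V) 1) (convex_closedBall _ _) (closedBall_mem_nhds (0 : V) one_pos)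
    (θ.cast (hu.trans hfK.symm) (Hu_union_Hd.trans hfL.symm))
  have hs1 : D₁ ⊆ frontier (closedBall p ρ) := by
    rw [hfK, ← hu]; exact subset_union_left
  have hsγ : γ ⊆ frontier (closedBall p ρ) := h₁.1.trans hs1
  have g1 : Φ.toFun '' D₁ = Hu := by
    rw [(f1.mono hs1).image_eq]; exact t1
  have g3 : Φ.toFun '' γ = frontier Qs ×ˢ {(0:ℝ)} := by
    rw [(f1.mono hsγ).image_eq]; exact t3
  have g4 : Φ.toFun '' coneSetAt p γ = Qs ×ˢ {(0:ℝ)} := by
    rw [← cone_equator, ← g3]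
    ext y
    constructor
    · rintro ⟨_, ⟨s, hs, x, hx, rfl⟩, rfl⟩
      exact ⟨s, hs, Φ.toFun x, ⟨x, hx, rfl⟩, by rw [f3 x (hsγ hx) s hs, f1 (hsγ hx)]⟩
    · rintro ⟨s, hs, _, ⟨x, hx, rfl⟩, rfl⟩
      exact ⟨p + s • (x - p), ⟨s, hs, x, hx, rfl⟩, by rw [f3 x (hsγ hx) s hs, f1 (hsγ hx)]⟩
  constructor
  · have h := (conBall_level ambDisc_Qs 0).image Φ.symm (subset_univ _)
    rwa [← g4, ← g3, show Φ.symm.toFun = Φ.invFun from rfl, Φ.image_inv_image,
      Φ.image_inv_image] at h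
  · apply ambStd_of_image Φ
    rw [image_union, g1, g4]
    obtain ⟨⟨Ψ, hΨ⟩, e, -⟩ := specCol Qs 0 1 ambDisc_Qs one_pos
    refine ⟨Ψ, ?_⟩
    have e' : Hu ∪ Qs ×ˢ {(0:ℝ)} = frontier (Qs ×ˢ Icc (0:ℝ) 1 : Set V) := by
      rw [e]
      ext x
      simp only [mem_union]
      tauto
    rw [e', Ψ.image_frontier, hΨ, frontier_closedBall _ one_ne_zero]

/-- a circle on a conical 2-sphere bounds two discs -/
theorem exists_two_discs {S γ : Set V} (hS : ConSphere 2 S) (hγ : ConSphere 1 γ) (hs : γ ⊆ S) :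
    ∃ D₁ D₂ : Set V, ConBall 2 D₁ γ ∧ ConBall 2 D₂ γ ∧ D₁ ∪ D₂ = S ∧ D₁ ∩ D₂ = γ := by
  obtain ⟨Φ⟩ := hS
  have hγ' : ConSphere 1 (Φ.toFun '' γ) := conSphere_image hγ Φ hs
  have hsub : Φ.toFun '' γ ⊆ sphere (0 : Fin 3 → ℝ) 1 := by
    rintro _ ⟨x, hx, rfl⟩; exact Φ.mapsTo (hs hx)
  obtain ⟨U, W, h1, h2, -, -, h5, h6⟩ := H339.jordanSch_sphere _ hsub hγ'
  have hU : U ⊆ sphere (0 : Fin 3 → ℝ) 1 := fun x hx => by
    have : x ∈ U ∪ W := Or.inl hx
    rw [h2] at this; exact this.1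
  have hW : W ⊆ sphere (0 : Fin 3 → ℝ) 1 := fun x hx => by
    have : x ∈ U ∪ W := Or.inr hx
    rw [h2] at this; exact this.1
  have e0 : Φ.symm.toFun '' (Φ.toFun '' γ) = γ := by
    show Φ.invFun '' (Φ.toFun '' γ) = γ
    rw [image_image, image_congr (fun x hx => Φ.left_inv (hs hx)), image_id']
  have i5 := h5.image Φ.symm (union_subset hU hsub)
  have i6 := h6.image Φ.symm (union_subset hW hsub)
  rw [e0] at i5 i6
  refine ⟨_, _, i5, i6, ?_, ?_⟩
  · rw [← image_union]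
    have : U ∪ Φ.toFun '' γ ∪ (W ∪ Φ.toFun '' γ) = sphere (0 : Fin 3 → ℝ) 1 := by
      rw [show U ∪ Φ.toFun '' γ ∪ (W ∪ Φ.toFun '' γ) = (U ∪ W) ∪ Φ.toFun '' γ by
        ext x; simp only [mem_union]; tauto, h2, sdiff_union_of_subset hsub]
    rw [this, Φ.symm.image_eq]
  · rw [← Φ.symm.injOn.image_inter (union_subset hU hsub) (union_subset hW hsub),
      ← inter_union_distrib_right, h1.inter_eq, empty_union, e0]

/-- the affine map `y ↦ p + ρ • y` -/
noncomputable def affV (p : V) {ρ : ℝ} (hρ : ρ ≠ 0) :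
    ConHomeo (univ : Set V) (univ : Set V) where
  toFun y := p + ρ • y
  invFun y := ρ⁻¹ • (y - p)
  mapsTo := mapsTo_univ _ _
  mapsTo_inv := mapsTo_univ _ _
  left_inv y _ := by
    simp only [add_sub_cancel_left, smul_smul, inv_mul_cancel₀ hρ, one_smul]
  right_inv y _ := by
    simp only [smul_smul, mul_inv_cancel₀ hρ, one_smul]; abel
  cont := Continuous.continuousOn (by fun_prop)
  cont_inv := Continuous.continuousOn (by fun_prop)
  conical := (conicalOn_const p cu).add ((conicalOn_id cu).const_smul ρ)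

theorem conSphere_sphere (p : V) {ρ : ℝ} (hρ : 0 < ρ) : ConSphere 2 (sphere p ρ) := by
  have h : ConSphere 2 (Hu ∪ Hd) := specTwoDiscs _ _ _ conBall_Hu conBall_Hd Hu_inter_Hd
  rw [Hu_union_Hd] at h
  have h2 := conSphere_image h (affV p hρ.ne') (subset_univ _)
  have e : (affV p hρ.ne').toFun '' sphere (0 : V) 1 = sphere p ρ := by
    ext y
    rw [ConHomeo.mem_image_iff]
    show ρ⁻¹ • (y - p) ∈ sphere (0 : V) 1 ↔ y ∈ sphere p ρ
    rw [mem_sphere_zero_iff_norm, mem_sphere_iff_norm, norm_smul, norm_inv, Real.norm_eq_abs,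
      abs_of_pos hρ, inv_mul_eq_iff_eq_mul₀ hρ.ne', mul_one]
  rwa [e] at h2

/-- **One box**, for norm balls: the cone of `S` in the ball is replaced by a disc of the sphere -/
theorem box_core {S : Set V} {p : V} {ρ : ℝ} (hρ : 0 < ρ) (hS : ConSphere 2 S) (hp : p ∈ S)
    (hC : ConeIn S p ρ) :
    ∃ D : Set V, D ⊆ sphere p ρ ∧ ConBall 2 D (S ∩ sphere p ρ) ∧
      (∀ C : Set V, IsPreconnected C → C ⊆ sphere p ρ \ S → C ⊆ D ∨ Disjoint C D) ∧
      ConSphere 2 (S \ closedBall p ρ ∪ D) ∧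
      (AmbStd (S \ closedBall p ρ ∪ D) → AmbStd S) := by
  set γ := S ∩ sphere p ρ with hγdef
  have hγ : ConSphere 1 γ := conSphere_link normCon_V hS hp hρ hC
  obtain ⟨D₁, D₂, b1, b2, bu, bi⟩ := exists_two_discs (conSphere_sphere p hρ) hγ inter_subset_right
  have hγne : γ.Nonempty := by
    obtain ⟨ψ⟩ := hγ
    have h1 : (sphere (0 : Fin 2 → ℝ) 1).Nonempty := ⟨fun _ => 1, by
      rw [mem_sphere_zero_iff_norm, pi_norm_const, norm_one]⟩
    rw [← ψ.symm.image_eq]
    exact h1.image _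
  -- the part inside
  have hcone : coneSetAt p γ = S ∩ closedBall p ρ := by
    apply Subset.antisymm
    · rintro _ ⟨s, hs, x, hx, rfl⟩
      have hxn : ‖x - p‖ = ρ := by
        have := hx.2
        rwa [mem_sphere, dist_eq_norm] at this
      refine ⟨?_, ?_⟩
      · rcases hs.1.eq_or_lt with h | h
        · rw [← h, zero_smul, add_zero]; exact hp
        · rw [hC (x - p) hxn.le s ⟨h, hs.2⟩, add_sub_cancel]; exact hx.1
      · rw [mem_closedBall, dist_eq_norm, add_sub_cancel_left, norm_smul, hxn, Real.norm_eq_abs,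
          abs_of_nonneg hs.1]
        exact mul_le_of_le_one_left hρ.le hs.2
    · rintro x ⟨hxS, hxb⟩
      rw [mem_closedBall, dist_eq_norm] at hxb
      by_cases hx : x = p
      · obtain ⟨y, hy⟩ := hγne
        exact ⟨0, ⟨le_rfl, zero_le_one⟩, y, hy, by rw [zero_smul, add_zero, hx]⟩
      · have hn : 0 < ‖x - p‖ := norm_pos_iff.2 (sub_ne_zero.2 hx)
        have hs0 : 0 < ‖x - p‖ / ρ := div_pos hn hρ
        have hs1 : ‖x - p‖ / ρ ≤ 1 := (div_le_one hρ).2 hxb
        have hvn : ‖(ρ / ‖x - p‖) • (x - p)‖ = ρ := by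
          rw [norm_smul, Real.norm_eq_abs, abs_of_pos (div_pos hρ hn), div_mul_cancel₀ _ hn.ne']
        have hcomb : (‖x - p‖ / ρ) • ((ρ / ‖x - p‖) • (x - p)) = x - p := by
          rw [smul_smul, div_mul_div_cancel₀ hρ.ne', div_self hn.ne', one_smul]
        have key := hC ((ρ / ‖x - p‖) • (x - p)) hvn.le (‖x - p‖ / ρ) ⟨hs0, hs1⟩
        rw [hcomb, add_sub_cancel] at key
        refine ⟨‖x - p‖ / ρ, ⟨hs0.le, hs1⟩, p + (ρ / ‖x - p‖) • (x - p), ⟨key.1 hxS, ?_⟩, ?_⟩
        · rw [mem_sphere, dist_eq_norm, add_sub_cancel_left, hvn]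
        · rw [add_sub_cancel_left, hcomb, add_sub_cancel]
  obtain ⟨cA, sA⟩ := cone_halves hρ b1 b2 bu bi
  rw [hcone] at cA sA
  -- the part outside
  have hout : ConBall 2 (S \ closedBall p ρ ∪ γ) γ := by
    have key : ∀ U W : Set V, ConBall 2 U γ → ConBall 2 W γ → U ∪ W = S → U ∩ W = γ →
        S ∩ ball p ρ ⊆ U → ConBall 2 (S \ closedBall p ρ ∪ γ) γ := by
      intro U W u1 u2 u3 u4 hsub
      have hU : U \ γ ⊆ ball p ρ := by
        refine IsPreconnected.subset_left_of_subset_union (v := (closedBall p ρ)ᶜ) isOpen_ball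
          isClosed_closedBall.isOpen_compl ?_ ?_ ?_ u1.open_isPreconnected.1
        · exact disjoint_compl_right_iff_subset.2 ball_subset_closedBall
        · rintro x ⟨hxU, hxγ⟩
          rcases lt_trichotomy (dist x p) ρ with h | h | h
          · exact Or.inl h
          · exact absurd ⟨u3.subset (Or.inl hxU), h⟩ hxγ
          · exact Or.inr (not_le.2 h)
        · refine ⟨p, ⟨hsub ⟨hp, mem_ball_self hρ⟩, fun h => ?_⟩, mem_ball_self hρ⟩
          have := h.2
          rw [mem_sphere, dist_self] at this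
          exact hρ.ne this
      have hW : W = S \ closedBall p ρ ∪ γ := by
        ext x
        constructor
        · intro hx
          by_cases hxγ : x ∈ γ
          · exact Or.inr hxγ
          · have hxS : x ∈ S := u3.subset (Or.inr hx)
            refine Or.inl ⟨hxS, fun hb => ?_⟩
            rcases (mem_closedBall.1 hb).eq_or_lt with h | h
            · exact hxγ ⟨hxS, h⟩
            · exact hxγ (u4.subset ⟨hsub ⟨hxS, h⟩, hx⟩)
        · rintro (⟨hxS, hxb⟩ | hx)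
          · rcases u3.symm.subset hxS with h | h
            · exfalso
              exact hxb (ball_subset_closedBall (hU ⟨h, fun hγ' =>
                hxb (sphere_subset_closedBall hγ'.2)⟩))
            · exact h
          · exact u2.1 hx
      rw [← hW]; exact u2
    obtain ⟨U, W, u1, u2, u3, u4⟩ := exists_two_discs hS hγ inter_subset_left
    have hAγ : (S ∩ closedBall p ρ) \ γ = S ∩ ball p ρ := by
      ext x
      constructor
      · rintro ⟨⟨h1, h2⟩, h3⟩
        exact ⟨h1, lt_of_le_of_ne h2 fun h => h3 ⟨h1, h⟩⟩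
      · rintro ⟨h1, h2⟩
        exact ⟨⟨h1, ball_subset_closedBall h2⟩, fun h => (ne_of_lt h2) h.2⟩
    have hpre : IsPreconnected (S ∩ ball p ρ) := by
      rw [← hAγ]; exact cA.open_isPreconnected.1
    rcases IsPreconnected.subset_or hpre u1.isClosed u2.isClosed
      (inter_subset_left.trans u3.symm.subset) (fun x hx h1 h2 => by
        have h3 : x ∈ γ := u4.subset ⟨h1, h2⟩
        exact (ne_of_lt hx.2) h3.2) with h | h
    · exact key U W u1 u2 u3 u4 h
    · exact key W U u2 u1 (by rw [union_comm]; exact u3) (by rw [inter_comm]; exact u4) h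
  have hD1 : D₁ ⊆ sphere p ρ := by rw [← bu]; exact subset_union_left
  have hD1S : D₁ ∩ S = γ := by
    apply Subset.antisymm
    · exact fun x hx => ⟨hx.2, hD1 hx.1⟩
    · exact fun x hx => ⟨b1.1 hx, hx.1⟩
  have hOD : (S \ closedBall p ρ ∪ γ) ∩ D₁ = γ := by
    apply Subset.antisymm
    · rintro x ⟨h | h, h'⟩
      · exact absurd (sphere_subset_closedBall (hD1 h')) h.2
      · exact h
    · exact fun x hx => ⟨Or.inr hx, b1.1 hx⟩
  have hOu : S \ closedBall p ρ ∪ γ ∪ D₁ = S \ closedBall p ρ ∪ D₁ := by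
    rw [union_assoc, union_eq_self_of_subset_left b1.1]
  refine ⟨D₁, hD1, b1, ?_, ?_, ?_⟩
  · intro C hC hCs
    rcases IsPreconnected.subset_or hC b1.isClosed b2.isClosed
      (fun x hx => bu.symm.subset (hCs hx).1) (fun x hx h1 h2 => by
        have h3 : x ∈ γ := bi.subset ⟨h1, h2⟩
        exact (hCs hx).2 h3.1) with h | h
    · exact Or.inl h
    · refine Or.inr (disjoint_left.2 fun x hx hx1 => ?_)
      have h3 : x ∈ γ := bi.subset ⟨hx1, h hx⟩
      exact (hCs hx).2 h3.1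
  · rw [← hOu]; exact specTwoDiscs _ _ _ hout b1 hOD
  · intro hst
    have h1 : (S \ closedBall p ρ ∪ γ) ∩ (S ∩ closedBall p ρ) = γ := by
      apply Subset.antisymm
      · rintro x ⟨h | h, h'⟩
        · exact absurd h'.2 h.2
        · exact h
      · exact fun x hx => ⟨Or.inr hx, hx.1, sphere_subset_closedBall hx.2⟩
    have h2 : (S ∩ closedBall p ρ) ∩ D₁ = γ := by
      apply Subset.antisymm
      · rintro x ⟨h, h'⟩
        exact ⟨h.1, hD1 h'⟩
      · exact fun x hx => ⟨⟨hx.1, sphere_subset_closedBall hx.2⟩, b1.1 hx⟩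
    have h3 := specGL _ _ _ _ hout cA b1 h1 hOD h2 (by rw [hOu]; exact hst)
      (by rw [union_comm]; exact sA)
    have h4 : S \ closedBall p ρ ∪ γ ∪ S ∩ closedBall p ρ = S := by
      ext x
      constructor
      · rintro ((h | h) | h)
        · exact h.1
        · exact h.1
        · exact h.1
      · intro hx
        by_cases hb : x ∈ closedBall p ρ
        · exact Or.inr ⟨hx, hb⟩
        · exact Or.inl (Or.inl ⟨hx, hb⟩)
    rwa [h4] at h3

/-- **(g2)** -/
theorem specBox : SpecBox := by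
  intro S w₀ ρ c δ hS hρ hδ hp hC
  have hr : 0 < ρ / δ := div_pos hρ hδ
  -- rescale the height
  let L := vaff (c - ρ / δ * c) (ρ / δ) hr.ne'
  have hL : ∀ x : V, L.toFun x = (x.1, c + ρ / δ * (x.2 - c)) := fun x => by
    show (x.1, c - ρ / δ * c + ρ / δ * x.2) = _
    congr 1; ring
  have hLi : ∀ x : V, L.invFun x = (x.1, c + δ / ρ * (x.2 - c)) := fun x => by
    show (x.1, (x.2 - (c - ρ / δ * c)) / (ρ / δ)) = _
    congr 1; field_simp; ring
  have hbx : L.toFun '' bx w₀ ρ c δ = closedBall ((w₀, c) : V) ρ := by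
    ext x
    rw [ConHomeo.mem_image_iff, hLi, mem_closedBall, dist_eq_norm, Prod.norm_def, max_le_iff]
    show (x.1 ∈ closedBall w₀ ρ ∧ c + δ / ρ * (x.2 - c) ∈ Icc (c - δ) (c + δ)) ↔
      ‖x.1 - w₀‖ ≤ ρ ∧ ‖x.2 - c‖ ≤ ρ
    rw [mem_closedBall, dist_eq_norm, mem_Icc, Real.norm_eq_abs (x.2 - c), abs_le]
    have e : δ / ρ * (x.2 - c) = (x.2 - c) / ρ * δ := by ring
    constructor
    · rintro ⟨h1, h2, h3⟩
      refine ⟨h1, ?_, ?_⟩
      · have : -1 * δ ≤ (x.2 - c) / ρ * δ := by linarith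
        have := le_of_mul_le_mul_right this hδ
        rw [le_div_iff₀ hρ] at this; linarith
      · have : (x.2 - c) / ρ * δ ≤ 1 * δ := by linarith
        have := le_of_mul_le_mul_right this hδ
        rw [div_le_iff₀ hρ] at this; linarith
    · rintro ⟨h1, h2, h3⟩
      have h2' : -1 ≤ (x.2 - c) / ρ := by rw [le_div_iff₀ hρ]; linarith
      have h3' : (x.2 - c) / ρ ≤ 1 := by rw [div_le_iff₀ hρ]; linarith
      refine ⟨h1, ?_, ?_⟩ <;> nlinarith
  have hfr : L.toFun '' frontier (bx w₀ ρ c δ) = sphere ((w₀, c) : V) ρ := by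
    rw [L.image_frontier, hbx, frontier_closedBall _ hρ.ne']
  have hcone : ConeIn (L.toFun '' S) ((w₀, c) : V) ρ := by
    rintro ⟨v, z⟩ hv s hs
    rw [Prod.norm_def, max_le_iff] at hv
    have hz : |c + δ / ρ * z - c| ≤ δ := by
      rw [add_sub_cancel_left, abs_mul, abs_of_pos (div_pos hδ hρ), div_mul_eq_mul_div,
        div_le_iff₀ hρ]
      have : |z| ≤ ρ := hv.2
      nlinarith
    have h1 := hC (w₀ + v) (c + δ / ρ * z) s (by rw [add_sub_cancel_left]; exact hv.1) hz hs.1 hs.2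
    rw [ConHomeo.mem_image_iff, ConHomeo.mem_image_iff, hLi, hLi]
    have e1 : (((w₀, c) : V) + s • ((v, z) : V)) = (w₀ + s • v, c + s * z) := rfl
    have e2 : (((w₀, c) : V) + ((v, z) : V)) = (w₀ + v, c + z) := rfl
    rw [e1, e2]
    simp only [add_sub_cancel_left] at h1 ⊢
    rw [← h1]
    have e3 : δ / ρ * (s * z) = s * (δ / ρ * z) := by ring
    rw [e3]
  have hpL : ((w₀, c) : V) ∈ L.toFun '' S := by
    rw [ConHomeo.mem_image_iff, hLi]
    simpa using hp
  obtain ⟨D, d1, d2, d3, d4, d5⟩ := box_core hρ (conSphere_image hS L (subset_univ _)) hpL hcone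
  have hDD : L.toFun '' (L.invFun '' D) = D := L.image_image_inv D
  have hinv : ∀ X : Set V, L.symm.toFun '' (L.toFun '' X) = X := fun X => L.image_inv_image X
  have hSf : L.toFun '' (S ∩ frontier (bx w₀ ρ c δ)) = L.toFun '' S ∩ sphere ((w₀, c) : V) ρ := by
    rw [image_inter L.injective, hfr]
  have hSD : L.toFun '' (S \ bx w₀ ρ c δ ∪ L.invFun '' D) =
      L.toFun '' S \ closedBall ((w₀, c) : V) ρ ∪ D := by
    rw [image_union, image_sdiff L.injective, hbx, hDD]
  refine ⟨L.invFun '' D, ?_, ?_, ?_, ?_, ?_⟩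
  · rw [← L.image_inv_image (frontier (bx w₀ ρ c δ)), hfr]
    exact image_mono d1
  · have h := d2.image L.symm (subset_univ _)
    rw [← hSf, hinv] at h
    exact h
  · intro C hCp hCs
    have h1 : L.toFun '' C ⊆ sphere ((w₀, c) : V) ρ \ L.toFun '' S := by
      rw [← hfr, ← image_sdiff L.injective]
      exact image_mono hCs
    rcases d3 _ (hCp.image _ L.continuous.continuousOn) h1 with h | h
    · left
      rw [← L.image_inv_image C]
      exact image_mono h
    · right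
      rw [← hDD, disjoint_image_iff L.injective] at h
      exact h
  · rw [← hSD] at d4
    have h := conSphere_image d4 L.symm (subset_univ _)
    rwa [hinv] at h
  · intro h
    rw [← hSD] at d5
    exact ambStd_of_image L (d5 (ambStd_image L h))

end P073.ALX
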