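import Vale.Agent.P073.H894.Glue

/-!
# P073 (helper894): columns over planar discs are ambient balls; the product form
`(ℝ × ℝ) × ℝ` of the ambient space
-/

open Set Metric Topology Filter

namespace P073

open Push

/-- the product form of three-space -/
abbrev W3 : Type := (ℝ × ℝ) × ℝ

/-- the isometric linear identification -/
def toV3L : W3 →ₗ[ℝ] V3 where
  toFun p := ![p.1.1, p.1.2, p.2]
  map_add' p q := by funext i; fin_cases i <;> rfl
  map_smul' c p := by funext i; fin_cases i <;> simp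

/-- its inverse -/
def ofV3L : V3 →ₗ[ℝ] W3 where
  toFun x := ((x 0, x 1), x 2)
  map_add' _ _ := rfl
  map_smul' _ _ := rfl

theorem ofV3L_toV3L (p : W3) : ofV3L (toV3L p) = p := rfl

theorem toV3L_ofV3L (x : V3) : toV3L (ofV3L x) = x := by
  funext i; fin_cases i <;> rfl

/-- the identification as an ambient conical homeomorphism -/
noncomputable def toV3 : ConHomeo (univ : Set W3) (univ : Set V3) where
  toFun := toV3L
  invFun := ofV3L
  mapsTo := mapsTo_univ _ _
  mapsTo_inv := mapsTo_univ _ _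
  left_inv := fun p _ => ofV3L_toV3L p
  right_inv := fun x _ => toV3L_ofV3L x
  cont := (toV3L.continuous_of_finiteDimensional).continuousOn
  cont_inv := (ofV3L.continuous_of_finiteDimensional).continuousOn
  conical := conicalOn_linear toV3L (IsOpen.conicalSet isOpen_univ)

theorem toV3_toFun (p : W3) : toV3.toFun p = ![p.1.1, p.1.2, p.2] := rfl

theorem toV3_invFun (x : V3) : toV3.invFun x = ((x 0, x 1), x 2) := rfl

theorem norm_V3 (x : V3) : ‖x‖ = max (max |x 0| |x 1|) |x 2| := by
  apply le_antisymm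
  · rw [pi_norm_le_iff_of_nonneg (le_max_of_le_right (abs_nonneg _))]
    intro i
    rw [Real.norm_eq_abs]
    fin_cases i
    · exact (le_max_left _ _).trans (le_max_left _ _)
    · exact (le_max_right _ _).trans (le_max_left _ _)
    · exact le_max_right _ _
  · have h : ∀ i, |x i| ≤ ‖x‖ := fun i => by
      have := norm_le_pi_norm x i
      rwa [Real.norm_eq_abs] at this
    exact max_le (max_le (h 0) (h 1)) (h 2)

theorem norm_toV3 (p : W3) : ‖toV3.toFun p‖ = ‖p‖ := by
  rw [norm_V3, Prod.norm_def, Prod.norm_def]; rfl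

theorem toV3_image_closedBall (r : ℝ) : toV3.toFun '' closedBall 0 r = closedBall 0 r := by
  ext x
  rw [ConHomeo.mem_image_iff, mem_closedBall_zero_iff, mem_closedBall_zero_iff, ← norm_toV3,
    toV3.apply_inv]

theorem toV3_image_sphere (r : ℝ) : toV3.toFun '' sphere 0 r = sphere 0 r := by
  ext x
  rw [ConHomeo.mem_image_iff, mem_sphere_zero_iff_norm, mem_sphere_zero_iff_norm, ← norm_toV3,
    toV3.apply_inv]

/-- standard spheres in a space isomorphic to `V3` -/
def StdSphIn {E : Type*} [NormedAddCommGroup E] [NormedSpace ℝ E] (S : Set E) : Prop :=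
  ∃ Φ : ConHomeo (univ : Set E) (univ : Set V3), Φ.toFun '' S = sphere 0 1

theorem stdSphIn_iff {S : Set V3} : StdSphIn S ↔ StdSph S := Iff.rfl

theorem stdSphIn_image_iff {E F : Type*} [NormedAddCommGroup E] [NormedSpace ℝ E]
    [NormedAddCommGroup F] [NormedSpace ℝ F] (L : ConHomeo (univ : Set E) (univ : Set F))
    {S : Set E} : StdSphIn (L.toFun '' S) ↔ StdSphIn S := by
  constructor
  · rintro ⟨Φ, hΦ⟩
    exact ⟨L.trans Φ, by rw [ConHomeo.trans_toFun, image_comp, hΦ]⟩
  · rintro ⟨Φ, hΦ⟩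
    exact ⟨L.symm.trans Φ, by
      rw [ConHomeo.trans_toFun, image_comp, ConHomeo.symm_toFun, L.image_inv_image, hΦ]⟩

/-- in `W3` the target can be `W3` itself -/
theorem stdSphIn_W3_iff {S : Set W3} : StdSphIn S ↔
    ∃ Φ : ConHomeo (univ : Set W3) (univ : Set W3), Φ.toFun '' S = sphere 0 1 := by
  constructor
  · rintro ⟨Φ, hΦ⟩
    refine ⟨Φ.trans toV3.symm, ?_⟩
    rw [ConHomeo.trans_toFun, image_comp, hΦ, ← toV3_image_sphere, ConHomeo.symm_toFun,
      toV3.image_inv_image]
  · rintro ⟨Φ, hΦ⟩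
    exact ⟨Φ.trans toV3, by rw [ConHomeo.trans_toFun, image_comp, hΦ, toV3_image_sphere]⟩

/-- **GL** in any space isomorphic to three-space -/
theorem glue_spheres_in {E : Type*} [NormedAddCommGroup E] [NormedSpace ℝ E]
    (L : ConHomeo (univ : Set E) (univ : Set V3)) {A₁ A₂ D γ : Set E} (c₁ : ConBall 2 A₁ γ)
    (c₂ : ConBall 2 A₂ γ) (cE : ConBall 2 D γ) (h12 : A₁ ∩ A₂ = γ) (h1E : A₁ ∩ D = γ)
    (h2E : A₂ ∩ D = γ) (h₁ : StdSphIn (A₁ ∪ D)) (h₂ : StdSphIn (A₂ ∪ D)) :
    StdSphIn (A₁ ∪ A₂) := by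
  rw [← stdSphIn_image_iff L, image_union] at h₁ h₂ ⊢
  refine glue_spheres (c₁.image L (subset_univ _)) (c₂.image L (subset_univ _))
    (cE.image L (subset_univ _)) ?_ ?_ ?_ h₁ h₂
  · rw [← image_inter L.injective, h12]
  · rw [← image_inter L.injective, h1E]
  · rw [← image_inter L.injective, h2E]

/-- the product of a planar ambient homeomorphism with the identity of the line -/
noncomputable def prodId (ψ : ConHomeo (univ : Set (ℝ × ℝ)) (univ : Set (ℝ × ℝ))) :
    ConHomeo (univ : Set W3) (univ : Set W3) where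
  toFun := fun p => (ψ.toFun p.1, p.2)
  invFun := fun p => (ψ.invFun p.1, p.2)
  mapsTo := mapsTo_univ _ _
  mapsTo_inv := mapsTo_univ _ _
  left_inv := fun p _ => by simp only [ψ.inv_apply]
  right_inv := fun p _ => by simp only [ψ.apply_inv]
  cont := ((ψ.continuous.comp continuous_fst).prodMk continuous_snd).continuousOn
  cont_inv := ((ψ.continuous_inv.comp continuous_fst).prodMk continuous_snd).continuousOn
  conical := by
    have h1 : ConicalOn (fun p : W3 => p.1) univ :=
      conicalOn_linear (LinearMap.fst ℝ (ℝ × ℝ) ℝ) (IsOpen.conicalSet isOpen_univ)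
    have h2 : ConicalOn (fun p : W3 => p.2) univ :=
      conicalOn_linear (LinearMap.snd ℝ (ℝ × ℝ) ℝ) (IsOpen.conicalSet isOpen_univ)
    exact (ψ.conical.comp h1 (mapsTo_univ _ _) continuous_fst.continuousOn).prodMk h2

theorem prodId_image (ψ : ConHomeo (univ : Set (ℝ × ℝ)) (univ : Set (ℝ × ℝ)))
    (D : Set (ℝ × ℝ)) (I : Set ℝ) : (prodId ψ).toFun '' (D ×ˢ I) = (ψ.toFun '' D) ×ˢ I := by
  ext p
  constructor
  · rintro ⟨q, ⟨h1, h2⟩, rfl⟩; exact ⟨⟨q.1, h1, rfl⟩, h2⟩
  · rintro ⟨⟨q, h1, h2⟩, h3⟩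
    refine ⟨(q, p.2), ⟨h1, h3⟩, ?_⟩
    show (ψ.toFun q, p.2) = p
    rw [h2]

/-- **columns**: the frontier of a column over a planar disc is standard -/
theorem stdSphIn_column {D : Set (ℝ × ℝ)} (hD : AmbDisc D) {a b : ℝ} (hab : a < b) :
    ∃ Φ : ConHomeo (univ : Set W3) (univ : Set V3), Φ.toFun '' (D ×ˢ Icc a b) = closedBall 0 1 := by
  obtain ⟨ψ, rfl⟩ := hD
  -- affine map of the vertical coordinate
  have hba : 0 < (b - a) / 2 := by linarith
  have hne : b - a ≠ 0 := by linarith
  let σ : ConHomeo (univ : Set W3) (univ : Set W3) :=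
    { toFun := fun p => (p.1, (a + b) / 2 + (b - a) / 2 * p.2)
      invFun := fun p => (p.1, (p.2 - (a + b) / 2) / ((b - a) / 2))
      mapsTo := mapsTo_univ _ _
      mapsTo_inv := mapsTo_univ _ _
      left_inv := fun p _ => by
        ext
        · rfl
        · rfl
        · show ((a + b) / 2 + (b - a) / 2 * p.2 - (a + b) / 2) / ((b - a) / 2) = p.2
          rw [add_sub_cancel_left]
          field_simp
      right_inv := fun p _ => by
        ext
        · rfl
        · rfl
        · show (a + b) / 2 + (b - a) / 2 * ((p.2 - (a + b) / 2) / ((b - a) / 2)) = p.2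
          rw [mul_div_cancel₀ _ hba.ne', add_sub_cancel]
      cont := by fun_prop
      cont_inv := by fun_prop
      conical := by
        have h1 : ConicalOn (fun p : W3 => p.1) univ :=
          conicalOn_linear (LinearMap.fst ℝ (ℝ × ℝ) ℝ) (IsOpen.conicalSet isOpen_univ)
        have h2 : ConicalOn (fun p : W3 => p.2) univ :=
          conicalOn_linear (LinearMap.snd ℝ (ℝ × ℝ) ℝ) (IsOpen.conicalSet isOpen_univ)
        refine h1.prodMk ?_
        exact (conicalOn_const _ (IsOpen.conicalSet isOpen_univ)).add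
          ((h2.const_smul ((b - a) / 2)).congr fun p _ => by simp) }
  refine ⟨((prodId ψ).symm.trans σ.symm).trans toV3, ?_⟩
  rw [ConHomeo.trans_toFun, image_comp, ConHomeo.trans_toFun, image_comp, ← prodId_image,
    show (prodId ψ).symm.toFun = (prodId ψ).invFun from rfl, (prodId ψ).image_inv_image]
  have h2 : σ.symm.toFun '' (closedBall (0 : ℝ × ℝ) 1 ×ˢ Icc a b) = closedBall (0 : W3) 1 := by
    ext p
    rw [ConHomeo.mem_image_iff, mem_closedBall_zero_iff, Prod.norm_def, max_le_iff]
    show (p.1 ∈ closedBall (0 : ℝ × ℝ) 1 ∧ (a + b) / 2 + (b - a) / 2 * p.2 ∈ Icc a b) ↔ _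
    rw [mem_closedBall_zero_iff, mem_Icc, Real.norm_eq_abs, abs_le]
    constructor
    · rintro ⟨h1, h3, h4⟩
      refine ⟨h1, ?_, ?_⟩
      · by_contra hc
        push Not at hc
        have := mul_lt_mul_of_pos_left hc hba
        linarith
      · by_contra hc
        push Not at hc
        have := mul_lt_mul_of_pos_left hc hba
        linarith
    · rintro ⟨h1, h3, h4⟩
      refine ⟨h1, ?_, ?_⟩
      · have := mul_le_mul_of_nonneg_left h3 hba.le
        linarith
      · have := mul_le_mul_of_nonneg_left h4 hba.le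
        linarith
  rw [h2, toV3_image_closedBall]

/-- the surface of a column -/
theorem column_sphere {D : Set (ℝ × ℝ)} (hD : AmbDisc D) {a b : ℝ} (hab : a < b) :
    StdSphIn (frontier (D ×ˢ Icc a b) : Set W3) := by
  obtain ⟨Φ, hΦ⟩ := stdSphIn_column hD hab
  exact ⟨Φ, by rw [Φ.image_frontier, hΦ, frontier_cube]⟩

theorem column_frontier {D : Set (ℝ × ℝ)} (hD : AmbDisc D) {a b : ℝ} (hab : a < b) :
    (frontier (D ×ˢ Icc a b) : Set W3) = frontier D ×ˢ Icc a b ∪ D ×ˢ {a, b} := by
  rw [frontier_prod_eq, hD.isClosed.closure_eq, closure_Icc, frontier_Icc hab.le, union_comm]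

theorem column_sphere' {D : Set (ℝ × ℝ)} (hD : AmbDisc D) {a b : ℝ} (hab : a < b) :
    StdSphIn (frontier D ×ˢ Icc a b ∪ D ×ˢ {a, b} : Set W3) := by
  rw [← column_frontier hD hab]; exact column_sphere hD hab

end P073
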