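import Vale.Agent.P073.H894.Column
import Vale.Agent.P073.ALX.Spec

/-!
# P073 (helper894): the statements `SpecGL`, `SpecPush`, `SpecTwoDiscs`, `SpecCol` of block ALX
-/

open Set Metric Topology Filter

namespace P073.ALX

open P073 P073.Push

theorem specGL : SpecGL := by
  intro A₁ A₂ D c c₁ c₂ cD h12 h1 h2 s1 s2
  exact glue_spheres_in toV3 c₁ c₂ cD h12 h1 h2 s1 s2

theorem ambBall_toV3 {Y : Set V} (h : AmbBall Y) : P073.AmbBall (toV3.toFun '' Y) := by
  obtain ⟨Φ, hΦ⟩ := h
  refine ⟨Φ.symm.trans toV3, ?_⟩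
  rw [ConHomeo.trans_toFun, image_comp, ← hΦ, show Φ.symm.toFun = Φ.invFun from rfl,
    Φ.image_inv_image]

theorem specPush : SpecPush := by
  intro O Y D D' c hO hOc hY hD hD' hDD hc hOY hnh
  obtain ⟨Φ, hΦ⟩ := (ambBall_toV3 hY).exists_chart
  have hinj := toV3.injective
  obtain ⟨Ψ, h1, -, -⟩ := push (Y := toV3.toFun '' Y) (D := toV3.toFun '' D)
    (D' := toV3.toFun '' D') (γ := toV3.toFun '' c) (O := toV3.toFun '' O) Φ hΦ
    (by rw [← image_union, hDD, toV3.image_frontier])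
    (by rw [← image_inter hinj, hc]) (hD.image toV3 (subset_univ _)) (hD'.image toV3 (subset_univ _))
    (toV3.isClosed_image hO) (hOc.image toV3) (by rw [← image_inter hinj, hOY])
    (by
      rintro _ ⟨x, hx, rfl⟩ hxc
      rw [← image_union]
      refine toV3.image_mem_nhds (mem_interior_iff_mem_nhds.1 (hnh ⟨hx, fun h => hxc ?_⟩))
      exact mem_image_of_mem _ h)
    isOpen_univ (subset_univ _)
  refine ⟨(toV3.trans Ψ).trans toV3.symm, ?_⟩
  rw [ConHomeo.trans_toFun, image_comp, ConHomeo.trans_toFun, image_comp, image_union, h1,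
    show toV3.symm.toFun = toV3.invFun from rfl, toV3.image_inv_image]

theorem specTwoDiscs : SpecTwoDiscs := by
  intro A₁ A₂ c h₁ h₂ h12
  obtain ⟨θ, -, -, -⟩ := exists_sphere_homeo h₁ h₂ h12 conBall_upperHemi conBall_lowerHemi
    upperHemi_inter_lowerHemi
  exact ⟨θ.cast rfl upperHemi_union_lowerHemi⟩

/-- vertical affine map -/
noncomputable def vaff (a s : ℝ) (hs : s ≠ 0) : ConHomeo (univ : Set V) (univ : Set V) where
  toFun := fun p => (p.1, a + s * p.2)
  invFun := fun p => (p.1, (p.2 - a) / s)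
  mapsTo := mapsTo_univ _ _
  mapsTo_inv := mapsTo_univ _ _
  left_inv := fun p _ => by
    ext
    · rfl
    · rfl
    · show (a + s * p.2 - a) / s = p.2
      rw [add_sub_cancel_left, mul_div_cancel_left₀ _ hs]
  right_inv := fun p _ => by
    ext
    · rfl
    · rfl
    · show a + s * ((p.2 - a) / s) = p.2
      rw [mul_div_cancel₀ _ hs, add_sub_cancel]
  cont := by fun_prop
  cont_inv := by fun_prop
  conical := by
    have h1 : ConicalOn (fun p : V => p.1) univ :=
      conicalOn_linear (LinearMap.fst ℝ (ℝ × ℝ) ℝ) (IsOpen.conicalSet isOpen_univ)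
    have h2 : ConicalOn (fun p : V => p.2) univ :=
      conicalOn_linear (LinearMap.snd ℝ (ℝ × ℝ) ℝ) (IsOpen.conicalSet isOpen_univ)
    refine h1.prodMk ?_
    exact (conicalOn_const a (IsOpen.conicalSet isOpen_univ)).add
      ((h2.const_smul s).congr fun p _ => by simp)

theorem upperHemi_eq : toV3.invFun '' upperHemi =
    (sphere (0 : P) 1 ×ˢ Icc (0:ℝ) 1 ∪ closedBall (0 : P) 1 ×ˢ {(1:ℝ)} : Set V) := by
  ext p
  rw [show toV3.invFun = toV3.symm.toFun from rfl, ConHomeo.mem_image_iff]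
  show (toV3.toFun p ∈ sphere (0 : V3) 1 ∧ 0 ≤ p.2) ↔ _
  rw [mem_sphere_zero_iff_norm, norm_toV3, Prod.norm_def, mem_union, mem_prod, mem_prod,
    mem_sphere_zero_iff_norm, mem_closedBall_zero_iff, mem_Icc, mem_singleton_iff,
    Real.norm_eq_abs]
  constructor
  · rintro ⟨h1, h2⟩
    rw [abs_of_nonneg h2] at h1
    rcases max_choice ‖p.1‖ p.2 with h | h
    · rw [h] at h1
      exact Or.inl ⟨h1, h2, by rw [← h1, ← h]; exact le_max_right _ _⟩
    · rw [h] at h1
      refine Or.inr ⟨?_, h1⟩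
      rw [← h1, ← h]; exact le_max_left _ _
  · rintro (⟨h1, h2, h3⟩ | ⟨h1, h2⟩)
    · rw [abs_of_nonneg h2, h1]
      exact ⟨max_eq_left h3, h2⟩
    · rw [h2, abs_one]
      exact ⟨max_eq_right h1, zero_le_one⟩

theorem lowerHemi_eq : toV3.invFun '' lowerHemi =
    (sphere (0 : P) 1 ×ˢ Icc (-1:ℝ) 0 ∪ closedBall (0 : P) 1 ×ˢ {(-1:ℝ)} : Set V) := by
  ext p
  rw [show toV3.invFun = toV3.symm.toFun from rfl, ConHomeo.mem_image_iff]
  show (toV3.toFun p ∈ sphere (0 : V3) 1 ∧ p.2 ≤ 0) ↔ _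
  rw [mem_sphere_zero_iff_norm, norm_toV3, Prod.norm_def, mem_union, mem_prod, mem_prod,
    mem_sphere_zero_iff_norm, mem_closedBall_zero_iff, mem_Icc, mem_singleton_iff,
    Real.norm_eq_abs]
  constructor
  · rintro ⟨h1, h2⟩
    rw [abs_of_nonpos h2] at h1
    rcases max_choice ‖p.1‖ (-p.2) with h | h
    · rw [h] at h1
      have : -p.2 ≤ 1 := by rw [← h1, ← h]; exact le_max_right _ _
      exact Or.inl ⟨h1, by linarith, h2⟩
    · rw [h] at h1
      refine Or.inr ⟨?_, by linarith⟩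
      rw [← h1, ← h]; exact le_max_left _ _
  · rintro (⟨h1, h2, h3⟩ | ⟨h1, h2⟩)
    · rw [abs_of_nonpos h3, h1]
      exact ⟨max_eq_left (by linarith), h3⟩
    · rw [h2, abs_neg, abs_one]
      exact ⟨max_eq_right h1, by norm_num⟩

theorem equator_eq : toV3.invFun '' equator3 = (sphere (0 : P) 1 ×ˢ {(0:ℝ)} : Set V) := by
  ext p
  rw [show toV3.invFun = toV3.symm.toFun from rfl, ConHomeo.mem_image_iff]
  show (toV3.toFun p ∈ sphere (0 : V3) 1 ∧ p.2 = 0) ↔ _
  rw [mem_sphere_zero_iff_norm, norm_toV3, Prod.norm_def, mem_prod,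
    mem_sphere_zero_iff_norm, mem_singleton_iff, Real.norm_eq_abs]
  constructor
  · rintro ⟨h1, h2⟩
    rw [h2, abs_zero, max_eq_left (norm_nonneg _)] at h1
    exact ⟨h1, h2⟩
  · rintro ⟨h1, h2⟩
    rw [h2, abs_zero, max_eq_left (norm_nonneg _)]
    exact ⟨h1, rfl⟩

theorem vaff_image (a s : ℝ) (hs : s ≠ 0) (D : Set P) (I : Set ℝ) :
    (vaff a s hs).toFun '' (D ×ˢ I) = D ×ˢ ((fun z => a + s * z) '' I) := by
  ext p
  constructor
  · rintro ⟨q, ⟨h1, h2⟩, rfl⟩; exact ⟨h1, q.2, h2, rfl⟩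
  · rintro ⟨h1, z, hz, h3⟩
    refine ⟨(p.1, z), ⟨h1, hz⟩, ?_⟩
    show (p.1, a + s * z) = p
    ext
    · rfl
    · rfl
    · exact h3

theorem affine_image_Icc {a s : ℝ} (hs : 0 < s) (c d : ℝ) :
    (fun z => a + s * z) '' Icc c d = Icc (a + s * c) (a + s * d) := by
  have h1 : (fun z => a + s * z) = (fun z => a + z) ∘ fun z => s * z := rfl
  rw [h1, image_comp, image_mul_left_Icc' hs, image_const_add_Icc]

/-- the two cups over a planar disc -/
theorem conBall_cups {D : Set P} (hD : AmbDisc D) {a b : ℝ} (hab : a < b) :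
    ConBall 2 (frontier D ×ˢ Icc a b ∪ D ×ˢ {b} : Set V) (frontier D ×ˢ {a}) ∧
    ConBall 2 (frontier D ×ˢ Icc a b ∪ D ×ˢ {a} : Set V) (frontier D ×ˢ {b}) := by
  obtain ⟨ψ, rfl⟩ := hD
  have hs : (0:ℝ) < b - a := by linarith
  have hfr : frontier (ψ.toFun '' closedBall (0 : P) 1) = ψ.toFun '' sphere 0 1 := by
    rw [← ψ.image_frontier, frontier_square]
  constructor
  · have h := ((conBall_upperHemi.image toV3.symm (subset_univ _)).image (vaff a (b - a) hs.ne')
      (subset_univ _)).image (prodId ψ) (subset_univ _)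
    rw [show toV3.symm.toFun = toV3.invFun from rfl, upperHemi_eq, equator_eq, image_union,
      vaff_image, vaff_image, vaff_image, affine_image_Icc hs, image_union, prodId_image,
      prodId_image, prodId_image, image_singleton, image_singleton] at h
    rw [hfr]
    convert h using 2 <;> ring_nf
  · have h := ((conBall_lowerHemi.image toV3.symm (subset_univ _)).image (vaff b (b - a) hs.ne')
      (subset_univ _)).image (prodId ψ) (subset_univ _)
    rw [show toV3.symm.toFun = toV3.invFun from rfl, lowerHemi_eq, equator_eq, image_union,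
      vaff_image, vaff_image, vaff_image, affine_image_Icc hs, image_union, prodId_image,
      prodId_image, prodId_image, image_singleton, image_singleton] at h
    rw [hfr]
    convert h using 2 <;> ring_nf

/-- the horizontal embedding of the plane -/
theorem conBall_level {D : Set P} (hD : AmbDisc D) (a : ℝ) :
    ConBall 2 (D ×ˢ {a} : Set V) (frontier D ×ˢ {a}) := by
  obtain ⟨ψ, rfl⟩ := hD
  have hfr : frontier (ψ.toFun '' closedBall (0 : P) 1) = ψ.toFun '' sphere 0 1 := by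
    rw [← ψ.image_frontier, frontier_square]
  rw [hfr]
  have h0 : ConBall 2 (TT) (CC) := conBall_TT
  have h := ((h0.image toV3.symm (subset_univ _)).image (vaff a 1 one_ne_zero)
    (subset_univ _)).image (prodId ψ) (subset_univ _)
  have e1 : toV3.symm.toFun '' TT = (closedBall (0 : P) 1 ×ˢ {(0:ℝ)} : Set V) := by
    ext p
    rw [ConHomeo.mem_image_iff]
    show (0 ≤ rr (toV3.toFun p) ∧ p.2 = 0) ↔ _
    rw [mem_prod, mem_closedBall_zero_iff, mem_singleton_iff]
    have : rr (toV3.toFun p) = 1 - ‖p.1‖ := by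
      rw [Prod.norm_def]; rfl
    rw [this, sub_nonneg]
  have e2 : toV3.symm.toFun '' CC = (sphere (0 : P) 1 ×ˢ {(0:ℝ)} : Set V) := by
    ext p
    rw [ConHomeo.mem_image_iff]
    show (rr (toV3.toFun p) = 0 ∧ p.2 = 0) ↔ _
    rw [mem_prod, mem_sphere_zero_iff_norm, mem_singleton_iff]
    have : rr (toV3.toFun p) = 1 - ‖p.1‖ := by
      rw [Prod.norm_def]; rfl
    rw [this, sub_eq_zero]
    constructor
    · rintro ⟨h1, h2⟩; exact ⟨h1.symm, h2⟩
    · rintro ⟨h1, h2⟩; exact ⟨h1.symm, h2⟩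
  rw [e1, e2, vaff_image, vaff_image, prodId_image, prodId_image, image_singleton, mul_zero,
    add_zero] at h
  exact h

theorem specCol : SpecCol := by
  intro D a b hD hab
  refine ⟨stdSphIn_column hD hab, ?_, conBall_level hD a, conBall_level hD b,
    (conBall_cups hD hab).1, (conBall_cups hD hab).2⟩
  rw [column_frontier hD hab, union_comm]
  congr 1
  rw [← prod_union]
  congr 1

end P073.ALX
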