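import Vale.Agent.P073.H894.Ball
import Vale.Agent.P073.GB3.Spec

/-!
# P073 (helper894): push relative to a polyhedral set, `GB3.SpecPush`
-/

open Set Metric Topology Filter

namespace P073

open Push

namespace Push

/-- **Model push relative to `A`**: the lateral surface of the pyramid is pushed onto its top face,
without moving `A` -/
theorem push_rel_model {A : Set V3} (hA : IsClosed A) (hAc : LocCone A) (h1 : A ∩ PP ⊆ CC)
    {U : Set V3} (hU : IsOpen U) (hPU : PP ⊆ U) :
    ∃ Ψ : AmbHomeo V3, (∀ x ∉ U, Ψ.toFun x = x) ∧ (∀ x ∈ A, Ψ.toFun x = x) ∧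
      Ψ.toFun '' FF = TT := by
  obtain ⟨δ, hδ, hth⟩ := isCompact_PP.exists_thickening_subset_open hU hPU
  have hnot : ∀ x ∈ A, 0 < rr x → x ∉ PP := by
    intro x hx hr hP
    have := (h1 ⟨hx, hP⟩).1
    rw [this] at hr
    exact lt_irrefl _ hr
  obtain ⟨ε1, hε1, hA1⟩ := taper hA hAc 0 (by
    intro x hx hr hz
    rw [zero_mul] at hz
    exact hnot x hx hr ⟨by rw [hz]; linarith, hz.le⟩)
  obtain ⟨ε2, hε2, hA2⟩ := taper hA hAc (-1) (by
    intro x hx hr hz
    exact hnot x hx hr ⟨by rw [hz]; linarith, by rw [hz]; linarith⟩)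
  set a := min ε1 (δ / 2) with ha
  set b := 1 + min ε2 (δ / 2) with hb
  have ha0 : 0 < a := lt_min hε1 (by positivity)
  have hb0 : 1 < b := by
    have : 0 < min ε2 (δ / 2) := lt_min hε2 (by positivity)
    linarith
  have hsub : Sig a b ⊆ U := by
    refine (Sig_subset_thickening (δ := δ) ?_ ?_ hδ).trans hth
    · have : a ≤ δ / 2 := min_le_right _ _
      linarith
    · have : min ε2 (δ / 2) ≤ δ / 2 := min_le_right _ _
      linarith
  refine ⟨push a b ha0 hb0, fun x hx => push_off a b ha0 hb0 fun h => hx (hsub h), ?_, ?_⟩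
  · intro x hx
    by_cases hS : x ∈ Sig a b
    · obtain ⟨s1, s2, s3⟩ := hS
      rcases eq_or_lt_of_le s3 with hr | hr
      · rw [push_toFun]
        have hz : x 2 = 0 := by
          rw [← hr, mul_zero] at s1 s2
          linarith
        have : pz (a / (a + 1)) (b / (b - 1)) x = x 2 := by
          unfold pz
          rw [← hr, hz]; simp
        rw [this, setz_self]
      · exfalso
        have k1 := hA1 x hx hr
        rw [zero_mul, sub_zero] at k1
        have k2 := hA2 x hx hr
        have e : x 2 - -1 * rr x = x 2 + rr x := by ring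
        rw [e] at k2
        have h4 : a * rr x ≤ ε1 * rr x := by gcongr; exact min_le_left _ _
        have h5 : min ε2 (δ / 2) * rr x ≤ ε2 * rr x := by gcongr; exact min_le_left _ _
        have h6 : b * rr x = rr x + min ε2 (δ / 2) * rr x := by rw [hb]; ring
        rcases le_total (-rr x) (x 2) with h | h
        · rcases le_total (x 2) 0 with h' | h'
          · exact hnot x hx hr ⟨h, h'⟩
          · rw [abs_of_nonneg h'] at k1; linarith
        · rw [abs_of_nonpos (by linarith)] at k2; linarith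
    · exact push_off a b ha0 hb0 hS
  · have hb1 : 0 < b - 1 := by linarith
    have ha1 : 0 < a + 1 := by linarith
    have val : ∀ x ∈ FF, pz (a / (a + 1)) (b / (b - 1)) x = 0 := by
      intro x hx
      unfold pz
      have e : x 2 + rr x = 0 := by rw [hx.2]; ring
      rw [e, mul_zero, mul_zero, min_self]
      exact max_eq_right (by rw [hx.2]; linarith [hx.1])
    ext y
    constructor
    · rintro ⟨x, hx, rfl⟩
      rw [push_toFun, val x hx]
      exact ⟨hx.1, rfl⟩
    · intro hy
      refine ⟨setz y (-rr y), ⟨hy.1, rfl⟩, ?_⟩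
      have hx : setz y (-rr y) ∈ FF := ⟨hy.1, rfl⟩
      rw [push_toFun, val _ hx, setz_setz, ← hy.2, setz_self]

end Push

/-- push of one disc of the boundary of an ambient ball onto the other one, relative to `A` -/
theorem push_rel {b d e κ A : Set V3} (hb : AmbBall b) (hd : ConBall 2 d κ) (he : ConBall 2 e κ)
    (hde : d ∩ e = κ) (hfr : d ∪ e = frontier b) (hA : IsClosed A) (hAc : LocCone A)
    (hAb : A ∩ b ⊆ κ) {U : Set V3} (hU : IsOpen U) (hbU : b ⊆ U) :
    ∃ Ψ : AmbHomeo V3, (∀ x ∉ U, Ψ.toFun x = x) ∧ (∀ x ∈ A, Ψ.toFun x = x) ∧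
      Ψ.toFun '' d = e := by
  obtain ⟨Φ, hΦ⟩ := hb.exists_chart
  obtain ⟨Ω, hΩY, hΩe, hΩd, hΩγ⟩ := exists_adjust Φ hΦ (by rw [union_comm]; exact hfr)
    (by rw [inter_comm]; exact hde) he hd
  obtain ⟨Ψ, h1, h2, h3⟩ := push_rel_model (A := Ω.toFun '' A) (Ω.isClosed_image hA)
    (hAc.image Ω) (by
      rw [← hΩY, ← image_inter Ω.injective, ← hΩγ]
      exact image_mono hAb) (Ω.isOpen_image hU) (by rw [← hΩY]; exact image_mono hbU)
  refine ⟨(Ω.trans Ψ).trans Ω.symm, ?_, ?_, ?_⟩
  · intro x hx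
    show Ω.invFun (Ψ.toFun (Ω.toFun x)) = x
    rw [h1 _ (fun h => hx (Ω.apply_mem_image_iff.1 h)), Ω.inv_apply]
  · intro x hx
    show Ω.invFun (Ψ.toFun (Ω.toFun x)) = x
    rw [h2 _ (mem_image_of_mem _ hx), Ω.inv_apply]
  · rw [ConHomeo.trans_toFun, image_comp, ConHomeo.trans_toFun, image_comp, hΩd, h3, ← hΩe,
      show Ω.symm.toFun = Ω.invFun from rfl, Ω.image_inv_image]

/-- restriction of an ambient homeomorphism supported in an open set -/
def restrictAmb (Ψ : AmbHomeo V3) {Ω : Set V3} (hΩ : IsOpen Ω)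
    (hfix : ∀ x ∉ Ω, Ψ.toFun x = x) : ConHomeo Ω Ω where
  toFun := Ψ.toFun
  invFun := Ψ.invFun
  mapsTo := fun x hx => by
    by_contra h
    have h1 := hfix _ h
    exact h (by rw [Ψ.injective h1]; exact hx)
  mapsTo_inv := fun x hx => by
    by_contra h
    have h1 := hfix _ h
    rw [Ψ.apply_inv] at h1
    exact h (h1 ▸ hx)
  left_inv := fun x _ => Ψ.inv_apply x
  right_inv := fun x _ => Ψ.apply_inv x
  cont := Ψ.continuous.continuousOn
  cont_inv := Ψ.continuous_inv.continuousOn
  conical := Ψ.conical.mono (IsOpen.conicalSet hΩ) (subset_univ _)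

open Vale.Agent.P073.St (V)

theorem specPush_GB3 : GB3.SpecPush := by
  intro Ω W b d e κ Z hΩ hW hWΩ hbW hb hd he hde hZcl hZc hZb
  obtain ⟨Φ, hΦ1, hΦ2⟩ := hb
  have hAB : AmbBall b := ⟨Φ.symm, by
    rw [show Φ.symm.toFun = Φ.invFun from rfl, ← hΦ1, Φ.image_inv_image]⟩
  have hfr : d ∪ e = frontier b := by
    have h1 : Φ.toFun '' (d ∪ e) = Φ.toFun '' frontier b := by
      rw [hΦ2, Φ.image_frontier, hΦ1, frontier_closedBall _ one_ne_zero]
    exact Φ.injective.image_injective h1
  -- a polyhedral neighbourhood of `b` in `W`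
  have hbc : IsCompact (closedBall (0 : V3) 1) := isCompact_closedBall _ _
  obtain ⟨δ, hδ, hth⟩ := hbc.exists_thickening_subset_open (Φ.isOpen_image hW)
    (by rw [← hΦ1]; exact image_mono hbW)
  set N : Set V3 := Φ.invFun '' closedBall 0 (1 + δ / 2) with hN
  have hNc : IsClosed N := Φ.symm.isClosed_image isClosed_closedBall
  have hNl : LocCone N := (locCone_closedBall_pi 3 _).image Φ.symm
  have hNW : N ⊆ W := by
    rintro _ ⟨y, hy, rfl⟩
    have h1 : y ∈ Φ.toFun '' W := by
      apply hth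
      rw [mem_closedBall_zero_iff] at hy
      rw [mem_thickening_iff]
      rcases le_total ‖y‖ 1 with h | h
      · exact ⟨y, mem_closedBall_zero_iff.2 h, by rw [dist_self]; exact hδ⟩
      · refine ⟨‖y‖⁻¹ • y, ?_, ?_⟩
        · rw [mem_closedBall_zero_iff, norm_smul, norm_inv, norm_norm,
            inv_mul_cancel₀ (by linarith : ‖y‖ ≠ 0)]
        · have e1 : y - ‖y‖⁻¹ • y = (1 - ‖y‖⁻¹) • y := by rw [sub_smul, one_smul]
          have h2 : 0 ≤ 1 - ‖y‖⁻¹ := by
            rw [sub_nonneg]; exact inv_le_one_of_one_le₀ h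
          rw [dist_eq_norm, e1, norm_smul, Real.norm_of_nonneg h2, sub_mul, one_mul,
            inv_mul_cancel₀ (by linarith : ‖y‖ ≠ 0)]
          linarith
    exact (Φ.mem_image_iff).1 h1
  have hbN : b ⊆ interior N := by
    have h1 : b = Φ.invFun '' closedBall 0 1 := by rw [← hΦ1, Φ.image_inv_image]
    have h2 : Φ.invFun '' ball 0 (1 + δ / 2) ⊆ interior N :=
      interior_maximal (image_mono ball_subset_closedBall) (Φ.symm.isOpen_image isOpen_ball)
    rw [h1]
    refine (image_mono ?_).trans h2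
    exact closedBall_subset_ball (by linarith)
  -- the relative set
  have hA : IsClosed (Z ∩ N) := by
    refine isClosed_of_closure_subset fun x hx => ?_
    have hxN : x ∈ N := hNc.closure_eq ▸ closure_mono inter_subset_right hx
    exact ⟨hZcl x (hWΩ (hNW hxN)) (closure_mono inter_subset_left hx), hxN⟩
  have hAc : LocCone (Z ∩ N) := by
    intro x
    by_cases hx : x ∈ N
    · exact (hZc x (hWΩ (hNW hx))).inter (hNl x)
    · exact locConeAt_of_compl_mem_nhds
        (Filter.mem_of_superset (hNc.isOpen_compl.mem_nhds hx) fun y hy h => hy h.2)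
  obtain ⟨Ψ, h1, h2, h3⟩ := push_rel hAB hd he hde hfr hA hAc
    (fun x hx => hZb ⟨hx.1.1, hx.2⟩) isOpen_interior hbN
  have hoff : ∀ x, x ∉ N → Ψ.toFun x = x := fun x hx => h1 x fun h => hx (interior_subset h)
  refine ⟨restrictAmb Ψ hΩ fun x hx => hoff x fun h => hx (hWΩ (hNW h)), ?_, ?_, h3⟩
  · intro x _ hx
    exact hoff x fun h => hx (hNW h)
  · intro x hx _
    by_cases hxN : x ∈ N
    · exact h2 x ⟨hx, hxN⟩
    · exact hoff x hxN

end P073
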