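import Vale.Agent.P073.H894.Push
import Vale.Agent.P073.PR.Hemi
import Vale.Agent.P073.SCH.Disc

/-!
# P073 (helper894): ambient balls and ambient spheres in three-space
-/

open Set Metric Topology Filter

namespace P073

open Push

/-- the image of the cube under an ambient conical homeomorphism -/
def AmbBall (B : Set V3) : Prop := ∃ Φ : AmbHomeo V3, Φ.toFun '' closedBall 0 1 = B

/-- an ambient standard sphere -/
def StdSph (S : Set V3) : Prop := ∃ Φ : AmbHomeo V3, Φ.toFun '' S = sphere 0 1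

theorem frontier_cube : frontier (closedBall (0 : V3) 1) = sphere 0 1 :=
  frontier_closedBall _ one_ne_zero

theorem upperHemi_union_lowerHemi : upperHemi ∪ lowerHemi = sphere (0 : V3) 1 := by
  ext v
  simp only [upperHemi, lowerHemi, mem_union, mem_inter_iff, mem_ofPred_eq]
  constructor
  · rintro (h | h) <;> exact h.1
  · intro h
    rcases le_total 0 (v 2) with h' | h'
    · exact Or.inl ⟨h, h'⟩
    · exact Or.inr ⟨h, h'⟩

theorem upperHemi_inter_lowerHemi : upperHemi ∩ lowerHemi = equator3 := by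
  ext v
  simp only [upperHemi, lowerHemi, equator3, mem_inter_iff, mem_ofPred_eq]
  constructor
  · rintro ⟨⟨h1, h2⟩, _, h3⟩; exact ⟨h1, le_antisymm h3 h2⟩
  · rintro ⟨h1, h2⟩; exact ⟨⟨h1, h2.ge⟩, h1, h2.le⟩

theorem interior_cube_nonempty : (interior (closedBall (0 : V3) 1)).Nonempty := by
  rw [interior_closedBall _ one_ne_zero]; exact nonempty_ball.2 one_pos

/-- two discs glued to a sphere: the homeomorphism to another such union -/
theorem exists_sphere_homeo {E F : Type*} [NormedAddCommGroup E] [NormedSpace ℝ E]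
    [NormedAddCommGroup F] [NormedSpace ℝ F] {D D' γ : Set E} {X X' δ : Set F}
    (hD : ConBall 2 D γ) (hD' : ConBall 2 D' γ) (hγ : D ∩ D' = γ)
    (hX : ConBall 2 X δ) (hX' : ConBall 2 X' δ) (hδ : X ∩ X' = δ) :
    ∃ θ : ConHomeo (D ∪ D') (X ∪ X'), θ.toFun '' D = X ∧ θ.toFun '' D' = X' ∧
      θ.toFun '' γ = δ := by
  obtain ⟨α⟩ : ConSphere 1 γ := hD.conSphere
  obtain ⟨β⟩ : ConSphere 1 δ := hX.conSphere
  obtain ⟨P, hP1, hP2⟩ := hD.exists_extend hX (α.trans β.symm)
  obtain ⟨Q, hQ1, hQ2⟩ := hD'.exists_extend hX' (α.trans β.symm)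
  have hag : EqOn P.toFun Q.toFun (D ∩ D') := by
    rw [hγ]
    intro x hx
    rw [hP1 hx, hQ1 hx]
  have himg : X ∩ X' ⊆ P.toFun '' (D ∩ D') := by
    rw [hγ, hδ, hP2]
  have h1 := ConHomeo.glue_left P Q hD.isClosed hD'.isClosed hX.isClosed hX'.isClosed hag himg
  have h2 := ConHomeo.glue_right P Q hD.isClosed hD'.isClosed hX.isClosed hX'.isClosed hag himg
  refine ⟨ConHomeo.glue P Q hD.isClosed hD'.isClosed hX.isClosed hX'.isClosed hag himg, ?_, ?_, ?_⟩
  · rw [h1.image_eq, P.image_eq]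
  · rw [h2.image_eq, Q.image_eq]
  · rw [(h1.mono hD.1).image_eq, hP2]

theorem ambBall_PP : AmbBall PP := by
  obtain ⟨θ, -, -, -⟩ := exists_sphere_homeo conBall_upperHemi conBall_lowerHemi
    upperHemi_inter_lowerHemi conBall_TT conBall_FF TT_inter_FF
  obtain ⟨Φ, -, hΦ⟩ := ConHomeo.exists_ambient_of_convexBody (isCompact_closedBall (0 : V3) 1)
    (convex_closedBall _ _) interior_cube_nonempty isCompact_PP convex_PP interior_PP_nonempty
    (θ.cast (upperHemi_union_lowerHemi.trans frontier_cube.symm) frontier_PP.symm)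
  exact ⟨Φ, hΦ⟩

/-- discs and open discs -/
theorem ConBall.open_isPreconnected {E : Type*} [NormedAddCommGroup E] [NormedSpace ℝ E] {n : ℕ}
    {C B : Set E} (h : ConBall n C B) :
    IsPreconnected (C \ B) ∧ C ⊆ closure (C \ B) := by
  obtain ⟨hBC, φ, hφ⟩ := h
  have e : C \ B = φ.invFun '' ball 0 1 := by
    ext x
    constructor
    · rintro ⟨hx, hxB⟩
      refine ⟨φ.toFun x, ?_, φ.left_inv hx⟩
      have h1 : φ.toFun x ∈ closedBall (0 : Fin n → ℝ) 1 := φ.mapsTo hx
      rw [mem_ball_zero_iff]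
      rw [mem_closedBall_zero_iff] at h1
      refine lt_of_le_of_ne h1 fun heq => hxB ?_
      have h2 : φ.toFun x ∈ φ.toFun '' B := by
        rw [hφ, mem_sphere_zero_iff_norm]; exact heq
      obtain ⟨y, hy, hyx⟩ := h2
      rw [← φ.injOn (hBC hy) hx hyx]; exact hy
    · rintro ⟨y, hy, rfl⟩
      have hy' : y ∈ closedBall (0 : Fin n → ℝ) 1 := ball_subset_closedBall hy
      refine ⟨φ.mapsTo_inv hy', fun hB => ?_⟩
      have h2 : φ.toFun (φ.invFun y) ∈ φ.toFun '' B := mem_image_of_mem _ hB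
      rw [φ.right_inv hy', hφ, mem_sphere_zero_iff_norm] at h2
      rw [mem_ball_zero_iff, h2] at hy
      exact lt_irrefl _ hy
  refine ⟨?_, ?_⟩
  · rw [e]
    exact (convex_ball (0 : Fin n → ℝ) 1).isPreconnected.image _
      (φ.cont_inv.mono ball_subset_closedBall)
  · rw [e]
    rcases Nat.eq_zero_or_pos n with h0 | h0
    · subst h0
      intro x hx
      apply subset_closure
      refine ⟨φ.toFun x, ?_, φ.left_inv hx⟩
      rw [Subsingleton.elim (φ.toFun x) 0]
      exact mem_ball_self one_pos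
    · have : Nonempty (Fin n) := ⟨⟨0, h0⟩⟩
      intro x hx
      have h1 : φ.toFun x ∈ closure (ball (0 : Fin n → ℝ) 1) := by
        rw [closure_ball _ one_ne_zero]; exact φ.mapsTo hx
      have h2 : ContinuousOn φ.invFun (closure (ball (0 : Fin n → ℝ) 1)) := by
        rw [closure_ball _ one_ne_zero]; exact φ.cont_inv
      have h3 := h2.image_closure (mem_image_of_mem φ.invFun h1)
      rwa [φ.left_inv hx] at h3

theorem ConBall.open_nonempty {E : Type*} [NormedAddCommGroup E] [NormedSpace ℝ E] {n : ℕ}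
    {C B : Set E} (h : ConBall n C B) : (C \ B).Nonempty := by
  have h1 := h.open_isPreconnected.2
  obtain ⟨hBC, φ, hφ⟩ := h
  have h2 : φ.invFun 0 ∈ C := φ.mapsTo_inv (mem_closedBall_self zero_le_one)
  have h3 := h1 h2
  by_contra hemp
  rw [not_nonempty_iff_eq_empty] at hemp
  rw [hemp, closure_empty] at h3
  exact h3

namespace AmbBall

variable {B : Set V3}

theorem isCompact (h : AmbBall B) : IsCompact B := by
  obtain ⟨Φ, rfl⟩ := h
  exact (isCompact_closedBall _ _).image Φ.continuous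

theorem isClosed (h : AmbBall B) : IsClosed B := h.isCompact.isClosed

theorem locCone (h : AmbBall B) : LocCone B := by
  obtain ⟨Φ, rfl⟩ := h
  exact (locCone_closedBall_pi 3 1).image Φ

theorem image (h : AmbBall B) (Ψ : AmbHomeo V3) : AmbBall (Ψ.toFun '' B) := by
  obtain ⟨Φ, rfl⟩ := h
  exact ⟨Φ.trans Ψ, by rw [ConHomeo.trans_toFun, image_comp]⟩

theorem of_image (Ψ : AmbHomeo V3) (h : AmbBall (Ψ.toFun '' B)) : AmbBall B := by
  have := h.image Ψ.symm
  rwa [ConHomeo.symm_toFun, Ψ.image_inv_image] at this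

theorem isPreconnected_interior (h : AmbBall B) : IsPreconnected (interior B) := by
  obtain ⟨Φ, rfl⟩ := h
  rw [← Φ.image_interior, interior_closedBall _ one_ne_zero]
  exact (convex_ball (0 : V3) 1).isPreconnected.image _ Φ.continuous.continuousOn

theorem interior_nonempty (h : AmbBall B) : (interior B).Nonempty := by
  obtain ⟨Φ, rfl⟩ := h
  rw [← Φ.image_interior]
  exact interior_cube_nonempty.image _

theorem closure_interior (h : AmbBall B) : closure (interior B) = B := by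
  obtain ⟨Φ, rfl⟩ := h
  rw [← Φ.image_interior, interior_closedBall _ one_ne_zero, ← Φ.image_closure,
    closure_ball _ one_ne_zero]

theorem isPreconnected_compl (h : AmbBall B) : IsPreconnected Bᶜ := by
  obtain ⟨Φ, rfl⟩ := h
  rw [← Φ.image_compl]
  refine IsPreconnected.image ?_ _ Φ.continuous.continuousOn
  have e : (closedBall (0 : V3) 1)ᶜ =
      (fun q : ℝ × V3 => q.1 • q.2) '' (Ioi (1:ℝ) ×ˢ sphere 0 1) := by
    ext x
    rw [mem_compl_iff, mem_closedBall_zero_iff, not_le]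
    constructor
    · intro hx
      refine ⟨(‖x‖, ‖x‖⁻¹ • x), ⟨hx, ?_⟩, ?_⟩
      · show ‖x‖⁻¹ • x ∈ sphere (0 : V3) 1
        rw [mem_sphere_zero_iff_norm, norm_smul, norm_inv, norm_norm,
          inv_mul_cancel₀ (by linarith : ‖x‖ ≠ 0)]
      · show ‖x‖ • ‖x‖⁻¹ • x = x
        rw [smul_smul, mul_inv_cancel₀ (by linarith : ‖x‖ ≠ 0), one_smul]
    · rintro ⟨⟨s, y⟩, ⟨hs, hy⟩, rfl⟩
      show 1 < ‖s • y‖
      have hy' : ‖y‖ = 1 := mem_sphere_zero_iff_norm.1 hy
      have hs' : (1:ℝ) < s := hs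
      rw [norm_smul, hy', mul_one, Real.norm_of_nonneg (by linarith)]
      exact hs'
  rw [e]
  refine IsPreconnected.image ?_ _ (by fun_prop)
  refine isPreconnected_Ioi.prod (isPreconnected_sphere ?_ _ _)
  rw [rank_fin_fun]
  exact_mod_cast (show (1:ℕ) < 3 by norm_num)

theorem not_isBounded_compl (h : AmbBall B) : ¬ Bornology.IsBounded Bᶜ := by
  intro hb
  have hb' : Bornology.IsBounded (univ : Set V3) := by
    rw [← union_compl_self B]
    exact h.isCompact.isBounded.union hb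
  exact NormedSpace.unbounded_univ ℝ V3 hb'

/-- a chart onto the pyramid -/
theorem exists_chart (h : AmbBall B) : ∃ Φ : AmbHomeo V3, Φ.toFun '' B = PP := by
  obtain ⟨Φ, rfl⟩ := h
  obtain ⟨Ψ, hΨ⟩ := ambBall_PP
  exact ⟨Φ.symm.trans Ψ, by
    rw [ConHomeo.trans_toFun, image_comp, ConHomeo.symm_toFun, Φ.image_inv_image, hΨ]⟩

theorem of_chart (Φ : AmbHomeo V3) (h : Φ.toFun '' B = PP) : AmbBall B :=
  of_image Φ (h ▸ ambBall_PP)

theorem stdSph (h : AmbBall B) : StdSph (frontier B) := by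
  obtain ⟨Φ, rfl⟩ := h
  refine ⟨Φ.symm, ?_⟩
  rw [ConHomeo.symm_toFun, ← Φ.image_frontier, Φ.image_inv_image, frontier_cube]

theorem subset_or_of_disjoint (h : AmbBall B) {S : Set V3} (hS : IsPreconnected S)
    (hd : Disjoint S (frontier B)) : S ⊆ interior B ∨ S ⊆ Bᶜ := by
  have := subset_interior_or_compl hS hd
  rwa [h.isClosed.closure_eq] at this

end AmbBall

theorem StdSph.exists_ball {S : Set V3} (h : StdSph S) : ∃ B, AmbBall B ∧ frontier B = S := by
  obtain ⟨Φ, hΦ⟩ := h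
  refine ⟨Φ.invFun '' closedBall 0 1, ⟨Φ.symm, rfl⟩, ?_⟩
  have := Φ.symm.image_frontier (closedBall 0 1)
  rw [frontier_cube] at this
  rw [show Φ.invFun = Φ.symm.toFun from rfl, ← this, ← hΦ]
  exact Φ.image_inv_image S

theorem StdSph.of_image {S : Set V3} (Ψ : AmbHomeo V3) (h : StdSph (Ψ.toFun '' S)) : StdSph S := by
  obtain ⟨Φ, hΦ⟩ := h
  exact ⟨Ψ.trans Φ, by rw [ConHomeo.trans_toFun, image_comp, hΦ]⟩

theorem StdSph.image {S : Set V3} (h : StdSph S) (Ψ : AmbHomeo V3) : StdSph (Ψ.toFun '' S) := by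
  apply StdSph.of_image Ψ.symm
  rwa [ConHomeo.symm_toFun, Ψ.image_inv_image]

end P073
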