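import Vale.Agent.P073.H894.Ball
import Vale.Agent.P073.H339.SphereJS
import Vale.Agent.P073.ALX487.Local
import Vale.Agent.P073.PA285.Asm
import Vale.Agent.P073.PR.Cut

/-!
# P073 (helper894): conical three-balls glued along discs of their boundaries
-/

open Set Metric Topology Filter

namespace P073.H894

open P073

variable {E : Type*} [NormedAddCommGroup E] [NormedSpace ℝ E]

/-- two discs with the same boundary, otherwise disjoint, form a sphere -/
theorem conSphere_of_discs {A₁ A₂ c : Set E} (h₁ : ConBall 2 A₁ c) (h₂ : ConBall 2 A₂ c)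
    (h12 : A₁ ∩ A₂ = c) : ConSphere 2 (A₁ ∪ A₂) := by
  obtain ⟨θ, -, -, -⟩ := exists_sphere_homeo h₁ h₂ h12 conBall_upperHemi conBall_lowerHemi
    upperHemi_inter_lowerHemi
  exact ⟨θ.cast rfl upperHemi_union_lowerHemi⟩

theorem conSphere_image' {n : ℕ} {F : Type*} [NormedAddCommGroup F] [NormedSpace ℝ F] {X : Set E}
    (h : ConSphere n X) {U : Set E} {V : Set F} (φ : ConHomeo U V) (hX : X ⊆ U) :
    ConSphere n (φ.toFun '' X) := by
  obtain ⟨ψ⟩ := h
  exact ⟨(φ.restr ψ.conicalSet_left hX).symm.trans ψ⟩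

/-- a circle on a conical 2-sphere bounds two discs -/
theorem exists_two_discs {S γ : Set E} (hS : ConSphere 2 S) (hγ : ConSphere 1 γ) (hs : γ ⊆ S) :
    ∃ D₁ D₂ : Set E, ConBall 2 D₁ γ ∧ ConBall 2 D₂ γ ∧ D₁ ∪ D₂ = S ∧ D₁ ∩ D₂ = γ := by
  obtain ⟨Φ⟩ := hS
  have hγ' : ConSphere 1 (Φ.toFun '' γ) := conSphere_image' hγ Φ hs
  have hsub : Φ.toFun '' γ ⊆ sphere (0 : Fin 3 → ℝ) 1 := by
    rintro _ ⟨x, hx, rfl⟩; exact Φ.mapsTo (hs hx)
  obtain ⟨U, W, h1, h2, -, -, h5, h6⟩ := H339.jordanSch_sphere _ hsub hγ'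
  have hU : U ⊆ sphere (0 : Fin 3 → ℝ) 1 := fun x hx => by
    have : x ∈ U ∪ W := Or.inl hx
    rw [h2] at this; exact this.1
  have hW : W ⊆ sphere (0 : Fin 3 → ℝ) 1 := fun x hx => by
    have : x ∈ U ∪ W := Or.inr hx
    rw [h2] at this; exact this.1
  have e0 : Φ.symm.toFun '' (Φ.toFun '' γ) = γ := by
    show Φ.invFun '' (Φ.toFun '' γ) = γ
    rw [image_image, image_congr (fun x hx => Φ.left_inv (hs hx)), image_id']
  have i5 := h5.image Φ.symm (union_subset hU hsub)
  have i6 := h6.image Φ.symm (union_subset hW hsub)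
  rw [e0] at i5 i6
  refine ⟨_, _, i5, i6, ?_, ?_⟩
  · rw [← image_union]
    have : U ∪ Φ.toFun '' γ ∪ (W ∪ Φ.toFun '' γ) = sphere (0 : Fin 3 → ℝ) 1 := by
      rw [show U ∪ Φ.toFun '' γ ∪ (W ∪ Φ.toFun '' γ) = (U ∪ W) ∪ Φ.toFun '' γ by
        ext x; simp only [mem_union]; tauto, h2, sdiff_union_of_subset hsub]
    rw [this, Φ.symm.image_eq]
  · rw [← Φ.symm.injOn.image_inter (union_subset hU hsub) (union_subset hW hsub),
      ← inter_union_distrib_right, h1.inter_eq, empty_union, e0]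

/-- a disc on a conical 2-sphere is one of the two sides of its boundary -/
theorem compl_disc {S D δ : Set E} (hS : ConSphere 2 S) (hD : ConBall 2 D δ) (h : D ⊆ S) :
    ConBall 2 (S \ (D \ δ)) δ := by
  obtain ⟨A₁, A₂, a1, a2, au, ai⟩ := exists_two_discs hS hD.conSphere (hD.1.trans h)
  have key : ∀ A₁ A₂ : Set E, ConBall 2 A₁ δ → ConBall 2 A₂ δ → A₁ ∪ A₂ = S → A₁ ∩ A₂ = δ →
      D \ δ ⊆ A₁ → ConBall 2 (S \ (D \ δ)) δ := by
    intro A₁ A₂ a1 a2 au ai hsub
    have hDA : D ∩ A₂ = δ := by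
      apply Subset.antisymm
      · rintro x ⟨hx, hx2⟩
        by_contra hxδ
        exact hxδ (ai.subset ⟨hsub ⟨hx, hxδ⟩, hx2⟩)
      · exact fun x hx => ⟨hD.1 hx, a2.1 hx⟩
    have hX : D ∪ A₂ = S := (conSphere_of_discs hD a2 hDA).eq_of_subset hS
      (union_subset h (au ▸ subset_union_right))
    have e : S \ (D \ δ) = A₂ := by
      apply Subset.antisymm
      · rintro x ⟨hx, hx2⟩
        rcases hX.symm.subset hx with hx1 | hx1
        · have : x ∈ δ := by
            by_contra hxδ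
            exact hx2 ⟨hx1, hxδ⟩
          exact a2.1 this
        · exact hx1
      · intro x hx
        exact ⟨au.subset (Or.inr hx), fun hx1 => hx1.2 (hDA.subset ⟨hx1.1, hx⟩)⟩
    rw [e]; exact a2
  rcases IsPreconnected.subset_or hD.open_isPreconnected.1 a1.isClosed a2.isClosed
    (sdiff_subset.trans (h.trans au.symm.subset)) (fun x hx h1 h2 => hx.2 (ai.subset ⟨h1, h2⟩))
    with h' | h'
  · exact key A₁ A₂ a1 a2 au ai h'
  · exact key A₂ A₁ a2 a1 (by rw [union_comm]; exact au) (by rw [inter_comm]; exact ai) h'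

/-- the boundary of a full-dimensional conical ball is its frontier -/
theorem frontier_eq_of_conBall {n : ℕ} (hn : 0 < n) {C B : Set (Fin n → ℝ)} (h : ConBall n C B) :
    frontier C = B := by
  have : Nonempty (Fin n) := ⟨⟨0, hn⟩⟩
  have hop := h.isOpen_diff
  have hcl := h.isClosed
  obtain ⟨hBC, φ, hφ⟩ := h
  rw [hcl.frontier_eq]
  apply Subset.antisymm
  · rintro x ⟨hx, hxi⟩
    by_contra hxB
    exact hxi (interior_maximal sdiff_subset hop ⟨hx, hxB⟩)
  · intro b hb
    refine ⟨hBC hb, fun hbi => ?_⟩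
    have h1 : IsOpen (φ.toFun '' interior C) :=
      Vale.Agent.P073.Sep.isOpen_image_of_injOn isOpen_interior (φ.cont.mono interior_subset)
        (φ.injOn.mono interior_subset)
    have h2 : φ.toFun '' interior C ⊆ closedBall 0 1 :=
      (image_mono interior_subset).trans φ.mapsTo.image_subset
    have h3 := interior_maximal h2 h1 (mem_image_of_mem _ hbi)
    rw [interior_closedBall _ one_ne_zero, mem_ball_zero_iff] at h3
    have h4 : φ.toFun b ∈ sphere (0 : Fin n → ℝ) 1 := by rw [← hφ]; exact mem_image_of_mem _ hb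
    rw [mem_sphere_zero_iff_norm] at h4
    exact absurd h4 h3.ne

/-- **ADD** -/
theorem add {O Y D δ : Set (Fin 3 → ℝ)} (hO : ConBall 3 O (frontier O))
    (hY : ConBall 3 Y (frontier Y)) (hD : ConBall 2 D δ) (hOY : O ∩ Y = D)
    (h1 : D ⊆ frontier O) (h2 : D ⊆ frontier Y) :
    ConBall 3 (O ∪ Y) (frontier (O ∪ Y)) ∧
      frontier (O ∪ Y) = (frontier O \ (D \ δ)) ∪ (frontier Y \ (D \ δ)) := by
  have hA := compl_disc hO.conSphere hD h1
  have hB := compl_disc hY.conSphere hD h2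
  have e1 : D ∪ (frontier O \ (D \ δ)) = frontier O := by
    ext x
    constructor
    · rintro (hx | hx)
      · exact h1 hx
      · exact hx.1
    · intro hx
      by_cases hxD : x ∈ D
      · exact Or.inl hxD
      · exact Or.inr ⟨hx, fun h => hxD h.1⟩
  have e2 : D ∪ (frontier Y \ (D \ δ)) = frontier Y := by
    ext x
    constructor
    · rintro (hx | hx)
      · exact h2 hx
      · exact hx.1
    · intro hx
      by_cases hxD : x ∈ D
      · exact Or.inl hxD
      · exact Or.inr ⟨hx, fun h => hxD h.1⟩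
  have e3 : ∀ X : Set (Fin 3 → ℝ), D ⊆ X → D ∩ (X \ (D \ δ)) = δ := by
    intro X hX
    ext x
    constructor
    · rintro ⟨hx, _, hx2⟩
      by_contra hxδ
      exact hx2 ⟨hx, hxδ⟩
    · intro hx
      exact ⟨hD.1 hx, hX (hD.1 hx), fun h => h.2 hx⟩
  have h := ConBall.union (n := 2) two_ne_zero (X := O) (Y := Y) (A := frontier O \ (D \ δ))
    (B := frontier Y \ (D \ δ)) (D := D) (g := δ) (by rw [e1]; exact hO) (by rw [e2]; exact hY) hOY
    hA hB hD (e3 _ h1) (e3 _ h2)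
  have hfr := frontier_eq_of_conBall (by norm_num) h
  rw [hfr]
  exact ⟨h, rfl⟩

/-- **ADD**, finite families -/
theorem add_finite {ι : Type*} (s : Finset ι) {O : Set (Fin 3 → ℝ)}
    {Y D δ : ι → Set (Fin 3 → ℝ)} (hO : ConBall 3 O (frontier O))
    (hY : ∀ i ∈ s, ConBall 3 (Y i) (frontier (Y i))) (hD : ∀ i ∈ s, ConBall 2 (D i) (δ i))
    (hOY : ∀ i ∈ s, O ∩ Y i = D i) (h1 : ∀ i ∈ s, D i ⊆ frontier O)
    (h2 : ∀ i ∈ s, D i ⊆ frontier (Y i))
    (hdis : ∀ i ∈ s, ∀ j ∈ s, i ≠ j → Disjoint (Y i) (Y j)) :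
    ConBall 3 (O ∪ ⋃ i ∈ s, Y i) (frontier (O ∪ ⋃ i ∈ s, Y i)) ∧
      frontier (O ∪ ⋃ i ∈ s, Y i) = (frontier O \ ⋃ i ∈ s, (D i \ δ i)) ∪
        ⋃ i ∈ s, (frontier (Y i) \ (D i \ δ i)) := by
  classical
  induction s using Finset.induction_on with
  | empty => simpa using hO
  | insert a s ha ih =>
    obtain ⟨i1, i2⟩ := ih (fun i hi => hY i (Finset.mem_insert_of_mem hi))
      (fun i hi => hD i (Finset.mem_insert_of_mem hi))
      (fun i hi => hOY i (Finset.mem_insert_of_mem hi))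
      (fun i hi => h1 i (Finset.mem_insert_of_mem hi))
      (fun i hi => h2 i (Finset.mem_insert_of_mem hi))
      (fun i hi j hj => hdis i (Finset.mem_insert_of_mem hi) j (Finset.mem_insert_of_mem hj))
    have has : a ∈ insert a s := Finset.mem_insert_self a s
    have hDY : ∀ i ∈ insert a s, D i ⊆ Y i := fun i hi => by
      rw [← hOY i hi]; exact inter_subset_right
    have hne : ∀ i ∈ s, a ≠ i := fun i hi h => ha (h ▸ hi)
    have hdYa : ∀ i ∈ s, Disjoint (Y i) (Y a) := fun i hi =>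
      (hdis a has i (Finset.mem_insert_of_mem hi) (hne i hi)).symm
    have eOY : (O ∪ ⋃ i ∈ s, Y i) ∩ Y a = D a := by
      rw [union_inter_distrib_right, hOY a has]
      have : (⋃ i ∈ s, Y i) ∩ Y a = ∅ := by
        rw [← disjoint_iff_inter_eq_empty, disjoint_iUnion₂_left]
        exact hdYa
      rw [this, union_empty]
    have hDfr : D a ⊆ frontier (O ∪ ⋃ i ∈ s, Y i) := by
      rw [i2]
      intro x hx
      refine Or.inl ⟨h1 a has hx, ?_⟩
      rw [mem_iUnion₂]
      rintro ⟨i, hi, hxi⟩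
      exact disjoint_left.1 (hdYa i hi) (hDY i (Finset.mem_insert_of_mem hi) hxi.1)
        (hDY a has hx)
    obtain ⟨j1, j2⟩ := add i1 (hY a has) (hD a has) eOY hDfr (h2 a has)
    have eU : (O ∪ ⋃ i ∈ insert a s, Y i) = (O ∪ ⋃ i ∈ s, Y i) ∪ Y a := by
      rw [Finset.set_biUnion_insert, union_comm (Y a), union_assoc]
    rw [eU]
    refine ⟨j1, ?_⟩
    rw [j2, i2, Finset.set_biUnion_insert, Finset.set_biUnion_insert]
    ext x
    constructor
    · rintro (⟨hx | hx, hx'⟩ | hx)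
      · refine Or.inl ⟨hx.1, fun h => ?_⟩
        rcases h with h | h
        · exact hx' h
        · exact hx.2 h
      · exact Or.inr (Or.inr hx)
      · exact Or.inr (Or.inl hx)
    · rintro (⟨hx, hx'⟩ | hx | hx)
      · exact Or.inl ⟨Or.inl ⟨hx, fun h => hx' (Or.inr h)⟩, fun h => hx' (Or.inl h)⟩
      · exact Or.inr hx
      · refine Or.inl ⟨Or.inr hx, fun h => ?_⟩
        obtain ⟨i, hi, hxi⟩ := mem_iUnion₂.1 hx
        have hcl := (hY i (Finset.mem_insert_of_mem hi)).isClosed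
        exact disjoint_left.1 (hdYa i hi) (hcl.frontier_subset hxi.1) (hDY a has h.1)

end P073.H894
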