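import Vale.Agent.P073.H894.NetFamN
import Vale.Agent.P073.LOC.Spec
import Vale.Agent.P073.AB.Graph907
import Vale.Agent.P073.SMF.Main
import Vale.Agent.P073.SM.Final

/-!
# P073, block LOC: diffeomorphisms which approximate `f` on the edges of a partition
-/

open Set Metric Topology MeasureTheory Filter
open scoped ENNReal

namespace P073.H894

open Vale.Agent.P073.St (V Mat euc IsHomeo IsDiffeo IsBoundedDomain IsSobolev)
open Vale.Agent.P073.SQ (ev)
open Vale.Agent.P073.AB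
open Vale.Agent.P073.LOC
open Vale.Agent.P073.AB.Gr (PEdge finite_edges edge_subset_dyc)
open P073.Net (euc_nonneg euc_le norm_le_euc dyc dyo)
open P073.PLS (Rat3)
open P073.Top (RatAC NetOutN)

theorem pt_mem_rat3 (v : V) (m : ℕ) (z : Fin 3 → ℤ) : pt v m z ∈ Rat3 v :=
  ⟨fun k => (z k : ℚ) / 2 ^ m, fun k => by simp [pt]⟩

theorem pt_add_mem_rat3 (v : V) (m : ℕ) (z : Fin 3 → ℤ) (k : Fin 3) :
    pt v m z + (1 / 2 ^ m : ℝ) • ev k ∈ Rat3 v := by
  refine ⟨fun j => (z j : ℚ) / 2 ^ m + (1 / 2 ^ m) * (if j = k then 1 else 0), fun j => ?_⟩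
  by_cases hj : j = k
  · subst hj
    simp [pt, ev, add_assoc]
  · simp [pt, ev, hj]

/-- the inequality for the energy of a sum -/
theorem lint_add_le {p : ℝ} (hp : 1 ≤ p) {μ : Measure ℝ} {u w : ℝ → V}
    (hw : AEStronglyMeasurable w μ) {A B : ℝ≥0∞}
    (h1 : ∫⁻ t, ENNReal.ofReal (‖u t‖ ^ p) ∂μ ≤ A)
    (h2 : ∫⁻ t, ENNReal.ofReal (‖w t‖ ^ p) ∂μ ≤ B) :
    ∫⁻ t, ENNReal.ofReal (‖u t + w t‖ ^ p) ∂μ ≤ ENNReal.ofReal (2 ^ (p - 1)) * (A + B) := by
  have hp0 : 0 ≤ p := by linarith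
  have h3 : ∀ t, ENNReal.ofReal (‖u t + w t‖ ^ p) ≤ ENNReal.ofReal (2 ^ (p - 1)) *
      (ENNReal.ofReal (‖u t‖ ^ p) + ENNReal.ofReal (‖w t‖ ^ p)) := by
    intro t
    have h4 := ENNReal.rpow_add_le_mul_rpow_add_rpow (ENNReal.ofReal ‖u t‖) (ENNReal.ofReal ‖w t‖) hp
    have e2 : (2 : ℝ≥0∞) ^ (p - 1) = ENNReal.ofReal (2 ^ (p - 1)) := by
      rw [← ENNReal.ofReal_rpow_of_nonneg (by norm_num) (by linarith)]
      norm_num
    rw [e2, ENNReal.ofReal_rpow_of_nonneg (norm_nonneg _) hp0,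
      ENNReal.ofReal_rpow_of_nonneg (norm_nonneg _) hp0,
      ← ENNReal.ofReal_add (norm_nonneg _) (norm_nonneg _),
      ENNReal.ofReal_rpow_of_nonneg (by positivity) hp0] at h4
    refine le_trans (ENNReal.ofReal_le_ofReal ?_) h4
    exact Real.rpow_le_rpow (norm_nonneg _) (norm_add_le _ _) hp0
  calc ∫⁻ t, ENNReal.ofReal (‖u t + w t‖ ^ p) ∂μ
      ≤ ∫⁻ t, ENNReal.ofReal (2 ^ (p - 1)) *
        (ENNReal.ofReal (‖u t‖ ^ p) + ENNReal.ofReal (‖w t‖ ^ p)) ∂μ := lintegral_mono h3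
    _ = ENNReal.ofReal (2 ^ (p - 1)) *
        (∫⁻ t, ENNReal.ofReal (‖u t‖ ^ p) ∂μ + ∫⁻ t, ENNReal.ofReal (‖w t‖ ^ p) ∂μ) := by
        rw [lintegral_const_mul' _ _ ENNReal.ofReal_ne_top, lintegral_add_right']
        exact ENNReal.measurable_ofReal.comp_aemeasurable (hw.norm.aemeasurable.pow_const p)
    _ ≤ _ := by gcongr

/-- absolute continuity on rational segments -/
theorem ratAC_of_ratGood {v : V} {Ω : Set V} {f : V → V} {F : V → Mat} (h : RatGood v Ω f F) :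
    RatAC v Ω f := by
  intro a ha b hb hab
  obtain ⟨q, hq⟩ := ha
  obtain ⟨r, hr⟩ := hb
  obtain ⟨h1, h2⟩ := h a b (fun k => ⟨q k, hq k⟩) (fun k => ⟨r k, hr k⟩) hab
  exact ⟨_, h1, h2⟩

/-- scaling of the energy on an edge -/
theorem eInt_scale {p c : ℝ} (hc : 0 < c) (A : ℝ → V) {η : ℝ≥0∞}
    (h : ∫⁻ t in Icc (0:ℝ) 1, ENNReal.ofReal (‖c • A t‖ ^ p) ≤ η) :
    ENNReal.ofReal c * ∫⁻ t in Icc (0:ℝ) 1, ENNReal.ofReal (‖A t‖ ^ p) ≤
      ENNReal.ofReal (c * (c ^ p)⁻¹) * η := by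
  have hcp : 0 < c ^ p := Real.rpow_pos_of_pos hc p
  have h1 : ∀ t, ENNReal.ofReal (‖A t‖ ^ p) =
      ENNReal.ofReal (c ^ p)⁻¹ * ENNReal.ofReal (‖c • A t‖ ^ p) := by
    intro t
    rw [← ENNReal.ofReal_mul (by positivity), norm_smul, Real.norm_of_nonneg hc.le,
      Real.mul_rpow hc.le (norm_nonneg _), ← mul_assoc, inv_mul_cancel₀ hcp.ne', one_mul]
  rw [lintegral_congr h1, lintegral_const_mul' _ _ ENNReal.ofReal_ne_top, ← mul_assoc,
    ← ENNReal.ofReal_mul hc.le]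
  gcongr

/-- **(GH)** from NET with closeness and the smoothing theorem -/
theorem gaugeH_of (hN : NetOutN) (hS : P073.SMF.SpecSmooth) : SpecGaugeH := by
  classical
  intro p Ω Λ f F v I hp1 hp2 hΩ hΛ hf hF hR hI hfin δ hδ σ hσ hσ0
  have hp0 : 0 ≤ p := by linarith
  -- the family of the edges
  let ι : Type := {e : Idx × Fin 3 // PEdge I e}
  have hι : Countable ι := inferInstance
  let c : ι → ℝ := fun e => 1 / 2 ^ e.1.1.1
  have hc : ∀ e, 0 < c e := fun e => by simp only [c]; positivity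
  let a : ι → V := fun e => pt v e.1.1.1 e.1.1.2
  let d : ι → V := fun e => c e • ev e.1.2
  let b : ι → V := fun e => a e + d e
  have hba : ∀ e, b e - a e = d e := fun e => by simp only [b]; abel
  have hev : ∀ k : Fin 3, ev k ≠ 0 := by
    intro k h0
    have := congrFun h0 k
    simp [ev] at this
  have hd0 : ∀ e, d e ≠ 0 := fun e => smul_ne_zero (hc e).ne' (hev _)
  have hseg : ∀ e : ι, segment ℝ (a e) (b e) = edge v e.1 := fun e => rfl
  have hsub : ∀ e : ι, segment ℝ (a e) (b e) ⊆ Ω := by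
    intro e
    obtain ⟨q, hq, he⟩ := e.2
    rw [hseg]
    exact (edge_subset_dyc he).trans (hI.sub q hq)
  have hloc : ∀ K ⊆ Ω, IsCompact K → {e : ι | (segment ℝ (a e) (b e) ∩ K).Nonempty}.Finite := by
    intro K hK hKc
    have h1 := finite_edges hI hK hKc
    refine Set.Finite.of_finite_image (f := Subtype.val) (h1.subset ?_) Subtype.val_injective.injOn
    rintro _ ⟨e, he, rfl⟩
    exact ⟨e.2, he⟩
  have hrat : ∀ e : ι, a e ∈ Rat3 v ∧ b e ∈ Rat3 v ∧ a e ≠ b e := by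
    intro e
    refine ⟨pt_mem_rat3 _ _ _, pt_add_mem_rat3 _ _ _ _, fun h => hd0 e ?_⟩
    rw [← hba e, ← h, sub_self]
  -- the derivatives
  let D : ι → ℝ → V := fun e t => cl (F (a e + t • d e)) (d e)
  have hgood : ∀ e : ι, Vale.Agent.P073.HB.GoodSeg f (fun x => cl (F x)) (a e) (d e) := by
    intro e
    obtain ⟨⟨q, hq⟩, ⟨r, hr⟩, _⟩ := hrat e
    have := hR (a e) (b e) (fun k => ⟨q k, hq k⟩) (fun k => ⟨r k, hr k⟩) (hsub e)
    rwa [hba e] at this
  have hDi : ∀ e : ι, IntervalIntegrable (D e) volume 0 1 := fun e => (hgood e).1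
  have hDm : ∀ e : ι, AEStronglyMeasurable (D e) (volume.restrict (Icc (0:ℝ) 1)) := by
    intro e
    have h1 := (hDi e).aestronglyMeasurable
    rw [Measure.restrict_congr_set Ioc_ae_eq_Icc] at h1
    exact h1
  have hDp : ∀ e : ι, IntervalIntegrable (fun t => euc (D e t) ^ p) volume 0 1 := by
    intro e
    rw [intervalIntegrable_iff_integrableOn_Icc_of_le zero_le_one]
    have hm : AEStronglyMeasurable (fun t => euc (D e t) ^ p) (volume.restrict (Icc (0:ℝ) 1)) := by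
      have h2 : Continuous euc := by
        unfold euc; fun_prop
      exact ((h2.comp_aestronglyMeasurable (hDm e)).aemeasurable.pow_const p).aestronglyMeasurable
    refine ⟨hm, ?_⟩
    rw [hasFiniteIntegral_iff_ofReal (Eventually.of_forall fun t =>
      Real.rpow_nonneg (euc_nonneg _) p)]
    have h3 := hfin e.1 e.2
    unfold eInt at h3
    have h4 : ∫⁻ t in Icc (0:ℝ) 1, ENNReal.ofReal
        (‖cl (F (pt v e.1.1.1 e.1.1.2 + t • ((1 / 2 ^ e.1.1.1 : ℝ) • ev e.1.2))) (ev e.1.2)‖ ^ p)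
          ≠ ⊤ := by
      intro h5
      rw [h5] at h3
      exact h3 (ENNReal.mul_top (by
        have := hc e
        simp only [c] at this
        simpa using this))
    have h6 : ∀ t : ℝ, ENNReal.ofReal (euc (D e t) ^ p) ≤ ENNReal.ofReal ((2 * c e) ^ p) *
        ENNReal.ofReal (‖cl (F (a e + t • d e)) (ev e.1.2)‖ ^ p) := by
      intro t
      rw [← ENNReal.ofReal_mul (Real.rpow_nonneg (by have := hc e; positivity) _),
        ← Real.mul_rpow (by have := hc e; positivity) (norm_nonneg _)]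
      refine ENNReal.ofReal_le_ofReal (Real.rpow_le_rpow (euc_nonneg _) ?_ hp0)
      refine (euc_le _).trans ?_
      simp only [D, d]
      rw [map_smul, norm_smul, Real.norm_of_nonneg (hc e).le]
      linarith
    refine lt_of_le_of_lt (lintegral_mono h6) ?_
    rw [lintegral_const_mul' _ _ ENNReal.ofReal_ne_top]
    exact ENNReal.mul_lt_top ENNReal.ofReal_lt_top (lt_top_iff_ne_top.2 h4)
  -- the constants
  let K : ι → ℝ := fun e => c e * (c e ^ p)⁻¹ * (2 ^ (p - 1) * 2)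
  have hK : ∀ e, 0 < K e := fun e => by
    have := hc e
    have := Real.rpow_pos_of_pos (hc e) p
    have : (0:ℝ) < 2 ^ (p - 1) := Real.rpow_pos_of_pos (by norm_num) _
    positivity
  let η : ι → ℝ := fun e => δ e.1 / K e
  have hη : ∀ e, 0 < η e := fun e => div_pos (hδ _) (hK e)
  have hσ2 : ContinuousOn (fun x => σ x / 2) Ω := hσ.div_const 2
  have hσ20 : ∀ x ∈ Ω, 0 < σ x / 2 := fun x hx => half_pos (hσ0 x hx)
  obtain ⟨h, hcl, hh⟩ := netOutFamN hN p Ω Λ f v ι hι a b D hp1 hp2.le hΩ.1 hΩ.2.1 hΛ.1 hf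
    (ratAC_of_ratGood hR) hrat hsub hloc hDi (fun e t ht => by
      rw [hba e]; exact (hgood e).2 t ht) hDp η hη (fun x => σ x / 2) hσ2 hσ20
  obtain ⟨G, hG, -, hGc, hGs, -, -⟩ := hS p Ω Λ h (fun x => σ x / 2) 1 hp1 hΩ hΛ hσ2 hσ20 one_pos
    ι hι a d η hd0 hsub hloc hη Empty inferInstance (fun q => q.elim) (fun q => q.elim)
    (fun q => q.elim) (fun q => q.elim) (fun q => q.elim) (fun q => q.elim)
    (fun _ _ _ => Set.toFinite _) (fun q => q.elim)
  refine ⟨G, hG, fun x hx => ?_, fun e he => ?_⟩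
  · have h1 := hGc x hx
    have h2 := hcl x hx
    calc ‖G x - f x‖ = ‖(G x - h.toFun x) + (h.toFun x - f x)‖ := by congr 1; abel
      _ ≤ ‖G x - h.toFun x‖ + ‖h.toFun x - f x‖ := norm_add_le _ _
      _ ≤ σ x / 2 + σ x / 2 := add_le_add h1 h2
      _ = σ x := by ring
  · let e' : ι := ⟨e, he⟩
    have h1 := hGs e'
    have h2 := (hh e').2.2
    rw [hba e'] at h2
    have h3 : ∫⁻ t in Icc (0:ℝ) 1, ENNReal.ofReal
        (‖deriv (fun s => h.toFun (a e' + s • d e')) t - D e' t‖ ^ p) ≤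
        ENNReal.ofReal (η e') := by
      refine le_trans (lintegral_mono fun t => ENNReal.ofReal_le_ofReal ?_) h2
      exact Real.rpow_le_rpow (norm_nonneg _) (norm_le_euc _) hp0
    have hwm : AEStronglyMeasurable
        (fun t => deriv (fun s => h.toFun (a e' + s • d e')) t - D e' t)
        (volume.restrict (Icc (0:ℝ) 1)) :=
      (aestronglyMeasurable_deriv _ _).sub (hDm e')
    have h4 := lint_add_le hp1 hwm h1 h3
    have h5 : ∫⁻ t in Icc (0:ℝ) 1, ENNReal.ofReal (‖c e' •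
        (fderiv ℝ G (a e' + t • d e') (ev e.2) - cl (F (a e' + t • d e')) (ev e.2))‖ ^ p) ≤
        ENNReal.ofReal (2 ^ (p - 1)) * (ENNReal.ofReal (η e') + ENNReal.ofReal (η e')) := by
      refine le_trans (le_of_eq ?_) h4
      refine lintegral_congr fun t => ?_
      congr 3
      simp only [D]
      rw [smul_sub, ← map_smul, ← map_smul]
      show fderiv ℝ G (a e' + t • d e') (d e') - _ = _
      abel
    have h6 := eInt_scale (hc e') _ h5
    have h7 : eInt v e (fun x => ENNReal.ofReal (‖fderiv ℝ G x (ev e.2) - cl (F x) (ev e.2)‖ ^ p)) =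
      ENNReal.ofReal (c e') * ∫⁻ t in Icc (0:ℝ) 1, ENNReal.ofReal (‖
        fderiv ℝ G (a e' + t • d e') (ev e.2) - cl (F (a e' + t • d e')) (ev e.2)‖ ^ p) := rfl
    rw [h7]
    refine h6.trans (le_of_eq ?_)
    have hc1 := hc e'
    have hc2 := Real.rpow_pos_of_pos (hc e') p
    have hc3 : (0:ℝ) < 2 ^ (p - 1) := Real.rpow_pos_of_pos (by norm_num) _
    rw [← ENNReal.ofReal_add (hη e').le (hη e').le, ← ENNReal.ofReal_mul hc3.le,
      ← ENNReal.ofReal_mul (by positivity)]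
    congr 1
    have h8 : K e' * η e' = δ e := by
      simp only [η]
      rw [mul_div_cancel₀ _ (hK e').ne']
    rw [← h8]
    simp only [K]
    ring

/-- **(GH-of)** -/
theorem specGaugeHOf : SpecGaugeHOf := fun hN _ _ _ =>
  gaugeH_of hN (P073.SMF.specSmooth P073.SM.specSM)

end P073.H894
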