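import Vale.Agent.P073.H894.Ball

/-!
# P073 (helper894): gluing of ambient standard spheres along a disc (block GL of ALX)
-/

open Set Metric Topology Filter

namespace P073

open Push

theorem nhds_model {O D'' : Set V3} (hreg : closure (interior O) = O) (hOP : O ∩ PP = TT)
    (hfr : frontier O = TT ∪ D'') (hD'' : IsClosed D'') {x : V3} (hx : x ∈ TT) (hr : 0 < rr x)
    (hxD : x ∉ D'') : O ∪ PP ∈ 𝓝 x := by
  have hOcl : IsClosed O := by rw [← hreg]; exact isClosed_closure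
  have hV : IsOpen ({y : V3 | -rr y < y 2} ∩ D''ᶜ) :=
    (isOpen_lt (f := fun y : V3 => -rr y) (g := fun y => y 2) continuous_rr.neg
      (continuous_apply 2)).inter hD''.isOpen_compl
  have hxV : x ∈ {y : V3 | -rr y < y 2} ∩ D''ᶜ := ⟨by
    show -rr x < x 2
    rw [hx.2]; linarith, hxD⟩
  obtain ⟨ε, hε, hb⟩ := Metric.isOpen_iff.1 hV x hxV
  have hconv : Convex ℝ (ball x ε ∩ {y : V3 | 0 < y 2}) := by
    refine (convex_ball x ε).inter ?_
    intro a ha b hb' s t hs ht hst
    show 0 < s * a 2 + t * b 2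
    have ha' : 0 < a 2 := ha
    have hb'' : 0 < b 2 := hb'
    rcases eq_or_lt_of_le hs with h | h
    · have : t = 1 := by linarith
      rw [← h, this]; linarith
    · have := mul_pos h ha'
      have := mul_nonneg ht hb''.le
      linarith
  have hdisj : Disjoint (ball x ε ∩ {y : V3 | 0 < y 2}) (frontier O) := by
    rw [hfr, disjoint_left]
    rintro y ⟨hy1, hy2⟩ (h | h)
    · have : 0 < y 2 := hy2
      rw [h.2] at this
      exact lt_irrefl _ this
    · exact (hb hy1).2 h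
  rcases subset_interior_or_compl hconv.isPreconnected hdisj with h | h
  · refine Filter.mem_of_superset (ball_mem_nhds x hε) fun y hy => ?_
    rcases lt_or_ge 0 (y 2) with h' | h'
    · exact Or.inl (interior_subset (h ⟨hy, h'⟩))
    · exact Or.inr ⟨(hb hy).1.le, h'⟩
  · exfalso
    rw [hOcl.closure_eq] at h
    have hxO : x ∈ closure (interior O) := by
      rw [hreg]
      have : x ∈ O ∩ PP := by rw [hOP]; exact hx
      exact this.1
    obtain ⟨y, hyb, hyO⟩ := mem_closure_iff.1 hxO _ isOpen_ball (mem_ball_self hε)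
    have hopen : IsOpen (ball x ε ∩ interior O) := isOpen_ball.inter isOpen_interior
    have hy2 : y 2 = 0 := by
      have h3 : y 2 ≤ 0 := by
        by_contra hc
        push Not at hc
        exact h ⟨hyb, hc⟩ (interior_subset hyO)
      have h4 : y ∈ O ∩ PP := ⟨interior_subset hyO, (hb hyb).1.le, h3⟩
      rw [hOP] at h4
      exact h4.2
    have hev : ∀ᶠ t in 𝓝 (0:ℝ), setz y (y 2 + t) ∈ ball x ε ∩ interior O := by
      have hc := (continuous_shiftz y).continuousAt (x := 0)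
      have : ball x ε ∩ interior O ∈ 𝓝 (setz y (y 2 + 0)) := by
        rw [add_zero, setz_self]; exact hopen.mem_nhds ⟨hyb, hyO⟩
      exact hc.preimage_mem_nhds this
    obtain ⟨δ, hδ, hb'⟩ := Metric.eventually_nhds_iff.1 hev
    have h1 := hb' (y := δ / 2) (by
      rw [Real.dist_eq, sub_zero, abs_of_pos (by positivity)]; linarith)
    refine h ⟨h1.1, ?_⟩ (interior_subset h1.2)
    show 0 < y 2 + δ / 2
    rw [hy2]; linarith

/-- **The disc move.**  `Y` is an ambient ball attached to the closed polyhedral set `O` along the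
disc `D`; then `O ∪ Y` is ambiently homeomorphic to `O`, and its frontier is obtained from that
of `O` by replacing `D` with the complementary disc `D'` of the boundary of `Y`. -/
theorem disc_move {Y O D D' D'' γ : Set V3} (hY : AmbBall Y) (hO : IsClosed O) (hOc : LocCone O)
    (hreg : closure (interior O) = O) (hfY : frontier Y = D ∪ D') (hfO : frontier O = D ∪ D'')
    (hOY : O ∩ Y = D) (hD : ConBall 2 D γ) (hD' : ConBall 2 D' γ) (hD''c : IsClosed D'')
    (hD''d : D'' ⊆ closure (D'' \ γ)) (h1 : D ∩ D' = γ) (h2 : D ∩ D'' = γ) {U : Set V3}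
    (hU : IsOpen U) (hYU : Y ⊆ U) :
    ∃ Ψ : AmbHomeo V3, Ψ.toFun '' (O ∪ Y) = O ∧ frontier (O ∪ Y) = D' ∪ D'' ∧
      (∀ x ∉ U, Ψ.toFun x = x) ∧ ∀ x ∈ γ, Ψ.toFun x = x := by
  obtain ⟨Φ, hΦ⟩ := hY.exists_chart
  obtain ⟨Ω, hΩY, hΩD, hΩD', hΩγ⟩ := exists_adjust Φ hΦ hfY.symm h1 hD hD'
  have hinj := Ω.injective
  have hnh : ∀ x ∈ D, x ∉ γ → O ∪ Y ∈ 𝓝 x := by
    intro x hx hxγ
    have key : Ω.toFun '' O ∪ PP ∈ 𝓝 (Ω.toFun x) := by
      refine nhds_model (D'' := Ω.toFun '' D'') ?_ ?_ ?_ (Ω.isClosed_image hD''c) ?_ ?_ ?_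
      · rw [← Ω.image_interior, ← Ω.image_closure, hreg]
      · rw [← hΩY, ← image_inter hinj, hOY, hΩD]
      · rw [← Ω.image_frontier, hfO, image_union, hΩD]
      · rw [← hΩD]; exact mem_image_of_mem _ hx
      · have hT : Ω.toFun x ∈ TT := by rw [← hΩD]; exact mem_image_of_mem _ hx
        rcases eq_or_lt_of_le hT.1 with h | h
        · exfalso
          apply hxγ
          have hC : Ω.toFun x ∈ CC := ⟨h.symm, hT.2⟩
          rw [← hΩγ] at hC
          exact (Ω.apply_mem_image_iff).1 hC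
        · exact h
      · intro hmem
        have : x ∈ D ∩ D'' := ⟨hx, (Ω.apply_mem_image_iff).1 hmem⟩
        rw [h2] at this
        exact hxγ this
    rw [← hΩY, ← image_union] at key
    have := Ω.symm.image_mem_nhds key
    rwa [ConHomeo.symm_toFun, Ω.image_inv_image, Ω.inv_apply] at this
  obtain ⟨Ψ, hΨ1, hΨ2, hΨ3⟩ := push Φ hΦ hfY.symm h1 hD hD' hO hOc hOY hnh hU hYU
  refine ⟨Ψ, hΨ1, ?_, hΨ2, hΨ3⟩
  have hYc := hY.isClosed
  have hDO : D ⊆ O := by rw [← hOY]; exact inter_subset_left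
  have hDY : D ⊆ Y := by rw [← hOY]; exact inter_subset_right
  apply Subset.antisymm
  · intro x hx
    have hx' : x ∈ frontier O ∪ frontier Y := by
      have := frontier_union_subset O Y hx
      rcases this with h | h
      · exact Or.inl h.1
      · exact Or.inr h.2
    by_cases hxD : x ∈ D
    · by_cases hxγ : x ∈ γ
      · left; exact (h1 ▸ inter_subset_right : γ ⊆ D') hxγ
      · exact absurd (mem_interior_iff_mem_nhds.2 (hnh x hxD hxγ)) hx.2
    · rw [hfO, hfY] at hx'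
      rcases hx' with (h | h) | (h | h)
      · exact absurd h hxD
      · exact Or.inr h
      · exact absurd h hxD
      · exact Or.inl h
  · have hcl : IsClosed (frontier (O ∪ Y)) := isClosed_frontier
    have k1 : D' \ γ ⊆ frontier (O ∪ Y) := by
      rintro x ⟨hx, hxγ⟩
      have hxO : x ∉ O := by
        intro h
        have hxY : x ∈ Y := hYc.frontier_subset (hfY ▸ Or.inr hx)
        have : x ∈ D := hOY ▸ ⟨h, hxY⟩
        exact hxγ (h1 ▸ ⟨this, hx⟩)
      have hfx : x ∈ frontier Y := hfY ▸ Or.inr hx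
      refine ⟨subset_closure (Or.inr (hYc.frontier_subset hfx)), fun hint => ?_⟩
      apply hfx.2
      rw [mem_interior_iff_mem_nhds] at hint ⊢
      filter_upwards [hint, hO.isOpen_compl.mem_nhds hxO] with y hy hyO
      exact hy.resolve_left hyO
    have k2 : D'' \ γ ⊆ frontier (O ∪ Y) := by
      rintro x ⟨hx, hxγ⟩
      have hxY : x ∉ Y := by
        intro h
        have hxO : x ∈ O := hO.frontier_subset (hfO ▸ Or.inr hx)
        have : x ∈ D := hOY ▸ ⟨hxO, h⟩
        exact hxγ (h2 ▸ ⟨this, hx⟩)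
      have hfx : x ∈ frontier O := hfO ▸ Or.inr hx
      refine ⟨subset_closure (Or.inl (hO.frontier_subset hfx)), fun hint => ?_⟩
      apply hfx.2
      rw [mem_interior_iff_mem_nhds] at hint ⊢
      filter_upwards [hint, hYc.isOpen_compl.mem_nhds hxY] with y hy hyO
      exact hy.resolve_right hyO
    rintro x (hx | hx)
    · exact closure_minimal k1 hcl (hD'.open_isPreconnected.2 hx)
    · exact closure_minimal k2 hcl (hD''d hx)

theorem closure_compl_frontier {B : Set V3} (hreg : closure (interior B) = B) :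
    frontier (closure Bᶜ) = frontier B ∧ closure (interior (closure Bᶜ)) = closure Bᶜ := by
  have e1 : interior (closure Bᶜ) = Bᶜ := by
    rw [closure_compl, interior_compl, hreg]
  have hB : IsClosed B := by rw [← hreg]; exact isClosed_closure
  constructor
  · rw [isClosed_closure.frontier_eq, e1, Set.sdiff_eq, compl_compl, frontier_eq_closure_inter_closure,
      hB.closure_eq, inter_comm]
  · rw [e1]

/-- the main step of the gluing theorem: two balls with a common boundary disc -/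
theorem glue_balls {B₁ B₂ A₁ A₂ E γ : Set V3} (hB₁ : AmbBall B₁) (hB₂ : AmbBall B₂)
    (f₁ : frontier B₁ = E ∪ A₁) (f₂ : frontier B₂ = E ∪ A₂) (c₁ : ConBall 2 A₁ γ)
    (c₂ : ConBall 2 A₂ γ) (cE : ConBall 2 E γ) (h12 : A₁ ∩ A₂ = γ) (h1E : E ∩ A₁ = γ)
    (h2E : E ∩ A₂ = γ) : StdSph (A₁ ∪ A₂) := by
  have hγ1 : γ ⊆ A₁ := c₁.1
  have hγ2 : γ ⊆ A₂ := c₂.1
  have hγE : γ ⊆ E := cE.1
  -- the nested case
  have nested : ∀ {B₁ B₂ A₁ A₂ : Set V3}, AmbBall B₁ → AmbBall B₂ → frontier B₁ = E ∪ A₁ →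
      frontier B₂ = E ∪ A₂ → ConBall 2 A₁ γ → ConBall 2 A₂ γ → A₁ ∩ A₂ = γ → E ∩ A₁ = γ →
      E ∩ A₂ = γ → A₂ \ γ ⊆ interior B₁ → StdSph (A₁ ∪ A₂) := by
    intro B₁ B₂ A₁ A₂ hB₁ hB₂ f₁ f₂ c₁ c₂ h12 h1E h2E hin
    have hfB : frontier B₂ ⊆ B₁ := by
      rw [f₂]
      rintro x (hx | hx)
      · exact hB₁.isClosed.frontier_subset (f₁ ▸ Or.inl hx)
      · by_cases hxγ : x ∈ γ
        · exact hB₁.isClosed.frontier_subset (f₁ ▸ Or.inl (hγE hxγ))
        · exact interior_subset (hin ⟨hx, hxγ⟩)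
    have hsub : B₂ ⊆ B₁ := by
      rcases hB₂.subset_or_of_disjoint hB₁.isPreconnected_compl
        (disjoint_left.2 fun x hx hx' => hx (hfB hx')) with h | h
      · exact absurd (hB₂.isCompact.isBounded.subset (h.trans interior_subset))
          hB₁.not_isBounded_compl
      · rwa [compl_subset_compl] at h
    obtain ⟨e1, e2⟩ := closure_compl_frontier hB₁.closure_interior
    have hfE : frontier B₁ ⊆ closure B₁ᶜ := by
      rw [frontier_eq_closure_inter_closure]; exact inter_subset_right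
    have ho1 : A₁ \ γ ⊆ B₂ᶜ := by
      have hd : Disjoint (A₁ \ γ) (frontier B₂) := by
        rw [f₂, disjoint_left]
        rintro x ⟨hx, hxγ⟩ (h | h)
        · exact hxγ (h1E ▸ ⟨h, hx⟩)
        · exact hxγ (h12 ▸ ⟨hx, h⟩)
      rcases hB₂.subset_or_of_disjoint c₁.open_isPreconnected.1 hd with h | h
      · exfalso
        obtain ⟨x, hx⟩ := c₁.open_nonempty
        have h3 : x ∈ interior B₁ := interior_mono hsub (h hx)
        have h4 : x ∈ frontier B₁ := f₁ ▸ Or.inr hx.1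
        exact h4.2 h3
      · exact h
    have hOY : closure B₁ᶜ ∩ B₂ = E := by
      apply Subset.antisymm
      · rintro x ⟨hx1, hx2⟩
        have hxf : x ∈ frontier B₁ := by
          rw [frontier_eq_closure_inter_closure]
          exact ⟨subset_closure (hsub hx2), hx1⟩
        rw [f₁] at hxf
        rcases hxf with h | h
        · exact h
        · by_cases hxγ : x ∈ γ
          · exact hγE hxγ
          · exact absurd hx2 (ho1 ⟨h, hxγ⟩)
      · intro x hx
        exact ⟨hfE (f₁ ▸ Or.inl hx), hB₂.isClosed.frontier_subset (f₂ ▸ Or.inl hx)⟩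
    obtain ⟨Ψ, hΨ1, hΨ2, -, -⟩ := disc_move hB₂ isClosed_closure hB₁.locCone.compl.closure e2 f₂
      (e1.trans f₁) hOY cE c₂ c₁.isClosed c₁.open_isPreconnected.2 h2E h1E isOpen_univ
      (subset_univ _)
    apply StdSph.of_image Ψ
    rw [union_comm, ← hΨ2, Ψ.image_frontier, hΨ1, e1]
    exact hB₁.stdSph
  have hd1 : Disjoint (A₁ \ γ) (frontier B₂) := by
    rw [f₂, disjoint_left]
    rintro x ⟨hx, hxγ⟩ (h | h)
    · exact hxγ (h1E ▸ ⟨h, hx⟩)
    · exact hxγ (h12 ▸ ⟨hx, h⟩)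
  have hd2 : Disjoint (A₂ \ γ) (frontier B₁) := by
    rw [f₁, disjoint_left]
    rintro x ⟨hx, hxγ⟩ (h | h)
    · exact hxγ (h2E ▸ ⟨h, hx⟩)
    · exact hxγ (h12 ▸ ⟨h, hx⟩)
  rcases hB₁.subset_or_of_disjoint c₂.open_isPreconnected.1 hd2 with hc2 | hc2
  · exact nested hB₁ hB₂ f₁ f₂ c₁ c₂ h12 h1E h2E hc2
  rcases hB₂.subset_or_of_disjoint c₁.open_isPreconnected.1 hd1 with hc1 | hc1
  · rw [union_comm]
    exact nested hB₂ hB₁ f₂ f₁ c₂ c₁ (by rw [inter_comm]; exact h12) h2E h1E hc1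
  -- the disjoint case
  have hint : interior B₁ ⊆ B₂ᶜ := by
    have hd : Disjoint (interior B₁) (frontier B₂) := by
      rw [f₂, disjoint_left]
      rintro x hx (h | h)
      · have : x ∈ frontier B₁ := f₁ ▸ Or.inl h
        exact this.2 hx
      · by_cases hxγ : x ∈ γ
        · have : x ∈ frontier B₁ := f₁ ▸ Or.inl (hγE hxγ)
          exact this.2 hx
        · exact hc2 ⟨h, hxγ⟩ (interior_subset hx)
    rcases hB₂.subset_or_of_disjoint hB₁.isPreconnected_interior hd with h | h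
    · exfalso
      have hsub : B₁ ⊆ B₂ := by
        rw [← hB₁.closure_interior]
        exact closure_minimal (h.trans interior_subset) hB₂.isClosed
      obtain ⟨x, hx⟩ := c₁.open_nonempty
      exact hc1 hx (hsub (hB₁.isClosed.frontier_subset (f₁ ▸ Or.inr hx.1)))
    · exact h
  have hOY : B₂ ∩ B₁ = E := by
    apply Subset.antisymm
    · rintro x ⟨hx2, hx1⟩
      have hxf : x ∈ frontier B₁ := by
        rw [hB₁.isClosed.frontier_eq]
        exact ⟨hx1, fun h => hint h hx2⟩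
      rw [f₁] at hxf
      rcases hxf with h | h
      · exact h
      · by_cases hxγ : x ∈ γ
        · exact hγE hxγ
        · exact absurd hx2 (hc1 ⟨h, hxγ⟩)
    · intro x hx
      exact ⟨hB₂.isClosed.frontier_subset (f₂ ▸ Or.inl hx),
        hB₁.isClosed.frontier_subset (f₁ ▸ Or.inl hx)⟩
  obtain ⟨Ψ, hΨ1, hΨ2, -, -⟩ := disc_move hB₁ hB₂.isClosed hB₂.locCone hB₂.closure_interior f₁
    f₂ hOY cE c₁ c₂.isClosed c₂.open_isPreconnected.2 h1E h2E isOpen_univ (subset_univ _)
  apply StdSph.of_image Ψ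
  rw [← hΨ2, Ψ.image_frontier, hΨ1]
  exact hB₂.stdSph

/-- **GL**: if `A₁ ∪ E` and `A₂ ∪ E` are ambient standard spheres, then so is `A₁ ∪ A₂`. -/
theorem glue_spheres {A₁ A₂ E γ : Set V3} (c₁ : ConBall 2 A₁ γ) (c₂ : ConBall 2 A₂ γ)
    (cE : ConBall 2 E γ) (h12 : A₁ ∩ A₂ = γ) (h1E : A₁ ∩ E = γ) (h2E : A₂ ∩ E = γ)
    (h₁ : StdSph (A₁ ∪ E)) (h₂ : StdSph (A₂ ∪ E)) : StdSph (A₁ ∪ A₂) := by
  obtain ⟨B₁, hB₁, f₁⟩ := h₁.exists_ball
  obtain ⟨B₂, hB₂, f₂⟩ := h₂.exists_ball
  rw [union_comm] at f₁ f₂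
  rw [inter_comm] at h1E h2E
  exact glue_balls hB₁ hB₂ f₁ f₂ c₁ c₂ cE h12 h1E h2E

end P073
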