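import Vale.Agent.P073.SCH.Amb

/-!
# P073 (helper894): ambient conical homeomorphisms (the extension theorems are in `SCH.Amb`)
-/

open Set Metric Topology Filter

namespace P073

variable {E F G : Type*} [NormedAddCommGroup E] [NormedSpace ℝ E]
  [NormedAddCommGroup F] [NormedSpace ℝ F] [NormedAddCommGroup G] [NormedSpace ℝ G]

/-- ambient conical homeomorphisms -/
abbrev AmbHomeo (E : Type*) [NormedAddCommGroup E] [NormedSpace ℝ E] : Type _ :=
  ConHomeo (univ : Set E) (univ : Set E)

theorem ConHomeo.isClosed_image (h : ConHomeo (univ : Set E) (univ : Set F)) {S : Set E}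
    (hS : IsClosed S) : IsClosed (h.toFun '' S) := (h.toHomeomorph.isClosed_image).2 hS

theorem ConHomeo.isOpen_image (h : ConHomeo (univ : Set E) (univ : Set F)) {S : Set E}
    (hS : IsOpen S) : IsOpen (h.toFun '' S) := (h.toHomeomorph.isOpen_image).2 hS

theorem ConHomeo.image_mem_nhds (h : ConHomeo (univ : Set E) (univ : Set F)) {S : Set E} {x : E}
    (hS : S ∈ 𝓝 x) : h.toFun '' S ∈ 𝓝 (h.toFun x) := h.toHomeomorph.isOpenMap.image_mem_nhds hS

end P073
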