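import Vale.Agent.P073.H894.Add
import Vale.Agent.P073.PR.Faces

/-!
# P073 (helper894): a box with stubs is a conical three-ball
-/

open Set Metric Topology Filter

namespace P073.H894

open P073

/-- the common face of the box `Icc a b` and the stub `Icc lo hi` in the direction `k`, on the side
`s` of the box -/
def stubFace (a b : Fin 3 → ℝ) (k : Fin 3) (s : Bool) (lo hi : Fin 3 → ℝ) : Set (Fin 3 → ℝ) :=
  {x | x k = (if s then b k else a k) ∧ ∀ j, j ≠ k → lo j ≤ x j ∧ x j ≤ hi j}

/-- its boundary -/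
def stubEdge (a b : Fin 3 → ℝ) (k : Fin 3) (s : Bool) (lo hi : Fin 3 → ℝ) : Set (Fin 3 → ℝ) :=
  {x | x ∈ stubFace a b k s lo hi ∧ ∃ j, j ≠ k ∧ (x j = lo j ∨ x j = hi j)}

/-- its interior -/
def stubOpen (a b : Fin 3 → ℝ) (k : Fin 3) (s : Bool) (lo hi : Fin 3 → ℝ) : Set (Fin 3 → ℝ) :=
  {x | x k = (if s then b k else a k) ∧ ∀ j, j ≠ k → lo j < x j ∧ x j < hi j}

theorem stubFace_diff (a b : Fin 3 → ℝ) (k : Fin 3) (s : Bool) (lo hi : Fin 3 → ℝ) :
    stubFace a b k s lo hi \ stubEdge a b k s lo hi = stubOpen a b k s lo hi := by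
  ext x
  constructor
  · rintro ⟨hx, hx'⟩
    refine ⟨hx.1, fun j hj => ⟨lt_of_le_of_ne (hx.2 j hj).1 fun h => hx' ⟨hx, j, hj, Or.inl h.symm⟩,
      lt_of_le_of_ne (hx.2 j hj).2 fun h => hx' ⟨hx, j, hj, Or.inr h⟩⟩⟩
  · rintro ⟨h1, h2⟩
    refine ⟨⟨h1, fun j hj => ⟨(h2 j hj).1.le, (h2 j hj).2.le⟩⟩, ?_⟩
    rintro ⟨-, j, hj, h | h⟩
    · exact (h2 j hj).1.ne' h
    · exact (h2 j hj).2.ne h

/-- `Icc lo hi` is a stub on the side `s` of direction `k` of the box `Icc a b` -/
structure IsStub (a b : Fin 3 → ℝ) (k : Fin 3) (s : Bool) (lo hi : Fin 3 → ℝ) : Prop where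
  lt : ∀ j, lo j < hi j
  side : ∀ j, j ≠ k → a j ≤ lo j ∧ hi j ≤ b j
  top : s = true → lo k = b k
  bot : s = false → hi k = a k

namespace IsStub

variable {a b : Fin 3 → ℝ} {k : Fin 3} {s : Bool} {lo hi : Fin 3 → ℝ}

theorem conBall_face (h : IsStub a b k s lo hi) :
    ConBall 2 (stubFace a b k s lo hi) (stubEdge a b k s lo hi) :=
  conBall_brickFace (n := 2) two_ne_zero k (if s then b k else a k) fun j _ => h.lt j

theorem inter (h : IsStub a b k s lo hi) (hab : ∀ j, a j < b j) :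
    Icc a b ∩ Icc lo hi = stubFace a b k s lo hi := by
  ext x
  simp only [Icc_pi', mem_inter_iff, mem_ofPred_eq, stubFace]
  cases s with
  | true =>
    have ht := h.top rfl
    constructor
    · rintro ⟨h1, h2⟩
      refine ⟨?_, fun j _ => h2 j⟩
      simp only [if_true]
      exact le_antisymm (h1 k).2 (ht ▸ (h2 k).1)
    · rintro ⟨h1, h2⟩
      simp only [if_true] at h1
      have hk := h.lt k
      refine ⟨fun j => ?_, fun j => ?_⟩
      · by_cases hj : j = k
        · subst hj; rw [h1]; exact ⟨(hab j).le, le_rfl⟩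
        · exact ⟨(h.side j hj).1.trans (h2 j hj).1, (h2 j hj).2.trans (h.side j hj).2⟩
      · by_cases hj : j = k
        · subst hj; rw [h1, ← ht]; exact ⟨le_rfl, hk.le⟩
        · exact h2 j hj
  | false =>
    have ht := h.bot rfl
    constructor
    · rintro ⟨h1, h2⟩
      refine ⟨?_, fun j _ => h2 j⟩
      simp only [Bool.false_eq_true, if_false]
      exact le_antisymm (ht ▸ (h2 k).2) (h1 k).1
    · rintro ⟨h1, h2⟩
      simp only [Bool.false_eq_true, if_false] at h1
      have hk := h.lt k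
      refine ⟨fun j => ?_, fun j => ?_⟩
      · by_cases hj : j = k
        · subst hj; rw [h1]; exact ⟨le_rfl, (hab j).le⟩
        · exact ⟨(h.side j hj).1.trans (h2 j hj).1, (h2 j hj).2.trans (h.side j hj).2⟩
      · by_cases hj : j = k
        · subst hj; rw [h1, ← ht]; exact ⟨hk.le, le_rfl⟩
        · exact h2 j hj

theorem sub_box (h : IsStub a b k s lo hi) (hab : ∀ j, a j < b j) :
    stubFace a b k s lo hi ⊆ frontier (Icc a b) := by
  intro x hx
  have h1 : x ∈ Icc a b := ((h.inter hab).symm.subset hx).1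
  rw [Icc_pi'] at h1
  rw [frontier_Icc_pi']
  refine ⟨h1, fun h2 => ?_⟩
  have h3 := hx.1
  cases s with
  | true => simp only [if_true] at h3; exact (h2 k).2.ne h3
  | false => simp only [Bool.false_eq_true, if_false] at h3; exact (h2 k).1.ne' h3

theorem sub_stub (h : IsStub a b k s lo hi) (hab : ∀ j, a j < b j) :
    stubFace a b k s lo hi ⊆ frontier (Icc lo hi) := by
  intro x hx
  have h1 : x ∈ Icc lo hi := ((h.inter hab).symm.subset hx).2
  rw [Icc_pi'] at h1
  rw [frontier_Icc_pi']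
  refine ⟨h1, fun h2 => ?_⟩
  have h3 := hx.1
  cases s with
  | true =>
    simp only [if_true] at h3
    rw [← h.top rfl] at h3
    exact (h2 k).1.ne' h3
  | false =>
    simp only [Bool.false_eq_true, if_false] at h3
    rw [← h.bot rfl] at h3
    exact (h2 k).2.ne h3

end IsStub

/-- **NODE**: a box with finitely many disjoint stubs is a conical ball. -/
theorem conBall_node {ι : Type*} (t : Finset ι) {a b : Fin 3 → ℝ} (hab : ∀ j, a j < b j)
    {k : ι → Fin 3} {s : ι → Bool} {lo hi : ι → Fin 3 → ℝ}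
    (h : ∀ i ∈ t, IsStub a b (k i) (s i) (lo i) (hi i))
    (hdis : ∀ i ∈ t, ∀ j ∈ t, i ≠ j → Disjoint (Icc (lo i) (hi i)) (Icc (lo j) (hi j))) :
    ConBall 3 (Icc a b ∪ ⋃ i ∈ t, Icc (lo i) (hi i))
        (frontier (Icc a b ∪ ⋃ i ∈ t, Icc (lo i) (hi i))) ∧
      frontier (Icc a b ∪ ⋃ i ∈ t, Icc (lo i) (hi i)) =
        (frontier (Icc a b) \ ⋃ i ∈ t, stubOpen a b (k i) (s i) (lo i) (hi i)) ∪
        ⋃ i ∈ t, (frontier (Icc (lo i) (hi i)) \ stubOpen a b (k i) (s i) (lo i) (hi i)) := by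
  have := add_finite t (O := Icc a b) (Y := fun i => Icc (lo i) (hi i))
    (D := fun i => stubFace a b (k i) (s i) (lo i) (hi i))
    (δ := fun i => stubEdge a b (k i) (s i) (lo i) (hi i))
    (conBall_Icc_pi (by norm_num) hab) (fun i hi' => conBall_Icc_pi (by norm_num) (h i hi').lt)
    (fun i hi' => (h i hi').conBall_face) (fun i hi' => (h i hi').inter hab)
    (fun i hi' => (h i hi').sub_box hab) (fun i hi' => (h i hi').sub_stub hab) hdis
  simpa only [stubFace_diff] using this

/-- disjointness of stubs on different sides -/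
theorem disjoint_stubs {a b : Fin 3 → ℝ} (hab : ∀ j, a j < b j) {k k' : Fin 3} {s s' : Bool}
    {lo hi lo' hi' : Fin 3 → ℝ} (h : IsStub a b k s lo hi) (h' : IsStub a b k' s' lo' hi')
    (hstr : ∀ j, j ≠ k → a j < lo j ∧ hi j < b j) (hne : k ≠ k' ∨ s ≠ s') :
    Disjoint (Icc lo hi) (Icc lo' hi') := by
  rw [disjoint_left]
  intro x hx hx'
  rw [Icc_pi'] at hx hx'
  by_cases hk : k = k'
  · subst hk
    have hs : s ≠ s' := hne.resolve_left fun h => h rfl
    have hab' := hab k
    cases s <;> cases s'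
    · exact hs rfl
    · have h1 := h.bot rfl
      have h2 := h'.top rfl
      have h3 := (hx k).2
      have h4 := (hx' k).1
      linarith
    · have h1 := h.top rfl
      have h2 := h'.bot rfl
      have h3 := (hx k).1
      have h4 := (hx' k).2
      linarith
    · exact hs rfl
  · have h1 := hstr k' (fun h => hk h.symm)
    have h3 := hx k'
    have h4 := hx' k'
    cases s'
    · have h2 := h'.bot rfl
      linarith
    · have h2 := h'.top rfl
      linarith

end P073.H894
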