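import Vale.Agent.P073.H894.Taper
import Vale.Agent.P073.H894.HomExt

/-!
# P073 (helper894): the push theorem for ambient balls
-/

open Set Metric Topology Filter

namespace P073

namespace Push

theorem mem_TT_iff {x : V3} : x ∈ TT ↔ 0 ≤ rr x ∧ x 2 = 0 := Iff.rfl

theorem locCone_PP : LocCone PP := by
  have h1 : LocCone {x : V3 | -rr x - x 2 ≤ 0} :=
    locCone_setOf_le (by have := continuous_rr; fun_prop) ((conical_rr.neg).sub (conical_coord 2)) 0
  have h2 : LocCone {x : V3 | x 2 ≤ 0} :=
    locCone_setOf_le (continuous_apply 2) (conical_coord 2) 0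
  have : PP = {x : V3 | -rr x - x 2 ≤ 0} ∩ {x : V3 | x 2 ≤ 0} := by
    ext x
    simp only [PP, mem_ofPred_eq, mem_inter_iff, sub_nonpos]
  rw [this]
  exact h1.inter h2

/-- the support of the push is close to the pyramid -/
theorem Sig_subset_thickening {a b δ : ℝ} (ha : a < δ) (hb : b - 1 < δ) (hδ : 0 < δ) :
    Sig a b ⊆ thickening δ PP := by
  intro x hx
  obtain ⟨h1, h2, h3⟩ := hx
  have hr1 := rr_le_one x
  rw [mem_thickening_iff]
  refine ⟨setz x (max (-rr x) (min (x 2) 0)), ?_, ?_⟩
  · refine ⟨?_, ?_⟩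
    · simp
    · rw [setz_2]
      exact max_le (by linarith) (min_le_right _ _)
  · rw [dist_pi_lt_iff hδ]
    intro i
    fin_cases i
    · simpa using hδ
    · simpa using hδ
    · show dist (x 2) (max (-rr x) (min (x 2) 0)) < δ
      rw [Real.dist_eq, abs_lt]
      have k1 : a * rr x ≤ |a| := by
        calc a * rr x ≤ |a| * rr x := by gcongr; exact le_abs_self a
          _ ≤ |a| * 1 := by gcongr
          _ = |a| := mul_one _
      rcases le_total (x 2) 0 with hz | hz
      · rw [min_eq_left hz]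
        rcases le_total (-rr x) (x 2) with h4 | h4
        · rw [max_eq_right h4]; constructor <;> linarith
        · rw [max_eq_left h4]
          have k2 : (b - 1) * rr x < δ := by
            rcases le_total 0 (b - 1) with h5 | h5
            · have : (b - 1) * rr x ≤ (b - 1) * 1 := by gcongr
              linarith
            · have : (b - 1) * rr x ≤ 0 := mul_nonpos_of_nonpos_of_nonneg h5 h3
              linarith
          constructor
          · linarith
          · linarith
      · rw [min_eq_right hz, max_eq_right (by linarith)]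
        constructor
        · linarith
        · rcases le_total 0 a with h5 | h5
          · have : a * rr x ≤ a * 1 := by gcongr
            linarith
          · have : a * rr x ≤ 0 := mul_nonpos_of_nonpos_of_nonneg h5 h3
            linarith

/-- **Model push theorem** -/
theorem push_model {O : Set V3} (hO : IsClosed O) (hOc : LocCone O) (h1 : O ∩ PP = TT)
    (h2 : ∀ x ∈ TT, 0 < rr x → O ∪ PP ∈ 𝓝 x) {U : Set V3} (hU : IsOpen U) (hPU : PP ⊆ U) :
    ∃ Ψ : AmbHomeo V3, Ψ.toFun '' (O ∪ PP) = O ∧ (∀ x ∉ U, Ψ.toFun x = x) ∧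
      ∀ x ∈ CC, Ψ.toFun x = x := by
  have hTO : TT ⊆ O := by rw [← h1]; exact inter_subset_left
  obtain ⟨δ, hδ, hth⟩ := isCompact_PP.exists_thickening_subset_open hU hPU
  -- the wedge above
  have hA : IsClosed (closure (O ∪ PP)ᶜ) := isClosed_closure
  have hAc : LocCone (closure (O ∪ PP)ᶜ) := (hOc.union locCone_PP).compl.closure
  obtain ⟨ε1, hε1, hA1⟩ := taper hA hAc 0 (by
    intro x hx hr hz
    rw [zero_mul] at hz
    have := h2 x ⟨hr.le, hz⟩ hr
    rw [closure_compl] at hx
    exact hx (mem_interior_iff_mem_nhds.2 this))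
  -- the wedge below
  obtain ⟨ε2, hε2, hA2⟩ := taper hO hOc (-1) (by
    intro x hx hr hz
    have hxT : x ∈ TT := by
      rw [← h1]
      exact ⟨hx, by rw [hz]; linarith, by rw [hz]; linarith⟩
    have := hxT.2
    rw [hz] at this
    linarith)
  set a := min ε1 (δ / 2) with ha
  set b := 1 + min ε2 (δ / 2) with hb
  have ha0 : 0 < a := lt_min hε1 (by positivity)
  have hb0 : 1 < b := by
    have : 0 < min ε2 (δ / 2) := lt_min hε2 (by positivity)
    linarith
  have hsub : Sig a b ⊆ U := by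
    refine (Sig_subset_thickening (δ := δ) ?_ ?_ hδ).trans hth
    · have : a ≤ δ / 2 := min_le_right _ _
      linarith
    · have : min ε2 (δ / 2) ≤ δ / 2 := min_le_right _ _
      linarith
  refine ⟨push a b ha0 hb0, ?_, fun x hx => push_off a b ha0 hb0 fun h => hx (hsub h), ?_⟩
  · have key := push_iff a b ha0 hb0 (O := O) ?_ ?_
    · ext y
      rw [ConHomeo.mem_image_iff, ← key, (push a b ha0 hb0).apply_inv]
    · intro x hr hz hza
      rcases eq_or_lt_of_le hz with hz0 | hz0
      · exact hTO ⟨hr, hz0.symm⟩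
      · have hr0 : 0 < rr x := by
          rcases eq_or_lt_of_le hr with h | h
          · rw [← h, mul_zero] at hza; linarith
          · exact h
        by_contra hxO
        have hxA : x ∈ closure (O ∪ PP)ᶜ := by
          apply subset_closure
          rintro (h | h)
          · exact hxO h
          · exact absurd h.2 (not_le.2 hz0)
        have h3 := hA1 x hxA hr0
        rw [zero_mul, sub_zero, abs_of_pos hz0] at h3
        have h4 : a * rr x ≤ ε1 * rr x := by gcongr; exact min_le_left _ _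
        linarith
    · intro x hxO hr hzb
      by_contra hz
      push Not at hz
      have hr0 : 0 < rr x := by
        rcases eq_or_lt_of_le hr with h | h
        · rw [← h, mul_zero, neg_zero] at hzb; linarith
        · exact h
      rcases le_total (-rr x) (x 2) with h | h
      · have hxT : x ∈ TT := by rw [← h1]; exact ⟨hxO, h, hz.le⟩
        exact hz.ne hxT.2
      · have h3 := hA2 x hxO hr0
        have e : x 2 - -1 * rr x = x 2 + rr x := by ring
        rw [e, abs_of_nonpos (by linarith)] at h3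
        have h4 : min ε2 (δ / 2) * rr x ≤ ε2 * rr x := by gcongr; exact min_le_left _ _
        have h5 : b * rr x = rr x + min ε2 (δ / 2) * rr x := by rw [hb]; ring
        linarith
  · intro x hx
    rw [push_toFun]
    have : pz (a / (a + 1)) (b / (b - 1)) x = x 2 := by
      unfold pz
      rw [hx.1, hx.2]; simp
    rw [this, setz_self]

/-! ### the model ball is a convex body -/

theorem PP_iff {x : V3} : x ∈ PP ↔ |x 0| ≤ 1 + x 2 ∧ |x 1| ≤ 1 + x 2 ∧ x 2 ≤ 0 := by
  unfold PP rr nn
  simp only [mem_ofPred_eq]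
  constructor
  · rintro ⟨h1, h2⟩
    have := max_le_iff.1 (show max |x 0| |x 1| ≤ 1 + x 2 by linarith)
    exact ⟨this.1, this.2, h2⟩
  · rintro ⟨h1, h2, h3⟩
    have := max_le h1 h2
    exact ⟨by linarith, h3⟩

theorem convex_PP : Convex ℝ PP := by
  intro x hx y hy a b ha hb hab
  rw [PP_iff] at hx hy ⊢
  obtain ⟨x0, x1, x2⟩ := hx
  obtain ⟨y0, y1, y2⟩ := hy
  simp only [Pi.add_apply, Pi.smul_apply, smul_eq_mul]
  have k : ∀ p q : ℝ, |p| ≤ 1 + x 2 → |q| ≤ 1 + y 2 →
      |a * p + b * q| ≤ 1 + (a * x 2 + b * y 2) := by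
    intro p q hp hq
    calc |a * p + b * q| ≤ |a * p| + |b * q| := abs_add_le _ _
      _ = a * |p| + b * |q| := by rw [abs_mul, abs_mul, abs_of_nonneg ha, abs_of_nonneg hb]
      _ ≤ a * (1 + x 2) + b * (1 + y 2) := by gcongr
      _ = 1 + (a * x 2 + b * y 2) := by
          have : a * (1 + x 2) + b * (1 + y 2) = (a + b) + (a * x 2 + b * y 2) := by ring
          rw [this, hab]
  exact ⟨k _ _ x0 y0, k _ _ x1 y1, by nlinarith⟩

/-- the centre of the model ball -/
noncomputable def cP : V3 := ![0, 0, -(1 / 2)]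

theorem PP_open_subset : {x : V3 | -rr x < x 2 ∧ x 2 < 0} ⊆ PP := fun _ hx => ⟨hx.1.le, hx.2.le⟩

theorem isOpen_PPo : IsOpen {x : V3 | -rr x < x 2 ∧ x 2 < 0} :=
  (isOpen_lt (f := fun x : V3 => -rr x) (g := fun x => x 2) continuous_rr.neg
    (continuous_apply 2)).inter
    (isOpen_lt (f := fun x : V3 => x 2) (g := fun _ => 0) (continuous_apply 2) continuous_const)

theorem PP_mem_nhds : PP ∈ 𝓝 cP := by
  refine Filter.mem_of_superset (isOpen_PPo.mem_nhds ?_) PP_open_subset
  show -rr cP < cP 2 ∧ cP 2 < 0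
  have : rr cP = 1 := by simp [rr, nn, cP]
  rw [this]
  constructor <;> (simp [cP]; try norm_num)

theorem interior_PP_nonempty : (interior PP).Nonempty :=
  ⟨cP, mem_interior_iff_mem_nhds.2 PP_mem_nhds⟩

/-- vertical shift -/
theorem continuous_shiftz (x : V3) : Continuous fun t : ℝ => setz x (x 2 + t) := by
  refine continuous_pi fun i => ?_
  fin_cases i
  · exact continuous_const
  · exact continuous_const
  · exact continuous_const.add continuous_id

theorem interior_PP : interior PP = {x : V3 | -rr x < x 2 ∧ x 2 < 0} := by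
  apply Subset.antisymm
  · intro x hx
    have hev : ∀ᶠ t in 𝓝 (0:ℝ), setz x (x 2 + t) ∈ PP := by
      have hc := (continuous_shiftz x).continuousAt (x := 0)
      have : PP ∈ 𝓝 (setz x (x 2 + 0)) := by
        rw [add_zero, setz_self]; exact mem_interior_iff_mem_nhds.1 hx
      exact hc.preimage_mem_nhds this
    obtain ⟨ε, hε, hb⟩ := Metric.eventually_nhds_iff.1 hev
    have h1 := hb (y := ε / 2) (by rw [Real.dist_eq, sub_zero, abs_of_pos (by positivity)]; linarith)
    have h2 := hb (y := -(ε / 2)) (by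
      rw [Real.dist_eq, sub_zero, abs_neg, abs_of_pos (by positivity)]; linarith)
    have h1' : x 2 + ε / 2 ≤ 0 := h1.2
    have h2' : -rr x ≤ x 2 + -(ε / 2) := h2.1
    exact ⟨by linarith, by linarith⟩
  · exact interior_maximal PP_open_subset isOpen_PPo

theorem frontier_PP : frontier PP = TT ∪ FF := by
  rw [isClosed_PP.frontier_eq, interior_PP]
  ext x
  simp only [Set.mem_sdiff, mem_ofPred_eq, mem_union, TT, FF, PP]
  constructor
  · rintro ⟨⟨h1, h2⟩, h3⟩
    rcases eq_or_lt_of_le h2 with h | h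
    · left; exact ⟨by linarith, h⟩
    · right
      have : x 2 = -rr x := by
        by_contra hne
        exact h3 ⟨lt_of_le_of_ne h1 (fun h' => hne h'.symm), h⟩
      exact ⟨by linarith, this⟩
  · rintro (⟨h1, h2⟩ | ⟨h1, h2⟩)
    · exact ⟨⟨by linarith, h2.le⟩, fun h => by linarith [h.2]⟩
    · exact ⟨⟨h2.ge, by linarith⟩, fun h => by linarith [h.1]⟩

/-! ### the two discs -/

/-- the graph parametrisation -/
def graphMap (f : (Fin 2 → ℝ) → ℝ) (y : Fin 2 → ℝ) : V3 := ![y 0, y 1, f y]

/-- the projection to the plane -/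
def proj2 (x : V3) : Fin 2 → ℝ := ![x 0, x 1]

theorem continuous_proj2 : Continuous proj2 := by
  refine continuous_pi fun i => ?_
  fin_cases i
  · exact continuous_apply 0
  · exact continuous_apply 1

theorem conical_coord2 (i : Fin 2) : ConicalOn (fun x : Fin 2 → ℝ => x i) univ :=
  conicalOn_linear (LinearMap.proj (R := ℝ) (φ := fun _ : Fin 2 => ℝ) i)
    (IsOpen.conicalSet isOpen_univ)

theorem continuous_graphMap {f : (Fin 2 → ℝ) → ℝ} (hf : Continuous f) :
    Continuous (graphMap f) := by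
  refine continuous_pi fun i => ?_
  fin_cases i
  · exact continuous_apply 0
  · exact continuous_apply 1
  · exact hf

theorem conical_graphMap {f : (Fin 2 → ℝ) → ℝ} (hf : ConicalOn f univ) :
    ConicalOn (graphMap f) univ := by
  intro x hx
  refine conicalWithinAt_pi ((IsOpen.conicalSet isOpen_univ) x hx) fun i => ?_
  fin_cases i
  · exact conical_coord2 0 x hx
  · exact conical_coord2 1 x hx
  · exact hf x hx

theorem norm_fin2 (y : Fin 2 → ℝ) : ‖y‖ = max |y 0| |y 1| := by
  apply le_antisymm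
  · rw [pi_norm_le_iff_of_nonneg (le_max_of_le_left (abs_nonneg _))]
    intro i
    rw [Real.norm_eq_abs]
    fin_cases i
    · exact le_max_left _ _
    · exact le_max_right _ _
  · apply max_le
    · have := norm_le_pi_norm y 0
      rwa [Real.norm_eq_abs] at this
    · have := norm_le_pi_norm y 1
      rwa [Real.norm_eq_abs] at this

theorem norm_proj2 (x : V3) : ‖proj2 x‖ = nn x := norm_fin2 _

theorem graphMap_proj2 (f : (Fin 2 → ℝ) → ℝ) {x : V3} (hx : x 2 = f (proj2 x)) :
    graphMap f (proj2 x) = x := by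
  ext i
  fin_cases i
  · rfl
  · rfl
  · exact hx.symm

theorem proj2_graphMap (f : (Fin 2 → ℝ) → ℝ) (y : Fin 2 → ℝ) : proj2 (graphMap f y) = y := by
  ext i
  fin_cases i <;> rfl

/-- graphs over the square are conical discs -/
theorem conBall_graph {f : (Fin 2 → ℝ) → ℝ} (hf : Continuous f) (hc : ConicalOn f univ) :
    ConBall 2 {x : V3 | 0 ≤ rr x ∧ x 2 = f (proj2 x)} {x : V3 | rr x = 0 ∧ x 2 = f (proj2 x)} := by
  refine ⟨fun x hx => ⟨hx.1.ge, hx.2⟩, ?_⟩
  let ψ : ConHomeo (closedBall (0 : Fin 2 → ℝ) 1) {x : V3 | 0 ≤ rr x ∧ x 2 = f (proj2 x)} :=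
    { toFun := graphMap f
      invFun := proj2
      mapsTo := fun y hy => by
        rw [mem_closedBall_zero_iff] at hy
        refine ⟨?_, ?_⟩
        · have : nn (graphMap f y) = ‖y‖ := by rw [← norm_proj2, proj2_graphMap]
          unfold rr; rw [this]; linarith
        · rw [proj2_graphMap]; rfl
      mapsTo_inv := fun x hx => by
        rw [mem_closedBall_zero_iff, norm_proj2]
        have := hx.1
        unfold rr at this; linarith
      left_inv := fun y _ => proj2_graphMap f y
      right_inv := fun x hx => graphMap_proj2 f hx.2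
      cont := (continuous_graphMap hf).continuousOn
      cont_inv := continuous_proj2.continuousOn
      conical := (conical_graphMap hc).mono (locCone_closedBall_pi 2 1).conicalSet
        (subset_univ _) }
  refine ⟨ψ.symm, ?_⟩
  show proj2 '' _ = _
  ext y
  rw [mem_sphere_zero_iff_norm]
  constructor
  · rintro ⟨x, hx, rfl⟩
    rw [norm_proj2]
    have := hx.1
    unfold rr at this; linarith
  · intro hy
    refine ⟨graphMap f y, ⟨?_, ?_⟩, proj2_graphMap f y⟩
    · unfold rr
      rw [← norm_proj2, proj2_graphMap, hy, sub_self]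
    · rw [proj2_graphMap]; rfl

theorem conBall_TT : ConBall 2 TT CC := by
  have := conBall_graph (f := fun _ => (0:ℝ)) continuous_const
    (conicalOn_const (0:ℝ) (IsOpen.conicalSet isOpen_univ))
  exact this

theorem conBall_FF : ConBall 2 FF CC := by
  have habs : ∀ i : Fin 2, ConicalOn (fun x : Fin 2 → ℝ => |x i|) univ := by
    intro i
    have hci : Continuous fun x : Fin 2 → ℝ => x i := continuous_apply i
    have := (conical_coord2 i).rmax (conical_coord2 i).neg hci.continuousOn hci.neg.continuousOn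
    exact this.congr fun x _ => by simp [abs]
  have hc : ConicalOn (fun y : Fin 2 → ℝ => max |y 0| |y 1| - 1) univ :=
    ((habs 0).rmax (habs 1) (by fun_prop) (by fun_prop)).sub
      (conicalOn_const (1:ℝ) (IsOpen.conicalSet isOpen_univ))
  have hcont : Continuous (fun y : Fin 2 → ℝ => max |y 0| |y 1| - 1) := by fun_prop
  have h := conBall_graph hcont hc
  have e1 : {x : V3 | 0 ≤ rr x ∧ x 2 = max |(proj2 x) 0| |(proj2 x) 1| - 1} = FF := by
    ext x
    simp only [FF, mem_ofPred_eq]
    have : max |(proj2 x) 0| |(proj2 x) 1| - 1 = -rr x := by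
      show nn x - 1 = -rr x
      unfold rr; ring
    rw [this]
  have e2 : {x : V3 | rr x = 0 ∧ x 2 = max |(proj2 x) 0| |(proj2 x) 1| - 1} = CC := by
    ext x
    simp only [CC, mem_ofPred_eq]
    have : max |(proj2 x) 0| |(proj2 x) 1| - 1 = -rr x := by
      show nn x - 1 = -rr x
      unfold rr; ring
    rw [this]
    constructor
    · rintro ⟨h1, h2⟩; exact ⟨h1, by rw [h2, h1, neg_zero]⟩
    · rintro ⟨h1, h2⟩; exact ⟨h1, by rw [h2, h1, neg_zero]⟩
  rw [e1, e2] at h
  exact h

end Push

open Push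

/-- **Adjustment**: an ambient chart of a ball can be adjusted so that a given disc of its
boundary becomes the top face -/
theorem exists_adjust {Y D D' γ : Set V3} (Φ : AmbHomeo V3) (hΦ : Φ.toFun '' Y = PP)
    (hDD : D ∪ D' = frontier Y) (hγ : D ∩ D' = γ) (hD : ConBall 2 D γ) (hD' : ConBall 2 D' γ) :
    ∃ Φ' : AmbHomeo V3, Φ'.toFun '' Y = PP ∧ Φ'.toFun '' D = TT ∧ Φ'.toFun '' D' = FF ∧
      Φ'.toFun '' γ = CC := by
  have h1 : ConBall 2 (Φ.toFun '' D) (Φ.toFun '' γ) := hD.image Φ (subset_univ _)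
  have h2 : ConBall 2 (Φ.toFun '' D') (Φ.toFun '' γ) := hD'.image Φ (subset_univ _)
  have hinj : Function.Injective Φ.toFun := Φ.injective
  have hint : Φ.toFun '' D ∩ Φ.toFun '' D' = Φ.toFun '' γ := by
    rw [← image_inter hinj, hγ]
  have hun : Φ.toFun '' D ∪ Φ.toFun '' D' = frontier PP := by
    rw [← image_union, hDD, Φ.image_frontier, hΦ]
  obtain ⟨α⟩ : ConSphere 1 (Φ.toFun '' γ) := h1.conSphere
  obtain ⟨β⟩ : ConSphere 1 CC := conBall_TT.conSphere
  let φ : ConHomeo (Φ.toFun '' γ) CC := α.trans β.symm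
  obtain ⟨P, hP1, hP2⟩ := h1.exists_extend conBall_TT φ
  obtain ⟨Q, hQ1, hQ2⟩ := h2.exists_extend conBall_FF φ
  have hag : EqOn P.toFun Q.toFun (Φ.toFun '' D ∩ Φ.toFun '' D') := by
    rw [hint]
    intro x hx
    rw [hP1 hx, hQ1 hx]
  have himg : TT ∩ FF ⊆ P.toFun '' (Φ.toFun '' D ∩ Φ.toFun '' D') := by
    rw [hint, TT_inter_FF, hP2]
  let θ := ConHomeo.glue P Q h1.isClosed h2.isClosed isClosed_TT isClosed_FF hag himg
  have hθ1 : EqOn θ.toFun P.toFun (Φ.toFun '' D) := ConHomeo.glue_left P Q _ _ _ _ hag himg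
  have hθ2 : EqOn θ.toFun Q.toFun (Φ.toFun '' D') := ConHomeo.glue_right P Q _ _ _ _ hag himg
  obtain ⟨Ω, hΩ1, hΩ2⟩ := ConHomeo.exists_ambient_of_convexBody isCompact_PP convex_PP
    interior_PP_nonempty isCompact_PP convex_PP interior_PP_nonempty (θ.cast hun frontier_PP.symm)
  have hΩD : EqOn Ω.toFun P.toFun (Φ.toFun '' D) := by
    intro x hx
    rw [hΩ1 (hun ▸ Or.inl hx)]
    exact hθ1 hx
  have hΩD' : EqOn Ω.toFun Q.toFun (Φ.toFun '' D') := by
    intro x hx
    rw [hΩ1 (hun ▸ Or.inr hx)]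
    exact hθ2 hx
  refine ⟨Φ.trans Ω, ?_, ?_, ?_, ?_⟩
  · rw [ConHomeo.trans_toFun, image_comp, hΦ, hΩ2]
  · rw [ConHomeo.trans_toFun, image_comp, hΩD.image_eq, P.image_eq]
  · rw [ConHomeo.trans_toFun, image_comp, hΩD'.image_eq, Q.image_eq]
  · rw [ConHomeo.trans_toFun, image_comp, (hΩD.mono (image_mono hD.1)).image_eq, hP2]

/-- **PUSH**: `Y` is an ambient ball whose boundary is the union of two discs `D`, `D'`;
`O` is a closed polyhedral set meeting `Y` exactly in `D`, and `O ∪ Y` is a neighbourhood of the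
open disc.  Then an ambient homeomorphism, supported near `Y`, takes `O ∪ Y` to `O`. -/
theorem push {Y D D' γ O : Set V3} (Φ : AmbHomeo V3) (hΦ : Φ.toFun '' Y = PP)
    (hDD : D ∪ D' = frontier Y) (hγ : D ∩ D' = γ) (hD : ConBall 2 D γ) (hD' : ConBall 2 D' γ)
    (hO : IsClosed O) (hOc : LocCone O) (hOY : O ∩ Y = D) (hnh : ∀ x ∈ D, x ∉ γ → O ∪ Y ∈ 𝓝 x)
    {U : Set V3} (hU : IsOpen U) (hYU : Y ⊆ U) :
    ∃ Ψ : AmbHomeo V3, Ψ.toFun '' (O ∪ Y) = O ∧ (∀ x ∉ U, Ψ.toFun x = x) ∧
      ∀ x ∈ γ, Ψ.toFun x = x := by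
  obtain ⟨Ω, hY, hDT, -, hγC⟩ := exists_adjust Φ hΦ hDD hγ hD hD'
  have hinj : Function.Injective Ω.toFun := Ω.injective
  obtain ⟨Ψ, h1, h2, h3⟩ := push_model (O := Ω.toFun '' O) (Ω.isClosed_image hO) (hOc.image Ω)
    (by rw [← hY, ← image_inter hinj, hOY, hDT])
    (by
      intro x hx hr
      rw [← hDT] at hx
      obtain ⟨y, hy, rfl⟩ := hx
      have hyγ : y ∉ γ := by
        intro h
        have : Ω.toFun y ∈ CC := by rw [← hγC]; exact mem_image_of_mem _ h
        rw [this.1] at hr
        exact lt_irrefl _ hr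
      rw [← hY, ← image_union]
      exact Ω.image_mem_nhds (hnh y hy hyγ))
    (Ω.isOpen_image hU) (by rw [← hY]; exact image_mono hYU)
  refine ⟨Ω.trans (Ψ.trans Ω.symm), ?_, ?_, ?_⟩
  · rw [ConHomeo.trans_toFun, ConHomeo.trans_toFun, image_comp, image_comp, image_union, hY, h1]
    exact Ω.image_inv_image O
  · intro x hx
    show Ω.invFun (Ψ.toFun (Ω.toFun x)) = x
    rw [h2 _ (fun h => hx (by
      rw [ConHomeo.mem_image_iff, Ω.left_inv (mem_univ x)] at h; exact h)),
      Ω.left_inv (mem_univ x)]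
  · intro x hx
    show Ω.invFun (Ψ.toFun (Ω.toFun x)) = x
    rw [h3 _ (by rw [← hγC]; exact mem_image_of_mem _ hx), Ω.left_inv (mem_univ x)]

end P073
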