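import Vale.Agent.P073.ConHomeo

/-!
# P073 (helper894): the explicit bipyramid push

Ambient space `V = Fin 3 → ℝ`, `nn x = max |x 0| |x 1|`, `rr x = 1 - nn x`.
`PP` = inverted square pyramid `{-r ≤ z ≤ 0}`, `TT` its top face, `FF` its lateral surface.
-/

open Set Metric Topology Filter

namespace P073

/-- three-space -/
abbrev V3 : Type := Fin 3 → ℝ

namespace Push

/-- sup norm of the first two coordinates -/
def nn (x : V3) : ℝ := max |x 0| |x 1|

/-- the radial defect -/
def rr (x : V3) : ℝ := 1 - nn x

theorem continuous_nn : Continuous nn := by unfold nn; fun_prop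

theorem continuous_rr : Continuous rr := by unfold rr; exact continuous_const.sub continuous_nn

/-- coordinates are conical -/
theorem conical_coord (i : Fin 3) : ConicalOn (fun x : V3 => x i) univ :=
  conicalOn_linear (LinearMap.proj (R := ℝ) (φ := fun _ : Fin 3 => ℝ) i) (IsOpen.conicalSet isOpen_univ)

theorem conical_abs {f : V3 → ℝ} (hf : ConicalOn f univ) (hc : Continuous f) :
    ConicalOn (fun x => |f x|) univ := by
  have := hf.rmax hf.neg hc.continuousOn hc.neg.continuousOn
  exact this.congr fun x _ => by simp [abs]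

theorem conical_nn : ConicalOn nn univ := by
  unfold nn
  exact (conical_abs (conical_coord 0) (by fun_prop)).rmax
    (conical_abs (conical_coord 1) (by fun_prop)) (by fun_prop) (by fun_prop)

theorem conical_rr : ConicalOn rr univ := by
  unfold rr
  exact (conicalOn_const (1:ℝ) (IsOpen.conicalSet isOpen_univ)).sub conical_nn

/-- replace the third coordinate -/
def setz (x : V3) (z : ℝ) : V3 := ![x 0, x 1, z]

@[simp] theorem setz_0 (x : V3) (z : ℝ) : setz x z 0 = x 0 := rfl
@[simp] theorem setz_1 (x : V3) (z : ℝ) : setz x z 1 = x 1 := rfl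
@[simp] theorem setz_2 (x : V3) (z : ℝ) : setz x z 2 = z := rfl

@[simp] theorem nn_setz (x : V3) (z : ℝ) : nn (setz x z) = nn x := rfl
@[simp] theorem rr_setz (x : V3) (z : ℝ) : rr (setz x z) = rr x := rfl

theorem setz_setz (x : V3) (z z' : ℝ) : setz (setz x z) z' = setz x z' := rfl

theorem setz_self (x : V3) : setz x (x 2) = x := by
  ext i; fin_cases i <;> rfl

theorem continuous_setz {f : V3 → ℝ} (hf : Continuous f) : Continuous fun x => setz x (f x) := by
  refine continuous_pi fun i => ?_
  fin_cases i
  · exact continuous_apply 0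
  · exact continuous_apply 1
  · exact hf

theorem conical_setz {f : V3 → ℝ} (hf : ConicalOn f univ) :
    ConicalOn (fun x => setz x (f x)) univ := by
  intro x hx
  refine conicalWithinAt_pi (IsOpen.conicalSet isOpen_univ x hx) fun i => ?_
  fin_cases i
  · exact conical_coord 0 x hx
  · exact conical_coord 1 x hx
  · exact hf x hx

/-- a vertical homeomorphism: `z ↦ f x`, inverse `z ↦ g x` -/
def vert (f g : V3 → ℝ) (hf : Continuous f) (hg : Continuous g) (hc : ConicalOn f univ)
    (h1 : ∀ x, g (setz x (f x)) = x 2) (h2 : ∀ x, f (setz x (g x)) = x 2) :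
    ConHomeo (univ : Set V3) (univ : Set V3) where
  toFun := fun x => setz x (f x)
  invFun := fun x => setz x (g x)
  mapsTo := fun _ _ => mem_univ _
  mapsTo_inv := fun _ _ => mem_univ _
  left_inv := fun x _ => by simp only [setz_setz, h1, setz_self]
  right_inv := fun x _ => by simp only [setz_setz, h2, setz_self]
  cont := (continuous_setz hf).continuousOn
  cont_inv := (continuous_setz hg).continuousOn
  conical := conical_setz hc

/-- the vertical component of the push -/
noncomputable def pz (α β : ℝ) (x : V3) : ℝ := max (x 2) (min (β * (x 2 + rr x)) (α * (x 2 + rr x)))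

/-- the vertical component of the inverse push -/
noncomputable def qz (α β : ℝ) (x : V3) : ℝ := min (x 2) (max (x 2 / α) (x 2 / β) - rr x)

theorem pz_qz {α β : ℝ} (hα : 0 < α) (hα1 : α < 1) (hβ : 1 < β) (z r : ℝ) :
    max (min z (max (z / α) (z / β) - r))
      (min (β * (min z (max (z / α) (z / β) - r) + r))
        (α * (min z (max (z / α) (z / β) - r) + r))) = z := by
  have hβ0 : 0 < β := by linarith
  rcases le_total 0 z with hz | hz
  · have e1 : max (z / α) (z / β) = z / α :=
      max_eq_left (div_le_div_of_nonneg_left hz hα (by linarith))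
    rw [e1]
    rcases le_total z (z / α - r) with h | h
    · rw [min_eq_left h]
      have h2 : α * (z + r) ≤ z := by
        have : r ≤ z / α - z := by linarith
        calc α * (z + r) ≤ α * (z / α) := by gcongr; linarith
          _ = z := by field_simp
      exact max_eq_left ((min_le_right _ _).trans h2)
    · rw [min_eq_right h]
      have e2 : z / α - r + r = z / α := by ring
      rw [e2]
      have e3 : α * (z / α) = z := by field_simp
      have h3 : z ≤ β * (z / α) := by
        have : z / α * 1 ≤ z / α * β := by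
          have h0 : 0 ≤ z / α := div_nonneg hz hα.le
          gcongr
        have h4 : z ≤ z / α := by
          rw [le_div_iff₀ hα]; nlinarith
        linarith
      rw [e3, min_eq_right h3]
      exact max_eq_right h
  · have e1 : max (z / α) (z / β) = z / β := by
      refine max_eq_right ?_
      rw [div_le_div_iff₀ hα hβ0]
      nlinarith
    rw [e1]
    rcases le_total z (z / β - r) with h | h
    · rw [min_eq_left h]
      have h2 : β * (z + r) ≤ z := by
        have h5 : z + r ≤ z / β := by linarith
        calc β * (z + r) ≤ β * (z / β) := by gcongr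
          _ = z := by field_simp
      exact max_eq_left ((min_le_left _ _).trans h2)
    · rw [min_eq_right h]
      have e2 : z / β - r + r = z / β := by ring
      rw [e2]
      have e3 : β * (z / β) = z := by field_simp
      have h3 : z ≤ α * (z / β) := by
        have h0 : z / β ≤ 0 := div_nonpos_of_nonpos_of_nonneg hz hβ0.le
        have h4 : β * (z / β) ≤ α * (z / β) := by
          apply mul_le_mul_of_nonpos_right _ h0
          linarith
        linarith
      rw [e3, min_eq_left h3]
      exact max_eq_right h

theorem qz_pz {α β : ℝ} (hα : 0 < α) (hα1 : α < 1) (hβ : 1 < β) (z r : ℝ) :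
    min (max z (min (β * (z + r)) (α * (z + r))))
      (max ((max z (min (β * (z + r)) (α * (z + r)))) / α)
        ((max z (min (β * (z + r)) (α * (z + r)))) / β) - r) = z := by
  have hβ0 : 0 < β := by linarith
  rcases le_total 0 (z + r) with hq | hq
  · have e1 : min (β * (z + r)) (α * (z + r)) = α * (z + r) :=
      min_eq_right (by gcongr; linarith)
    rw [e1]
    rcases le_total z (α * (z + r)) with h | h
    · rw [max_eq_right h]
      have e2 : α * (z + r) / α = z + r := by field_simp
      have h3 : α * (z + r) / β ≤ z + r := by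
        rw [div_le_iff₀ hβ0]; nlinarith
      rw [e2, max_eq_left h3]
      rw [add_sub_cancel_right]
      exact min_eq_right h
    · rw [max_eq_left h]
      apply min_eq_left
      have h4 : z + r ≤ z / α := by rw [le_div_iff₀ hα]; linarith
      linarith [le_max_left (z / α) (z / β)]
  · have e1 : min (β * (z + r)) (α * (z + r)) = β * (z + r) :=
      min_eq_left (by nlinarith)
    rw [e1]
    rcases le_total z (β * (z + r)) with h | h
    · rw [max_eq_right h]
      have e2 : β * (z + r) / β = z + r := by field_simp
      have h3 : β * (z + r) / α ≤ z + r := by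
        rw [div_le_iff₀ hα]; nlinarith
      rw [e2, max_eq_right h3]
      rw [add_sub_cancel_right]
      exact min_eq_right h
    · rw [max_eq_left h]
      apply min_eq_left
      have h4 : z + r ≤ z / β := by rw [le_div_iff₀ hβ0]; linarith
      linarith [le_max_right (z / α) (z / β)]

theorem continuous_pz (α β : ℝ) : Continuous (pz α β) := by
  unfold pz
  have := continuous_rr
  fun_prop

theorem continuous_qz (α β : ℝ) : Continuous (qz α β) := by
  unfold qz
  have := continuous_rr
  fun_prop

theorem conical_pz (α β : ℝ) : ConicalOn (pz α β) univ := by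
  unfold pz
  have hr := continuous_rr
  have h1 : ConicalOn (fun x : V3 => x 2 + rr x) univ := (conical_coord 2).add conical_rr
  have h2 : ∀ c : ℝ, ConicalOn (fun x : V3 => c * (x 2 + rr x)) univ := fun c =>
    (h1.const_smul c).congr fun x _ => by simp
  exact (conical_coord 2).rmax ((h2 β).rmin (h2 α) (by fun_prop) (by fun_prop))
    (by fun_prop) (by fun_prop)

/-- the push: fixes everything outside the bipyramid and maps the lateral surface of the
pyramid to its top face -/
noncomputable def pushM (α β : ℝ) (hα : 0 < α) (hα1 : α < 1) (hβ : 1 < β) :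
    ConHomeo (univ : Set V3) (univ : Set V3) :=
  vert (pz α β) (qz α β) (continuous_pz α β) (continuous_qz α β) (conical_pz α β)
    (fun x => by simp only [qz, pz, setz_2, rr_setz]; exact qz_pz hα hα1 hβ _ _)
    (fun x => by simp only [qz, pz, setz_2, rr_setz]; exact pz_qz hα hα1 hβ _ _)

/-- the model ball: inverted pyramid -/
def PP : Set V3 := {x | -rr x ≤ x 2 ∧ x 2 ≤ 0}

/-- its top face -/
def TT : Set V3 := {x | 0 ≤ rr x ∧ x 2 = 0}

/-- its lateral surface -/
def FF : Set V3 := {x | 0 ≤ rr x ∧ x 2 = -rr x}

/-- the common boundary of the top face and of the lateral surface -/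
def CC : Set V3 := {x | rr x = 0 ∧ x 2 = 0}

/-- the support of the push -/
def Sig (a b : ℝ) : Set V3 := {x | -(b * rr x) ≤ x 2 ∧ x 2 ≤ a * rr x ∧ 0 ≤ rr x}

theorem TT_inter_FF : TT ∩ FF = CC := by
  ext x
  simp only [TT, FF, CC, mem_inter_iff, mem_ofPred_eq]
  constructor
  · rintro ⟨⟨_, h1⟩, _, h2⟩
    rw [h1] at h2
    exact ⟨by linarith, h1⟩
  · rintro ⟨h1, h2⟩
    exact ⟨⟨h1.ge, h2⟩, h1.ge, by rw [h2, h1, neg_zero]⟩

theorem TT_subset_PP : TT ⊆ PP := fun x hx => ⟨by rw [hx.2]; linarith [hx.1], hx.2.le⟩

theorem FF_subset_PP : FF ⊆ PP := fun x hx => ⟨hx.2.ge, by rw [hx.2]; linarith [hx.1]⟩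

theorem isClosed_PP : IsClosed PP :=
  (isClosed_le (f := fun x : V3 => -rr x) (g := fun x => x 2) continuous_rr.neg
    (continuous_apply 2)).inter
    (isClosed_le (f := fun x : V3 => x 2) (g := fun _ => 0) (continuous_apply 2) continuous_const)

theorem isClosed_TT : IsClosed TT :=
  (isClosed_le (f := fun _ : V3 => (0:ℝ)) (g := fun x => rr x) continuous_const
    continuous_rr).inter
    (isClosed_eq (f := fun x : V3 => x 2) (g := fun _ => 0) (continuous_apply 2) continuous_const)

theorem isClosed_FF : IsClosed FF :=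
  (isClosed_le (f := fun _ : V3 => (0:ℝ)) (g := fun x => rr x) continuous_const
    continuous_rr).inter
    (isClosed_eq (f := fun x : V3 => x 2) (g := fun x => -rr x) (continuous_apply 2)
      continuous_rr.neg)

theorem isClosed_CC : IsClosed CC := by
  rw [← TT_inter_FF]; exact isClosed_TT.inter isClosed_FF

theorem nn_le_one_of_rr {x : V3} (h : 0 ≤ rr x) : nn x ≤ 1 := by unfold rr at h; linarith

theorem rr_le_one (x : V3) : rr x ≤ 1 := by
  unfold rr nn
  have := le_max_of_le_left (b := |x 0|) (c := |x 1|) (abs_nonneg (x 0))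
  linarith

theorem isBounded_of_rr {S : Set V3} {C : ℝ} (h : ∀ x ∈ S, 0 ≤ rr x ∧ |x 2| ≤ C) :
    Bornology.IsBounded S := by
  refine (isBounded_iff_forall_norm_le).2 ⟨max 1 C, fun x hx => ?_⟩
  obtain ⟨h1, h2⟩ := h x hx
  have h3 := nn_le_one_of_rr h1
  unfold nn at h3
  rw [pi_norm_le_iff_of_nonneg (by positivity)]
  intro i
  rw [Real.norm_eq_abs]
  fin_cases i
  · exact ((le_max_left _ _).trans h3).trans (le_max_left _ _)
  · exact ((le_max_right _ _).trans h3).trans (le_max_left _ _)
  · exact h2.trans (le_max_right _ _)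

theorem PP_rr {x : V3} (hx : x ∈ PP) : 0 ≤ rr x := by
  have := hx.1.trans hx.2; linarith

theorem isCompact_PP : IsCompact PP := by
  refine isCompact_of_isClosed_isBounded isClosed_PP (isBounded_of_rr (C := 1) fun x hx => ?_)
  refine ⟨PP_rr hx, ?_⟩
  rw [abs_le]
  constructor
  · have := hx.1; have := rr_le_one x; linarith
  · have := hx.2; linarith

theorem isCompact_TT : IsCompact TT := isCompact_PP.of_isClosed_subset isClosed_TT TT_subset_PP
theorem isCompact_FF : IsCompact FF := isCompact_PP.of_isClosed_subset isClosed_FF FF_subset_PP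

/-- outside the bipyramid the push is the identity -/
theorem pushM_off {a b : ℝ} (ha : 0 < a) (hb : 1 < b) {x : V3} (hx : x ∉ Sig a b) :
    pz (a / (a + 1)) (b / (b - 1)) x = x 2 := by
  have hb1 : 0 < b - 1 := by linarith
  have ha1 : 0 < a + 1 := by linarith
  unfold pz
  apply max_eq_left
  by_contra hlt
  push Not at hlt
  obtain ⟨h1, h2⟩ := lt_min_iff.1 hlt
  apply hx
  have k1 : x 2 * (b - 1) < b * (x 2 + rr x) := by
    have h := mul_lt_mul_of_pos_right h1 hb1
    have e : b / (b - 1) * (x 2 + rr x) * (b - 1) = b * (x 2 + rr x) := by field_simp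
    rwa [e] at h
  have k2 : x 2 * (a + 1) < a * (x 2 + rr x) := by
    have h := mul_lt_mul_of_pos_right h2 ha1
    have e : a / (a + 1) * (x 2 + rr x) * (a + 1) = a * (x 2 + rr x) := by field_simp
    rwa [e] at h
  refine ⟨by nlinarith, by nlinarith, ?_⟩
  have k3 : -(b * rr x) < x 2 := by nlinarith
  have k4 : x 2 < a * rr x := by nlinarith
  by_contra hneg
  push Not at hneg
  have : -(b * rr x) < a * rr x := k3.trans k4
  nlinarith

/-- inside the bipyramid: the image is in the bipyramid -/
theorem pushM_mem {a b : ℝ} (ha : 0 < a) (hb : 1 < b) {x : V3} (hx : x ∈ Sig a b) :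
    -(b * rr x) ≤ pz (a / (a + 1)) (b / (b - 1)) x ∧
      pz (a / (a + 1)) (b / (b - 1)) x ≤ a * rr x := by
  obtain ⟨h1, h2, h3⟩ := hx
  have ha1 : 0 < a + 1 := by linarith
  unfold pz
  refine ⟨h1.trans (le_max_left _ _), max_le h2 ((min_le_right _ _).trans ?_)⟩
  rw [div_mul_eq_mul_div, div_le_iff₀ ha1]
  nlinarith

theorem pushM_sign {a b : ℝ} (ha : 0 < a) (hb : 1 < b) {x : V3} (_hr : 0 ≤ rr x) :
    0 ≤ pz (a / (a + 1)) (b / (b - 1)) x ↔ -rr x ≤ x 2 := by
  have hb1 : 0 < b - 1 := by linarith
  have ha1 : 0 < a + 1 := by linarith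
  have hα : 0 < a / (a + 1) := by positivity
  have hβ : 0 < b / (b - 1) := by positivity
  unfold pz
  constructor
  · intro h
    by_contra hlt
    push Not at hlt
    have h1 : b / (b - 1) * (x 2 + rr x) < 0 := by nlinarith
    have h2 : x 2 < 0 := by linarith
    exact absurd h (not_le.2 (max_lt h2 ((min_le_left _ _).trans_lt h1)))
  · intro h
    refine le_max_of_le_right (le_min ?_ ?_)
    · exact mul_nonneg hβ.le (by linarith)
    · exact mul_nonneg hα.le (by linarith)

theorem alpha_mem {a : ℝ} (ha : 0 < a) : 0 < a / (a + 1) ∧ a / (a + 1) < 1 := by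
  refine ⟨by positivity, ?_⟩
  rw [div_lt_one (by linarith)]; linarith

theorem beta_mem {b : ℝ} (hb : 1 < b) : 1 < b / (b - 1) := by
  rw [one_lt_div (by linarith)]; linarith

/-- the push with parameters `a, b` -/
noncomputable def push (a b : ℝ) (ha : 0 < a) (hb : 1 < b) :
    ConHomeo (univ : Set V3) (univ : Set V3) :=
  pushM (a / (a + 1)) (b / (b - 1)) (alpha_mem ha).1 (alpha_mem ha).2 (beta_mem hb)

theorem push_toFun (a b : ℝ) (ha : 0 < a) (hb : 1 < b) (x : V3) :
    (push a b ha hb).toFun x = setz x (pz (a / (a + 1)) (b / (b - 1)) x) := rfl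

theorem push_off (a b : ℝ) (ha : 0 < a) (hb : 1 < b) {x : V3} (hx : x ∉ Sig a b) :
    (push a b ha hb).toFun x = x := by
  rw [push_toFun, pushM_off ha hb hx, setz_self]

/-- **Model push**: if `O ∩ Σ` is the part of `Σ` above the top face then the push maps
`O ∪ P` onto `O`. -/
theorem push_iff (a b : ℝ) (ha : 0 < a) (hb : 1 < b) {O : Set V3}
    (h1 : ∀ x, 0 ≤ rr x → 0 ≤ x 2 → x 2 ≤ a * rr x → x ∈ O)
    (h2 : ∀ x ∈ O, 0 ≤ rr x → -(b * rr x) ≤ x 2 → 0 ≤ x 2) (x : V3) :
    (push a b ha hb).toFun x ∈ O ↔ x ∈ O ∪ PP := by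
  by_cases hx : x ∈ Sig a b
  · have hr := hx.2.2
    have hm := pushM_mem ha hb hx
    have hs := pushM_sign ha hb hr
    rw [push_toFun]
    set z := pz (a / (a + 1)) (b / (b - 1)) x with hz
    constructor
    · intro h
      have h3 : 0 ≤ z := by
        have := h2 _ h (by simpa using hr) (by simpa using hm.1)
        simpa using this
      have h4 := hs.1 h3
      rcases le_total 0 (x 2) with h5 | h5
      · exact Or.inl (h1 x hr h5 hx.2.1)
      · exact Or.inr ⟨h4, h5⟩
    · intro h
      apply h1
      · simpa using hr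
      · rw [setz_2]
        apply hs.2
        rcases h with h | h
        · have := h2 x h hr hx.1
          linarith
        · exact h.1
      · simpa using hm.2
  · rw [push_off a b ha hb hx]
    constructor
    · exact fun h => Or.inl h
    · rintro (h | h)
      · exact h
      · exfalso
        apply hx
        have hr := PP_rr h
        refine ⟨?_, ?_, hr⟩
        · have := h.1; nlinarith
        · have := h.2; nlinarith

end Push

end P073
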