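import Vale.Agent.P073.H894.Node
import Vale.Agent.P073.TM489.B1

/-!
# P073 (helper894), block TM-C: the cells of the vertices and of the edges are balls
-/

open Set Metric Topology Filter

namespace P073.PA691.BoxCx

open P073 PR720 P073.H894
open Vale.Agent.P073.St (V)

variable {Λ : Set V} {v : V} {K : BoxCx Λ v}

namespace Sizes

variable (s : K.Sizes)

theorem ab_ne (e : K.G) : K.a e ≠ K.b e := fun h => by
  have := K.ab_dir e
  rw [h] at this
  exact lt_irrefl _ this

theorem dist_le_pi {x y : V} {t : ℝ} (ht : 0 ≤ t) : x ∈ closedBall y t ↔ ∀ k, |x k - y k| ≤ t := by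
  rw [mem_closedBall, dist_pi_le_iff ht]
  simp only [Real.dist_eq]

/-- the length of an edge -/
theorem edge_len (e : K.G) : K.w (K.a e) (K.dir e) + (2 * s.r (K.a e) + 2 * s.r (K.b e)) <
    K.w (K.b e) (K.dir e) := by
  by_contra hcon
  push Not at hcon
  have ha := s.r_pos (K.a e)
  have hb := s.r_pos (K.b e)
  have hl := K.ab_dir e
  set d := K.dir e with hd
  -- a common point of the two balls
  let x : V := fun k => if k = d then K.w (K.a e) d + min (2 * s.r (K.a e))
    (K.w (K.b e) d - K.w (K.a e) d) else K.w (K.a e) k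
  have hmin0 : 0 ≤ min (2 * s.r (K.a e)) (K.w (K.b e) d - K.w (K.a e) d) :=
    le_min (by linarith) (by linarith)
  have h1 : x ∈ closedBall (K.w (K.a e)) (2 * s.r (K.a e)) := by
    rw [dist_le_pi (by linarith)]
    intro k
    by_cases hk : k = d
    · subst hk
      show |(if _ = _ then _ else _) - _| ≤ _
      rw [if_pos rfl, add_sub_cancel_left, abs_of_nonneg hmin0]
      exact min_le_left _ _
    · show |(if _ = _ then _ else _) - _| ≤ _
      rw [if_neg hk, sub_self, abs_zero]; linarith
  have h2 : x ∈ closedBall (K.w (K.b e)) (2 * s.r (K.b e)) := by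
    rw [dist_le_pi (by linarith)]
    intro k
    by_cases hk : k = d
    · subst hk
      show |(if _ = _ then _ else _) - _| ≤ _
      rw [if_pos rfl, abs_le]
      constructor
      · rcases min_choice (2 * s.r (K.a e)) (K.w (K.b e) d - K.w (K.a e) d) with h | h
        · rw [h]; linarith
        · rw [h]; linarith
      · have := min_le_right (2 * s.r (K.a e)) (K.w (K.b e) d - K.w (K.a e) d)
        linarith
    · show |(if _ = _ then _ else _) - _| ≤ _
      rw [if_neg hk, K.ab_off e k hk, sub_self, abs_zero]; linarith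
  exact disjoint_left.1 (s.U_disj _ _ (ab_ne e)) h1 h2

theorem ca_lt_cb' (e : K.G) : s.ca e < s.cb e := by
  have := s.edge_len e
  have ha := s.r_pos (K.a e)
  have hb := s.r_pos (K.b e)
  unfold ca cb
  linarith

/-- the cell of an edge is a box -/
theorem RG_eq {c : ℝ} (hc : c ∈ Ioo (1/2:ℝ) 1) (e : K.G) : s.RG c e =
    Icc (fun k => if k = K.dir e then s.ca e else K.w (K.a e) k - c * s.q e)
      (fun k => if k = K.dir e then s.cb e else K.w (K.b e) k + c * s.q e) := by
  have ha := s.r_pos (K.a e)
  have hb := s.r_pos (K.b e)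
  have hq := s.q_pos e
  have hcq : 0 < c * s.q e := mul_pos (by have := hc.1; linarith) hq
  ext x
  rw [Icc_pi']
  show ((∀ k, K.w (K.a e) k - c * s.q e ≤ x k ∧ x k ≤ K.w (K.b e) k + c * s.q e) ∧
    s.ca e ≤ x (K.dir e) ∧ x (K.dir e) ≤ s.cb e) ↔ _
  constructor
  · rintro ⟨h1, h2, h3⟩ k
    by_cases hk : k = K.dir e
    · simp only [hk, if_true]; exact ⟨h2, h3⟩
    · simp only [hk, if_false]; exact h1 k
  · intro h
    have hd := h (K.dir e)
    simp only [if_true] at hd
    refine ⟨fun k => ?_, hd⟩
    by_cases hk : k = K.dir e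
    · subst hk
      unfold ca cb at hd
      constructor <;> linarith [hd.1, hd.2]
    · have := h k
      simp only [hk, if_false] at this
      exact this

theorem conBall_RG {c : ℝ} (hc : c ∈ Ioo (1/2:ℝ) 1) (e : K.G) :
    ConBall 3 (s.RG c e) (frontier (s.RG c e)) := by
  rw [s.RG_eq hc e]
  refine conBall_Icc_pi (by norm_num) fun k => ?_
  have hcq : 0 < c * s.q e := mul_pos (by have := hc.1; linarith) (s.q_pos e)
  by_cases hk : k = K.dir e
  · simp only [hk, if_true]; exact s.ca_lt_cb' e
  · simp only [hk, if_false]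
    rw [K.ab_off e k hk]; linarith

/-- finitely many edges at a vertex -/
theorem finite_edges (s : K.Sizes) (i : K.W) : {e : K.G | K.a e = i ∨ K.b e = i}.Finite := by
  have hr := s.r_pos i
  have hi : K.w i ∈ Λ := s.U_sub i (mem_closedBall_self (by linarith))
  obtain ⟨U, hU, hfin⟩ := K.lfG (K.w i) hi
  refine hfin.subset ?_
  rintro e (h | h)
  · refine ⟨K.w i, ?_, mem_of_mem_nhds hU⟩
    subst h
    refine ⟨le_rfl, fun k => ?_⟩
    by_cases hk : k = K.dir e
    · subst hk; exact (K.ab_dir e).le
    · exact (K.ab_off e k hk).le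
  · refine ⟨K.w i, ?_, mem_of_mem_nhds hU⟩
    subst h
    refine ⟨fun k => ?_, le_rfl⟩
    by_cases hk : k = K.dir e
    · subst hk; exact (K.ab_dir e).le
    · exact (K.ab_off e k hk).le

/-- the stub of the edge `e` at its lower (`β = true`) or upper (`β = false`) end -/
noncomputable def slo' (c : ℝ) (p : K.G × Bool) : V :=
  if p.2 then fun k => if k = K.dir p.1 then K.w (K.a p.1) k + c * s.r (K.a p.1)
    else K.w (K.a p.1) k - c * s.q p.1
  else fun k => if k = K.dir p.1 then s.cb p.1 else K.w (K.b p.1) k - c * s.q p.1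

/-- upper corner of the stub -/
noncomputable def shi' (c : ℝ) (p : K.G × Bool) : V :=
  if p.2 then fun k => if k = K.dir p.1 then s.ca p.1 else K.w (K.a p.1) k + c * s.q p.1
  else fun k => if k = K.dir p.1 then K.w (K.b p.1) k - c * s.r (K.b p.1)
    else K.w (K.b p.1) k + c * s.q p.1

/-- the vertex of the stub -/
def sv (p : K.G × Bool) : K.W := if p.2 then K.a p.1 else K.b p.1

theorem isStub {c : ℝ} (hc : c ∈ Ioo (1/2:ℝ) 1) (p : K.G × Bool) :
    IsStub (fun k => K.w (sv p) k - c * s.r (sv p)) (fun k => K.w (sv p) k + c * s.r (sv p))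
      (K.dir p.1) p.2 (s.slo' c p) (s.shi' c p) := by
  obtain ⟨e, β⟩ := p
  have ha := s.r_pos (K.a e)
  have hb := s.r_pos (K.b e)
  have hq := s.q_pos e
  have hc1 := hc.1
  have hc2 := hc.2
  have hcq : 0 < c * s.q e := mul_pos (by linarith) hq
  have hq1 := (s.q_le e).1
  have hq2 := (s.q_le e).2
  have hra : c * s.q e ≤ c * s.r (K.a e) := mul_le_mul_of_nonneg_left (by linarith) (by linarith)
  have hrb : c * s.q e ≤ c * s.r (K.b e) := mul_le_mul_of_nonneg_left (by linarith) (by linarith)
  have hra' : c * s.r (K.a e) < s.r (K.a e) := by nlinarith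
  have hrb' : c * s.r (K.b e) < s.r (K.b e) := by nlinarith
  cases β with
  | true =>
    refine ⟨fun k => ?_, fun k hk => ?_, fun _ => ?_, fun h => absurd h (by simp)⟩
    · by_cases hk : k = K.dir e
      · subst hk; simp [slo', shi', ca]; linarith
      · simp [slo', shi', hk]; linarith
    · simp only [slo', shi', sv, if_true, hk, if_false]
      constructor <;> linarith
    · simp [slo', sv]
  | false =>
    refine ⟨fun k => ?_, fun k hk => ?_, fun h => absurd h (by simp), fun _ => ?_⟩
    · by_cases hk : k = K.dir e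
      · subst hk; simp [slo', shi', cb]; linarith
      · simp [slo', shi', hk]; linarith
    · simp only [slo', shi', sv, Bool.false_eq_true, if_false, hk]
      constructor <;> linarith
    · simp [shi', sv]

theorem mem_stub {c : ℝ} (hc : c ∈ Ioo (1/2:ℝ) 1) (p : K.G × Bool) {x : V}
    (hx : x ∈ Icc (s.slo' c p) (s.shi' c p)) :
    x ∈ K.nb p.1 (c * s.q p.1) ∧ x ∈ closedBall (K.w (sv p)) (2 * s.r (sv p)) ∧
      s.r (sv p) / 2 < |x (K.dir p.1) - K.w (sv p) (K.dir p.1)| ∧
      (p.2 = true → x (K.dir p.1) ≤ s.ca p.1) ∧ (p.2 = false → s.cb p.1 ≤ x (K.dir p.1)) := by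
  obtain ⟨e, β⟩ := p
  have ha := s.r_pos (K.a e)
  have hb := s.r_pos (K.b e)
  have hq := s.q_pos e
  have hc1 := hc.1
  have hc2 := hc.2
  have hcq : 0 < c * s.q e := mul_pos (by linarith) hq
  have hcq' : c * s.q e < s.q e := by nlinarith
  have hq1 := (s.q_le e).1
  have hq2 := (s.q_le e).2
  have hra : s.r (K.a e) / 2 < c * s.r (K.a e) := by nlinarith
  have hrb : s.r (K.b e) / 2 < c * s.r (K.b e) := by nlinarith
  have hlen := s.edge_len e
  rw [Icc_pi'] at hx
  cases β with
  | true =>
    have hx' : ∀ k, (if k = K.dir e then K.w (K.a e) k + c * s.r (K.a e)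
        else K.w (K.a e) k - c * s.q e) ≤ x k ∧
        x k ≤ if k = K.dir e then s.ca e else K.w (K.a e) k + c * s.q e := hx
    have hd := hx' (K.dir e)
    simp only [if_true] at hd
    have hd1 := hd.1
    have hd2 := hd.2
    have hca : s.ca e = K.w (K.a e) (K.dir e) + 5 / 4 * s.r (K.a e) := rfl
    refine ⟨fun k => ?_, ?_, ?_, fun _ => hd2, fun h => absurd h (by simp)⟩
    · show K.w (K.a e) k - c * s.q e ≤ x k ∧ x k ≤ K.w (K.b e) k + c * s.q e
      by_cases hk : k = K.dir e
      · subst hk
        constructor <;> linarith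
      · have := hx' k
        simp only [hk, if_false] at this
        rwa [← K.ab_off e k hk]
    · show x ∈ closedBall (K.w (K.a e)) (2 * s.r (K.a e))
      rw [dist_le_pi (by linarith)]
      intro k
      rw [abs_le]
      by_cases hk : k = K.dir e
      · subst hk
        constructor <;> linarith
      · have := hx' k
        simp only [hk, if_false] at this
        constructor <;> linarith [this.1, this.2]
    · show s.r (K.a e) / 2 < |x (K.dir e) - K.w (K.a e) (K.dir e)|
      rw [lt_abs]
      left; linarith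
  | false =>
    have hx' : ∀ k, (if k = K.dir e then s.cb e else K.w (K.b e) k - c * s.q e) ≤ x k ∧
        x k ≤ if k = K.dir e then K.w (K.b e) k - c * s.r (K.b e)
          else K.w (K.b e) k + c * s.q e := hx
    have hd := hx' (K.dir e)
    simp only [if_true] at hd
    have hd1 := hd.1
    have hd2 := hd.2
    have hcb : s.cb e = K.w (K.b e) (K.dir e) - 5 / 4 * s.r (K.b e) := rfl
    refine ⟨fun k => ?_, ?_, ?_, fun h => absurd h (by simp), fun _ => hd1⟩
    · show K.w (K.a e) k - c * s.q e ≤ x k ∧ x k ≤ K.w (K.b e) k + c * s.q e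
      by_cases hk : k = K.dir e
      · subst hk
        constructor <;> linarith
      · have := hx' k
        simp only [hk, if_false] at this
        rwa [K.ab_off e k hk]
    · show x ∈ closedBall (K.w (K.b e)) (2 * s.r (K.b e))
      rw [dist_le_pi (by linarith)]
      intro k
      rw [abs_le]
      by_cases hk : k = K.dir e
      · subst hk
        constructor <;> linarith
      · have := hx' k
        simp only [hk, if_false] at this
        constructor <;> linarith [this.1, this.2]
    · show s.r (K.b e) / 2 < |x (K.dir e) - K.w (K.b e) (K.dir e)|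
      rw [lt_abs]
      right; linarith

theorem disjoint_stub {c : ℝ} (hc : c ∈ Ioo (1/2:ℝ) 1) {i : K.W} {p p' : K.G × Bool}
    (hp : sv p = i) (hp' : sv p' = i) (hne : p ≠ p') :
    Disjoint (Icc (s.slo' c p) (s.shi' c p)) (Icc (s.slo' c p') (s.shi' c p')) := by
  rw [disjoint_left]
  intro x hx hx'
  obtain ⟨h1, h2, h3, -, -⟩ := s.mem_stub hc p hx
  obtain ⟨h1', -, -, -, -⟩ := s.mem_stub hc p' hx'
  have hmono : ∀ e : K.G, K.nb e (c * s.q e) ⊆ K.nb e (2 * s.q e) := by
    intro e y hy k
    have hq := s.q_pos e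
    have hc2 := hc.2
    have := hy k
    constructor <;> nlinarith [this.1, this.2]
  by_cases he : p.1 = p'.1
  · have hβ : p.2 ≠ p'.2 := fun h => hne (Prod.ext he h)
    obtain ⟨e, β⟩ := p
    obtain ⟨e', β'⟩ := p'
    simp only at he hβ
    subst he
    cases β <;> cases β'
    · exact hβ rfl
    · have a1 : K.b e = i := hp
      have a2 : K.a e = i := hp'
      exact ab_ne e (a2.trans a1.symm)
    · have a1 : K.a e = i := hp
      have a2 : K.b e = i := hp'
      exact ab_ne e (a1.trans a2.symm)
    · exact hβ rfl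
  · obtain ⟨j, -, -, hj⟩ := s.tube_disj _ _ he x (hmono _ h1) (hmono _ h1')
    rw [hp] at h2 h3
    by_cases hji : j = i
    · subst hji
      rw [mem_ball] at hj
      have := dist_le_pi_dist x (K.w j) (K.dir p.1)
      rw [Real.dist_eq] at this
      linarith
    · have hrj := s.r_pos j
      exact disjoint_left.1 (s.U_disj _ _ hji)
        (closedBall_subset_closedBall (by linarith) (ball_subset_closedBall hj)) h2

/-- the closed cube as a box -/
theorem box_eq {c : ℝ} (hc : c ∈ Ioo (1/2:ℝ) 1) (i : K.W) : s.box c i =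
    Icc (fun k => K.w i k - c * s.r i) (fun k => K.w i k + c * s.r i) := by
  have hr := s.r_pos i
  have hcr : 0 ≤ c * s.r i := by have := hc.1; positivity
  ext x
  rw [Icc_pi']
  show x ∈ closedBall (K.w i) (c * s.r i) ↔ _
  rw [dist_le_pi hcr]
  refine forall_congr' fun k => ?_
  rw [abs_le]
  constructor
  · rintro ⟨h1, h2⟩; constructor <;> linarith
  · rintro ⟨h1, h2⟩; constructor <;> linarith

/-- the stubs at a vertex -/
noncomputable def stubs (i : K.W) : Finset (K.G × Bool) :=
  Set.Finite.toFinset (s := {p : K.G × Bool | sv p = i}) (by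
    refine ((s.finite_edges i).prod (finite_univ (α := Bool))).subset ?_
    rintro ⟨e, β⟩ h
    refine ⟨?_, mem_univ _⟩
    cases β
    · exact Or.inr h
    · exact Or.inl h)

theorem mem_stubs {i : K.W} {p : K.G × Bool} : p ∈ s.stubs i ↔ sv p = i := by
  unfold stubs
  rw [Set.Finite.mem_toFinset]
  rfl

/-- the cell of a vertex is a box with stubs -/
theorem RV_eq {c : ℝ} (hc : c ∈ Ioo (1/2:ℝ) 1) (i : K.W) : s.RV c i =
    Icc (fun k => K.w i k - c * s.r i) (fun k => K.w i k + c * s.r i) ∪
      ⋃ p ∈ s.stubs i, Icc (s.slo' c p) (s.shi' c p) := by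
  have hri := s.r_pos i
  have hc1 := hc.1
  have hc2 := hc.2
  rw [← s.box_eq hc i]
  ext x
  constructor
  · rintro ((hx | hx) | hx)
    · exact Or.inl hx
    · obtain ⟨e, he, hxb, hxd⟩ := mem_iUnion₂.1 hx
      subst he
      have hq := s.q_pos e
      have hq1 := (s.q_le e).1
      have hlen := s.edge_len e
      have hb := s.r_pos (K.b e)
      have hcqr : c * s.q e ≤ c * s.r (K.a e) :=
        mul_le_mul_of_nonneg_left (by linarith) (by linarith)
      have hxb' : ∀ k, K.w (K.a e) k - c * s.q e ≤ x k ∧ x k ≤ K.w (K.b e) k + c * s.q e := hxb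
      rcases le_total (x (K.dir e)) (K.w (K.a e) (K.dir e) + c * s.r (K.a e)) with h | h
      · left
        rw [s.box_eq hc, Icc_pi']
        intro k
        have hk' := hxb' k
        by_cases hk : k = K.dir e
        · subst hk
          exact ⟨by linarith [hk'.1], h⟩
        · rw [← K.ab_off e k hk] at hk'
          constructor <;> linarith [hk'.1, hk'.2]
      · right
        refine mem_iUnion₂.2 ⟨(e, true), s.mem_stubs.2 rfl, ?_⟩
        rw [Icc_pi']
        intro k
        show (if k = K.dir e then K.w (K.a e) k + c * s.r (K.a e)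
          else K.w (K.a e) k - c * s.q e) ≤ x k ∧
          x k ≤ if k = K.dir e then s.ca e else K.w (K.a e) k + c * s.q e
        by_cases hk : k = K.dir e
        · subst hk
          simp only [if_true]
          exact ⟨h, hxd⟩
        · simp only [hk, if_false]
          have hk' := hxb' k
          rwa [← K.ab_off e k hk] at hk'
    · obtain ⟨e, he, hxb, hxd⟩ := mem_iUnion₂.1 hx
      subst he
      have hq := s.q_pos e
      have hq1 := (s.q_le e).2
      have hlen := s.edge_len e
      have hcqr : c * s.q e ≤ c * s.r (K.b e) :=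
        mul_le_mul_of_nonneg_left (by linarith) (by linarith)
      have hxb' : ∀ k, K.w (K.a e) k - c * s.q e ≤ x k ∧ x k ≤ K.w (K.b e) k + c * s.q e := hxb
      rcases le_total (K.w (K.b e) (K.dir e) - c * s.r (K.b e)) (x (K.dir e)) with h | h
      · left
        rw [s.box_eq hc, Icc_pi']
        intro k
        have hk' := hxb' k
        by_cases hk : k = K.dir e
        · subst hk
          exact ⟨h, by linarith [hk'.2]⟩
        · rw [K.ab_off e k hk] at hk'
          constructor <;> linarith [hk'.1, hk'.2]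
      · right
        refine mem_iUnion₂.2 ⟨(e, false), s.mem_stubs.2 rfl, ?_⟩
        rw [Icc_pi']
        intro k
        show (if k = K.dir e then s.cb e else K.w (K.b e) k - c * s.q e) ≤ x k ∧
          x k ≤ if k = K.dir e then K.w (K.b e) k - c * s.r (K.b e)
            else K.w (K.b e) k + c * s.q e
        by_cases hk : k = K.dir e
        · subst hk
          simp only [if_true]
          exact ⟨hxd, h⟩
        · simp only [hk, if_false]
          have hk' := hxb' k
          rwa [K.ab_off e k hk] at hk'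
  · rintro (hx | hx)
    · exact Or.inl (Or.inl hx)
    · obtain ⟨p, hp, hxp⟩ := mem_iUnion₂.1 hx
      obtain ⟨h1, -, -, h4, h5⟩ := s.mem_stub hc p hxp
      rw [s.mem_stubs] at hp
      obtain ⟨e, β⟩ := p
      cases β with
      | true => exact Or.inl (Or.inr (mem_iUnion₂.2 ⟨e, hp, h1, h4 rfl⟩))
      | false => exact Or.inr (mem_iUnion₂.2 ⟨e, hp, h1, h5 rfl⟩)

theorem conBall_RV {c : ℝ} (hc : c ∈ Ioo (1/2:ℝ) 1) (i : K.W) :
    ConBall 3 (s.RV c i) (frontier (s.RV c i)) := by
  have hr := s.r_pos i
  have hcr : 0 < c * s.r i := mul_pos (by have := hc.1; linarith) hr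
  rw [s.RV_eq hc i]
  refine (conBall_node (s.stubs i) (k := fun p => K.dir p.1) (s := fun p => p.2)
    (lo := s.slo' c) (hi := s.shi' c) (fun j => by linarith) (fun p hp => ?_)
    (fun p hp p' hp' hne => s.disjoint_stub hc (s.mem_stubs.1 hp) (s.mem_stubs.1 hp') hne)).1
  rw [s.mem_stubs] at hp
  rw [← hp]
  exact s.isStub hc p

end Sizes

end P073.PA691.BoxCx
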