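import Vale.Agent.P073.H894.TMBalls

/-!
# P073 (helper894), block TM-S: the frontiers of the cells of the vertices and of the edges
-/

open Set Metric Topology Filter

namespace P073.PA691.BoxCx

open P073 PR720 P073.H894
open Vale.Agent.P073.St (V)

variable {Λ : Set V} {v : V} {K : BoxCx Λ v}

namespace Sizes

variable (s : K.Sizes) {c : ℝ} (hc : c ∈ Ioo (1/2:ℝ) 1)
include hc

/-- a point of a beam in an open cube is near an end of the edge -/
theorem beam_ball {x : V} {e : K.G} {i : K.W} (h : x ∈ s.beam c e)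
    (hi : x ∈ ball (K.w i) (c * s.r i)) : (i = K.a e ∧ x (K.dir e) < s.ca e) ∨
      (i = K.b e ∧ s.cb e < x (K.dir e)) := by
  have h1 := (s.mem_boxo hc).1 hi (K.dir e)
  rcases s.box_beam hc (ball_subset_closedBall hi) h with rfl | rfl
  · left
    have := s.cr_lt hc (K.a e)
    have hr := s.r_pos (K.a e)
    have h2 := (abs_lt.1 h1).2
    refine ⟨rfl, ?_⟩
    unfold ca; linarith
  · right
    have := s.cr_lt hc (K.b e)
    have hr := s.r_pos (K.b e)
    have h2 := (abs_lt.1 h1).1
    refine ⟨rfl, ?_⟩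
    unfold cb; linarith

/-- in the cell of the edge the open neighbourhood is the open beam -/
theorem RG_Hin {x : V} {e : K.G} (h : x ∈ s.RG c e) (hx : x ∈ s.Hin c) :
    x ∈ K.nbo e (c * s.q e) := by
  have hne : ∀ i, x ∉ ball (K.w i) (c * s.r i) := by
    intro i hi
    rcases s.beam_ball hc h.1 hi with ⟨-, h1⟩ | ⟨-, h1⟩
    · exact absurd h.2.1 (not_le.2 h1)
    · exact absurd h.2.2 (not_le.2 h1)
  rcases s.mem_Hin.1 hx with ⟨i, hi⟩ | ⟨e', he'⟩
  · exact absurd hi (hne i)
  · by_cases hee : e = e'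
    · subst hee; exact he'
    · obtain ⟨i, -, -, hi⟩ := s.beam_beam hc hee h.1 (nbo_subset_nb _ _ he')
      exact absurd (s.half_sub hc i hi) (hne i)

theorem frG (e : K.G) : frontier (s.RG c e) = {x ∈ s.RG c e | x ∈ s.F c ∨
    x (K.dir e) = s.ca e ∨ x (K.dir e) = s.cb e} := by
  have hlt := s.ca_lt_cb' e
  have hcq := s.cq_pos hc e
  have ha := s.r_pos (K.a e)
  have hb := s.r_pos (K.b e)
  ext x
  have hRG := s.RG_eq hc e
  constructor
  · intro hx
    have hxR : x ∈ s.RG c e := by
      have : IsClosed (s.RG c e) := by rw [hRG]; exact isClosed_Icc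
      exact this.frontier_subset hx
    refine ⟨hxR, ?_⟩
    rw [hRG, frontier_Icc_pi'] at hx
    by_contra hcon
    push Not at hcon
    obtain ⟨h1, h2, h3⟩ := hcon
    have hH : x ∈ s.Hin c := by
      by_contra hn
      exact h1 ⟨s.mem_H.2 (Or.inr ⟨e, hxR.1⟩), hn⟩
    have ho := s.RG_Hin hc hxR hH
    refine hx.2 fun k => ?_
    by_cases hk : k = K.dir e
    · simp only [hk, if_true]
      exact ⟨lt_of_le_of_ne hxR.2.1 (Ne.symm h2), lt_of_le_of_ne hxR.2.2 h3⟩
    · simp only [hk, if_false]
      exact ho k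
  · rintro ⟨hxR, hx⟩
    have hxI := hRG.subset hxR
    rw [Icc_pi'] at hxI
    rw [hRG, frontier_Icc_pi']
    refine ⟨hxI, fun hcon => ?_⟩
    rcases hx with hx | hx | hx
    · apply hx.2
      refine s.mem_Hin.2 (Or.inr ⟨e, fun k => ?_⟩)
      have hk' := hcon k
      by_cases hk : k = K.dir e
      · subst hk
        simp only [if_true] at hk'
        unfold ca cb at hk'
        constructor <;> linarith [hk'.1, hk'.2]
      · simpa only [hk, if_false] using hk'
    · have hk' := hcon (K.dir e)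
      simp only [if_true] at hk'
      exact hk'.1.ne' hx
    · have hk' := hcon (K.dir e)
      simp only [if_true] at hk'
      exact hk'.2.ne hx

/-! ### vertices -/

theorem RV_sub (i : K.W) : s.RV c i ⊆ closedBall (K.w i) (2 * s.r i) := by
  intro x hx
  rw [s.RV_eq hc i, ← s.box_eq hc i] at hx
  rcases hx with hx | hx
  · exact s.box_sub hc i hx
  · obtain ⟨p, hp, hxp⟩ := mem_iUnion₂.1 hx
    rw [s.mem_stubs] at hp
    rw [← hp]
    exact (s.mem_stub hc p hxp).2.1

omit hc in
theorem RV_sub_H (i : K.W) : s.RV c i ⊆ s.H c := by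
  rintro x ((hx | hx) | hx)
  · exact s.mem_H.2 (Or.inl ⟨i, hx⟩)
  · obtain ⟨e, -, hxb, -⟩ := mem_iUnion₂.1 hx
    exact s.mem_H.2 (Or.inr ⟨e, hxb⟩)
  · obtain ⟨e, -, hxb, -⟩ := mem_iUnion₂.1 hx
    exact s.mem_H.2 (Or.inr ⟨e, hxb⟩)

theorem isClosed_RV (i : K.W) : IsClosed (s.RV c i) := by
  rw [s.RV_eq hc i]
  exact isClosed_Icc.union (isClosed_biUnion_finset fun _ _ => isClosed_Icc)

/-- a point of the cell of the vertex `a e` in the beam `e` is below the cut -/
theorem RV_le_ca {x : V} {e : K.G} (h : x ∈ s.RV c (K.a e)) (hb : x ∈ s.beam c e) :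
    x (K.dir e) ≤ s.ca e := by
  have hr := s.r_pos (K.a e)
  have hcr := s.cr_lt hc (K.a e)
  have hin : ∀ x : V, (∀ k, |x k - K.w (K.a e) k| ≤ c * s.r (K.a e)) →
      x (K.dir e) ≤ s.ca e := by
    intro x hx
    have := (abs_le.1 (hx (K.dir e))).2
    unfold ca; linarith
  have haux : ∀ e', e ≠ e' → x ∈ s.beam c e' → x (K.dir e) ≤ s.ca e := by
    intro e' hne hb'
    obtain ⟨j, -, -, hj⟩ := s.beam_beam hc hne hb hb'
    by_cases hja : j = K.a e
    · subst hja
      exact hin x ((s.mem_box hc).1 (ball_subset_closedBall (s.half_sub hc _ hj)))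
    · exfalso
      have hrj := s.r_pos j
      exact disjoint_left.1 (s.U_disj _ _ hja)
        (closedBall_subset_closedBall (by linarith) (ball_subset_closedBall hj))
        (s.RV_sub hc _ h)
  rcases h with (h | h) | h
  · exact hin x ((s.mem_box hc).1 h)
  · obtain ⟨e', he', hxb, hxd⟩ := mem_iUnion₂.1 h
    by_cases hee : e = e'
    · subst hee; exact hxd
    · exact haux e' hee hxb
  · obtain ⟨e', he', hxb, hxd⟩ := mem_iUnion₂.1 h
    by_cases hee : e = e'
    · subst hee; exact absurd he'.symm (ab_ne e)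
    · exact haux e' hee hxb

/-- a point of the cell of the vertex `b e` in the beam `e` is above the cut -/
theorem RV_cb_le {x : V} {e : K.G} (h : x ∈ s.RV c (K.b e)) (hb : x ∈ s.beam c e) :
    s.cb e ≤ x (K.dir e) := by
  have hr := s.r_pos (K.b e)
  have hcr := s.cr_lt hc (K.b e)
  have hin : ∀ x : V, (∀ k, |x k - K.w (K.b e) k| ≤ c * s.r (K.b e)) →
      s.cb e ≤ x (K.dir e) := by
    intro x hx
    have := (abs_le.1 (hx (K.dir e))).1
    unfold cb; linarith
  have haux : ∀ e', e ≠ e' → x ∈ s.beam c e' → s.cb e ≤ x (K.dir e) := by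
    intro e' hne hb'
    obtain ⟨j, -, -, hj⟩ := s.beam_beam hc hne hb hb'
    by_cases hja : j = K.b e
    · subst hja
      exact hin x ((s.mem_box hc).1 (ball_subset_closedBall (s.half_sub hc _ hj)))
    · exfalso
      have hrj := s.r_pos j
      exact disjoint_left.1 (s.U_disj _ _ hja)
        (closedBall_subset_closedBall (by linarith) (ball_subset_closedBall hj))
        (s.RV_sub hc _ h)
  rcases h with (h | h) | h
  · exact hin x ((s.mem_box hc).1 h)
  · obtain ⟨e', he', hxb, hxd⟩ := mem_iUnion₂.1 h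
    by_cases hee : e = e'
    · subst hee; exact absurd he' (ab_ne e)
    · exact haux e' hee hxb
  · obtain ⟨e', he', hxb, hxd⟩ := mem_iUnion₂.1 h
    by_cases hee : e = e'
    · subst hee; exact hxd
    · exact haux e' hee hxb

/-- interior points -/
theorem mem_interior_RV {x : V} {i : K.W} (hx : x ∈ s.RV c i) (hH : x ∈ s.Hin c)
    (h1 : ∀ e, K.a e = i → x ∈ s.beam c e → x (K.dir e) ≠ s.ca e)
    (h2 : ∀ e, K.b e = i → x ∈ s.beam c e → x (K.dir e) ≠ s.cb e) :
    x ∈ interior (s.RV c i) := by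
  rcases s.mem_Hin.1 hH with ⟨j, hj⟩ | ⟨e, he⟩
  · have hji : j = i := by
      by_contra hne
      exact disjoint_left.1 (s.U_disj _ _ hne) (s.box_sub hc j (ball_subset_closedBall hj))
        (s.RV_sub hc i hx)
    subst hji
    exact interior_maximal (fun y hy => Or.inl (Or.inl (ball_subset_closedBall hy))) isOpen_ball hj
  · have heb := nbo_subset_nb e _ he
    rcases s.U_edge i e x (s.RV_sub hc i hx) (s.beam_sub hc e heb) with rfl | rfl
    · have hlt : x (K.dir e) < s.ca e := lt_of_le_of_ne (s.RV_le_ca hc hx heb) (h1 e rfl heb)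
      refine interior_maximal (t := K.nbo e (c * s.q e) ∩ {y | y (K.dir e) < s.ca e}) ?_
        ((isOpen_nbo e _).inter (isOpen_lt (continuous_apply _) continuous_const)) ⟨he, hlt⟩
      rintro y ⟨hy, hy'⟩
      exact Or.inl (Or.inr (mem_iUnion₂.2 ⟨e, rfl, nbo_subset_nb e _ hy, le_of_lt hy'⟩))
    · have hlt : s.cb e < x (K.dir e) :=
        lt_of_le_of_ne (s.RV_cb_le hc hx heb) (Ne.symm (h2 e rfl heb))
      refine interior_maximal (t := K.nbo e (c * s.q e) ∩ {y | s.cb e < y (K.dir e)}) ?_
        ((isOpen_nbo e _).inter (isOpen_lt continuous_const (continuous_apply _))) ⟨he, hlt⟩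
      rintro y ⟨hy, hy'⟩
      exact Or.inr (mem_iUnion₂.2 ⟨e, rfl, nbo_subset_nb e _ hy, le_of_lt hy'⟩)

theorem frV (i : K.W) : frontier (s.RV c i) = {x ∈ s.RV c i | x ∈ s.F c ∨
    (∃ e, K.a e = i ∧ x ∈ s.beam c e ∧ x (K.dir e) = s.ca e) ∨
    ∃ e, K.b e = i ∧ x ∈ s.beam c e ∧ x (K.dir e) = s.cb e} := by
  have hcl := s.isClosed_RV hc i
  ext x
  constructor
  · intro hx
    have hxR := hcl.frontier_subset hx
    refine ⟨hxR, ?_⟩
    by_contra hcon
    push Not at hcon
    obtain ⟨h1, h2, h3⟩ := hcon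
    have hH : x ∈ s.Hin c := by
      by_contra hn
      exact h1 ⟨s.RV_sub_H i hxR, hn⟩
    rw [hcl.frontier_eq] at hx
    exact hx.2 (s.mem_interior_RV hc hxR hH h2 h3)
  · rintro ⟨hxR, hx⟩
    rw [hcl.frontier_eq]
    refine ⟨hxR, fun hint => ?_⟩
    have hline : ∀ σ : ℝ, ∀ k : Fin 3, ∀ᶠ t : ℝ in 𝓝[>] 0,
        x + (t * σ) • (Pi.single k (1:ℝ) : V) ∈ s.RV c i := by
      intro σ k
      have hcont : Tendsto (fun t : ℝ => x + (t * σ) • (Pi.single k (1:ℝ) : V)) (𝓝 0) (𝓝 x) := by
        have : Continuous (fun t : ℝ => x + (t * σ) • (Pi.single k (1:ℝ) : V)) := by fun_prop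
        have h0 := this.tendsto 0
        simpa using h0
      exact (hcont.mono_left nhdsWithin_le_nhds).eventually
        (mem_interior_iff_mem_nhds.1 hint)
    rcases hx with hx | ⟨e, he, hb, hd⟩ | ⟨e, he, hb, hd⟩
    · have hsub : interior (s.RV c i) ⊆ interior (s.H c) := interior_mono (s.RV_sub_H i)
      exact s.F_notMem_interior hc hx (hsub hint)
    · subst he
      have hlen := s.edge_len e
      have ha := s.r_pos (K.a e)
      have hbr := s.r_pos (K.b e)
      have hcq := s.cq_pos hc e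
      have hsmall : ∀ᶠ t : ℝ in 𝓝[>] 0, t < s.r (K.b e) :=
        (eventually_lt_nhds hbr).filter_mono nhdsWithin_le_nhds
      obtain ⟨t, ⟨ht1, ht2⟩, ht0⟩ :=
        (((hline 1 (K.dir e)).and hsmall).and self_mem_nhdsWithin).exists
      have ht0' : (0:ℝ) < t := ht0
      have hy : ∀ k, (x + (t * 1) • (Pi.single (K.dir e) (1:ℝ) : V)) k =
          if k = K.dir e then x k + t else x k := by
        intro k
        by_cases hk : k = K.dir e
        · subst hk; simp
        · simp [hk]
      have hyb : x + (t * 1) • (Pi.single (K.dir e) (1:ℝ) : V) ∈ s.beam c e := by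
        intro k
        rw [hy k]
        have hk' := hb k
        by_cases hk : k = K.dir e
        · subst hk
          simp only [if_true]
          have : s.ca e = K.w (K.a e) (K.dir e) + 5 / 4 * s.r (K.a e) := rfl
          constructor <;> linarith [hk'.1, hk'.2]
        · simp only [hk, if_false]; exact hk'
      have := s.RV_le_ca hc ht1 hyb
      rw [hy, if_pos rfl] at this
      linarith
    · subst he
      have hlen := s.edge_len e
      have ha := s.r_pos (K.a e)
      have hbr := s.r_pos (K.b e)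
      have hcq := s.cq_pos hc e
      have hsmall : ∀ᶠ t : ℝ in 𝓝[>] 0, t < s.r (K.a e) :=
        (eventually_lt_nhds ha).filter_mono nhdsWithin_le_nhds
      obtain ⟨t, ⟨ht1, ht2⟩, ht0⟩ :=
        (((hline (-1) (K.dir e)).and hsmall).and self_mem_nhdsWithin).exists
      have ht0' : (0:ℝ) < t := ht0
      have hy : ∀ k, (x + (t * (-1)) • (Pi.single (K.dir e) (1:ℝ) : V)) k =
          if k = K.dir e then x k - t else x k := by
        intro k
        by_cases hk : k = K.dir e
        · subst hk; simp; ring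
        · simp [hk]
      have hyb : x + (t * (-1)) • (Pi.single (K.dir e) (1:ℝ) : V) ∈ s.beam c e := by
        intro k
        rw [hy k]
        have hk' := hb k
        by_cases hk : k = K.dir e
        · subst hk
          simp only [if_true]
          have : s.cb e = K.w (K.b e) (K.dir e) - 5 / 4 * s.r (K.b e) := rfl
          constructor <;> linarith [hk'.1, hk'.2]
        · simp only [hk, if_false]; exact hk'
      have := s.RV_cb_le hc ht1 hyb
      rw [hy, if_pos rfl] at this
      linarith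

end Sizes

end P073.PA691.BoxCx
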