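import Vale.Agent.P073.H894.Push0
import Vale.Agent.P073.ConicalBody

/-!
# P073 (helper894): the taper lemma

A closed locally conical set missing the open half sheet `{z = κ r, r > 0}` misses a wedge
around it.
-/

open Set Metric Topology Filter

namespace P073

section general

variable {E F : Type*} [NormedAddCommGroup E] [NormedSpace ℝ E]
  [NormedAddCommGroup F] [NormedSpace ℝ F]

/-- symmetric form of `LocConeAt` -/
theorem LocConeAt.exists_scale {A : Set E} {x : E} (h : LocConeAt A x) :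
    ∃ r > 0, ∀ w : E, ∀ l : ℝ, 0 < l → ‖w‖ ≤ r → ‖l • w‖ ≤ r → (x + l • w ∈ A ↔ x + w ∈ A) := by
  obtain ⟨r, hr, H⟩ := h
  refine ⟨r, hr, fun w l hl hw hlw => ?_⟩
  rcases le_total l 1 with h1 | h1
  · exact H w hw l ⟨hl, h1⟩
  · have := H (l • w) hlw l⁻¹ ⟨inv_pos.2 hl, inv_le_one_of_one_le₀ h1⟩
    rw [smul_smul, inv_mul_cancel₀ hl.ne', one_smul] at this
    exact this.symm

/-- symmetric form of `ConicalWithinAt` at a zero -/
theorem ConicalWithinAt.exists_scale {f : E → F} {x : E} (h : ConicalWithinAt f univ x)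
    (h0 : f x = 0) :
    ∃ r > 0, ∀ w : E, ∀ l : ℝ, 0 < l → ‖w‖ ≤ r → ‖l • w‖ ≤ r → f (x + l • w) = l • f (x + w) := by
  obtain ⟨r, hr, H⟩ := h
  refine ⟨r, hr, fun w l hl hw hlw => ?_⟩
  rcases le_total l 1 with h1 | h1
  · have := (H w hw (mem_univ _) l ⟨hl.le, h1⟩).2
    rw [this, h0]; simp
  · have := (H (l • w) hlw (mem_univ _) l⁻¹ ⟨(inv_pos.2 hl).le, inv_le_one_of_one_le₀ h1⟩).2
    rw [smul_smul, inv_mul_cancel₀ hl.ne', one_smul, h0, zero_add, sub_zero] at this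
    rw [this, smul_smul, mul_inv_cancel₀ hl.ne', one_smul]

/-- the common radius for the translation lemmas -/
theorem exists_translate_radius {v : E} {r r' : ℝ} (hv : ‖v‖ < r) (hr' : 0 < r') :
    ∃ ρ > 0, ρ ≤ 1 / 2 ∧ ∀ u : E, ‖u‖ ≤ ρ → ∀ s : ℝ, |s| ≤ ρ →
      0 < 1 + s ∧ ‖u‖ ≤ r' ∧ ‖(1 + s)⁻¹ • u‖ ≤ r' ∧ ‖v + (1 + s)⁻¹ • u‖ ≤ r ∧
      ‖(1 + s) • (v + (1 + s)⁻¹ • u)‖ ≤ r := by
  have hg : 0 < r - ‖v‖ := by linarith
  have hv1 : 0 < 2 * (‖v‖ + 1) := by positivity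
  refine ⟨min (1 / 2) (min (r' / 2) ((r - ‖v‖) / (2 * (‖v‖ + 1)))),
    lt_min (by norm_num) (lt_min (by positivity) (by positivity)), min_le_left _ _,
    fun u hu s hs => ?_⟩
  have hu1 : ‖u‖ ≤ r' / 2 := hu.trans ((min_le_right _ _).trans (min_le_left _ _))
  have hu2 : ‖u‖ ≤ (r - ‖v‖) / (2 * (‖v‖ + 1)) :=
    hu.trans ((min_le_right _ _).trans (min_le_right _ _))
  have hs1 : |s| ≤ 1 / 2 := hs.trans (min_le_left _ _)
  have hs2 : |s| ≤ (r - ‖v‖) / (2 * (‖v‖ + 1)) :=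
    hs.trans ((min_le_right _ _).trans (min_le_right _ _))
  have hs3 := abs_le.1 hs1
  have hpos : 0 < 1 + s := by linarith [hs3.1]
  have hinv : ‖(1 + s)⁻¹ • u‖ ≤ 2 * ‖u‖ := by
    rw [norm_smul, norm_inv, Real.norm_of_nonneg hpos.le]
    gcongr
    rw [inv_le_comm₀ hpos (by norm_num)]
    linarith [hs3.1]
  rw [le_div_iff₀ hv1] at hu2 hs2
  have hnv := norm_nonneg v
  have hnu := norm_nonneg u
  have hns := abs_nonneg s
  refine ⟨hpos, by linarith, by linarith, ?_, ?_⟩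
  · calc ‖v + (1 + s)⁻¹ • u‖ ≤ ‖v‖ + ‖(1 + s)⁻¹ • u‖ := norm_add_le _ _
      _ ≤ ‖v‖ + 2 * ‖u‖ := by gcongr
      _ ≤ r := by nlinarith
  · have e : (1 + s) • (v + (1 + s)⁻¹ • u) = v + (s • v + u) := by
      rw [smul_add, smul_smul, mul_inv_cancel₀ hpos.ne', one_smul, add_smul, one_smul]; abel
    rw [e]
    calc ‖v + (s • v + u)‖ ≤ ‖v‖ + (‖s • v‖ + ‖u‖) :=
          (norm_add_le _ _).trans (by gcongr; exact norm_add_le _ _)
      _ = ‖v‖ + (|s| * ‖v‖ + ‖u‖) := by rw [norm_smul, Real.norm_eq_abs]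
      _ ≤ r := by nlinarith

theorem translate_identity {x v u : E} {s : ℝ} (hs : 0 < 1 + s) :
    x + (1 + s) • (v + (1 + s)⁻¹ • u) = x + v + s • v + u := by
  rw [smul_add, smul_smul, mul_inv_cancel₀ hs.ne', one_smul, add_smul, one_smul]; abel

/-- **local translation symmetry**: near a point `x + v` of the cone neighbourhood of `x`, a
locally conical set is invariant under small translations along `v` -/
theorem LocCone.exists_translate {A : Set E} (hA : LocCone A) (x : E) :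
    ∃ r > 0, ∀ v : E, ‖v‖ < r → ∃ ρ > 0, ∀ u : E, ‖u‖ ≤ ρ → ∀ s : ℝ, |s| ≤ ρ →
      (x + v + s • v + u ∈ A ↔ x + v + u ∈ A) := by
  obtain ⟨r, hr, H⟩ := (hA x).exists_scale
  refine ⟨r, hr, fun v hv => ?_⟩
  obtain ⟨r', hr', H'⟩ := (hA (x + v)).exists_scale
  obtain ⟨ρ, hρ, -, hb⟩ := exists_translate_radius hv hr'
  refine ⟨ρ, hρ, fun u hu s hs => ?_⟩
  obtain ⟨hpos, h1, h2, h3, h4⟩ := hb u hu s hs
  rw [← translate_identity hpos, H _ _ hpos h3 h4, ← add_assoc, H' u _ (inv_pos.2 hpos) h1 h2]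

theorem ConicalOn.exists_translate {f : E → F} (hf : ConicalOn f univ) {x : E} (h0 : f x = 0) :
    ∃ r > 0, ∀ v : E, ‖v‖ < r → f (x + v) = 0 → ∃ ρ > 0, ∀ u : E, ‖u‖ ≤ ρ → ∀ s : ℝ, |s| ≤ ρ →
      f (x + v + s • v + u) = f (x + v + u) := by
  obtain ⟨r, hr, H⟩ := (hf x (mem_univ x)).exists_scale h0
  refine ⟨r, hr, fun v hv hv0 => ?_⟩
  obtain ⟨r', hr', H'⟩ := (hf (x + v) (mem_univ _)).exists_scale hv0
  obtain ⟨ρ, hρ, -, hb⟩ := exists_translate_radius hv hr'
  refine ⟨ρ, hρ, fun u hu s hs => ?_⟩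
  obtain ⟨hpos, h1, h2, h3, h4⟩ := hb u hu s hs
  rw [← translate_identity hpos, H _ _ hpos h3 h4, ← add_assoc, H' u _ (inv_pos.2 hpos) h1 h2,
    smul_smul, mul_inv_cancel₀ hpos.ne', one_smul]

end general

namespace Push

/-- the defect function of the sheet `z = κ r` -/
noncomputable def gg (κ : ℝ) (x : V3) : ℝ := x 2 - κ * rr x

theorem continuous_gg (κ : ℝ) : Continuous (gg κ) := by
  unfold gg
  have := continuous_rr
  fun_prop

theorem conical_gg (κ : ℝ) : ConicalOn (gg κ) univ := by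
  unfold gg
  exact (conical_coord 2).sub ((conical_rr.const_smul κ).congr fun x _ => by simp)

/-- bad points accumulate at `y` -/
def Acc (A : Set V3) (κ : ℝ) (L : V3 →L[ℝ] ℝ) (y : V3) : Prop :=
  ∀ ε > 0, ∃ x ∈ A, 0 < rr x ∧ |gg κ x| ≤ ε * rr x ∧ ‖x - y‖ < ε ∧ L (x - y) = 0

theorem Acc.spec {A : Set V3} (hA : IsClosed A) {κ : ℝ} {L : V3 →L[ℝ] ℝ} {y : V3}
    (h : Acc A κ L y) (hne : ∀ x ∈ A, 0 < rr x → x 2 ≠ κ * rr x) :
    y ∈ A ∧ rr y = 0 ∧ y 2 = 0 := by
  have hmem : y ∈ A := by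
    rw [← hA.closure_eq, Metric.mem_closure_iff]
    intro ε hε
    obtain ⟨x, hx, -, -, h1, -⟩ := h ε hε
    exact ⟨x, hx, by rw [dist_eq_norm, norm_sub_rev]; exact h1⟩
  have hr0 : 0 ≤ rr y := by
    by_contra hneg
    push Not at hneg
    have hev : ∀ᶠ z in 𝓝 y, rr z < 0 := continuous_rr.continuousAt.eventually_lt_const hneg
    obtain ⟨ε, hε, hb⟩ := Metric.eventually_nhds_iff.1 hev
    obtain ⟨x, -, h1, -, h2, -⟩ := h ε hε
    have := hb (show dist x y < ε by rw [dist_eq_norm]; exact h2)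
    linarith
  have hg0 : gg κ y = 0 := by
    by_contra hneg
    have hpos : 0 < |gg κ y| := abs_pos.2 hneg
    have hev : ∀ᶠ z in 𝓝 y, |gg κ y| / 2 < |gg κ z| :=
      (continuous_gg κ).abs.continuousAt.eventually_const_lt (by linarith)
    obtain ⟨ε, hε, hb⟩ := Metric.eventually_nhds_iff.1 hev
    obtain ⟨x, -, h1, h3, h2, -⟩ := h (min ε (|gg κ y| / 2)) (lt_min hε (by positivity))
    have h4 := hb (show dist x y < ε by
      rw [dist_eq_norm]; exact h2.trans_le (min_le_left _ _))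
    have h5 : min ε (|gg κ y| / 2) * rr x ≤ |gg κ y| / 2 * 1 :=
      mul_le_mul (min_le_right _ _) (rr_le_one x) h1.le (by positivity)
    linarith
  have hr1 : rr y = 0 := by
    rcases eq_or_lt_of_le hr0 with h1 | h1
    · exact h1.symm
    · exact absurd (by unfold gg at hg0; linarith) (hne y hmem h1)
  refine ⟨hmem, hr1, ?_⟩
  unfold gg at hg0
  rw [hr1] at hg0
  linarith

/-- from convergence of almost bad points -/
theorem acc_of_tendsto {A : Set V3} {κ : ℝ} {y : V3} {x : ℕ → V3}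
    (hx : ∀ n, x n ∈ A ∧ 0 < rr (x n) ∧ |gg κ (x n)| ≤ (1 / ((n:ℝ) + 1)) * rr (x n))
    {φ : ℕ → ℕ} (hφ : StrictMono φ) (hlim : Tendsto (x ∘ φ) atTop (𝓝 y)) : Acc A κ 0 y := by
  intro ε hε
  have h1 : ∀ᶠ n in atTop, ‖x (φ n) - y‖ < ε := by
    have := (tendsto_iff_norm_sub_tendsto_zero.1 hlim).eventually_lt_const hε
    exact this
  have h2 : ∀ᶠ n : ℕ in atTop, 1 / ((n:ℝ) + 1) < ε :=
    (tendsto_one_div_add_atTop_nhds_zero_nat (𝕜 := ℝ)).eventually_lt_const hε
  obtain ⟨n, hn1, hn2⟩ := (h1.and h2).exists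
  obtain ⟨a, b, c⟩ := hx (φ n)
  refine ⟨x (φ n), a, b, c.trans ?_, hn1, by simp⟩
  gcongr
  have h3 : (n:ℝ) ≤ (φ n : ℝ) := by exact_mod_cast hφ.id_le n
  have h4 : 1 / ((φ n : ℝ) + 1) ≤ 1 / ((n:ℝ) + 1) := by
    apply one_div_le_one_div_of_le (by positivity) (by linarith)
  linarith

/-- the scaling step -/
theorem Acc.scale {A : Set V3} (hc : LocCone A) (hA : IsClosed A) {κ : ℝ} {L : V3 →L[ℝ] ℝ} {y : V3}
    (h : Acc A κ L y) (hne : ∀ x ∈ A, 0 < rr x → x 2 ≠ κ * rr x) :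
    ∃ R₀ > 0, ∀ R, 0 < R → R ≤ R₀ → ∃ z, ‖z - y‖ = R ∧ L (z - y) = 0 ∧ Acc A κ 0 z := by
  obtain ⟨hyA, hy0, hy2⟩ := h.spec hA hne
  have hg0 : gg κ y = 0 := by unfold gg; rw [hy2, hy0]; ring
  obtain ⟨r1, hr1, H1⟩ := (hc y).exists_scale
  obtain ⟨r2, hr2, H2⟩ := (conical_rr y (mem_univ y)).exists_scale hy0
  obtain ⟨r3, hr3, H3⟩ := (conical_gg κ y (mem_univ y)).exists_scale hg0
  refine ⟨min r1 (min r2 r3), lt_min hr1 (lt_min hr2 hr3), fun R hR hR0 => ?_⟩
  have hR1 : R ≤ r1 := hR0.trans (min_le_left _ _)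
  have hR2 : R ≤ r2 := hR0.trans ((min_le_right _ _).trans (min_le_left _ _))
  have hR3 : R ≤ r3 := hR0.trans ((min_le_right _ _).trans (min_le_right _ _))
  have key : ∀ n : ℕ, ∃ w : V3, ‖w‖ = R ∧ L w = 0 ∧ (y + w ∈ A ∧ 0 < rr (y + w) ∧
      |gg κ (y + w)| ≤ (1 / ((n:ℝ) + 1)) * rr (y + w)) := by
    intro n
    have hn : 0 < 1 / ((n:ℝ) + 1) := by positivity
    obtain ⟨x, hxA, hxr, hxg, hxn, hxL⟩ := h (min (1 / ((n:ℝ) + 1)) R) (lt_min hn hR)
    have hw0 : x - y ≠ 0 := by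
      intro h0
      rw [sub_eq_zero.1 h0, hy0] at hxr
      exact lt_irrefl _ hxr
    have hwn : 0 < ‖x - y‖ := norm_pos_iff.2 hw0
    have hxR : ‖x - y‖ < R := hxn.trans_le (min_le_right _ _)
    have hl : 0 < R / ‖x - y‖ := by positivity
    have hlw : ‖(R / ‖x - y‖) • (x - y)‖ = R := by
      rw [norm_smul, Real.norm_of_nonneg hl.le, div_mul_cancel₀ _ hwn.ne']
    have exy : y + (x - y) = x := by abel
    refine ⟨(R / ‖x - y‖) • (x - y), hlw, by rw [map_smul, hxL, smul_zero], ?_, ?_, ?_⟩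
    · rw [H1 _ _ hl (hxR.le.trans hR1) (hlw.le.trans hR1), exy]; exact hxA
    · rw [H2 _ _ hl (hxR.le.trans hR2) (hlw.le.trans hR2), exy, smul_eq_mul]
      positivity
    · rw [H2 _ _ hl (hxR.le.trans hR2) (hlw.le.trans hR2),
        H3 _ _ hl (hxR.le.trans hR3) (hlw.le.trans hR3), exy, smul_eq_mul, smul_eq_mul, abs_mul,
        abs_of_pos hl]
      calc R / ‖x - y‖ * |gg κ x| ≤ R / ‖x - y‖ * (min (1 / ((n:ℝ) + 1)) R * rr x) := by gcongr
        _ ≤ R / ‖x - y‖ * ((1 / ((n:ℝ) + 1)) * rr x) := by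
            gcongr; exact min_le_left _ _
        _ = 1 / ((n:ℝ) + 1) * (R / ‖x - y‖ * rr x) := by ring
  choose w hwR hwL hw using key
  obtain ⟨w', -, φ, hφ, hlim⟩ := (isCompact_sphere (0:V3) R).tendsto_subseq
    (x := w) (fun n => by rw [mem_sphere_zero_iff_norm]; exact hwR n)
  have hw'R : ‖w'‖ = R := by
    have h1 : Tendsto (fun n => ‖w (φ n)‖) atTop (𝓝 ‖w'‖) := hlim.norm
    have h2 : Tendsto (fun n => ‖w (φ n)‖) atTop (𝓝 R) := by
      simp only [hwR]; exact tendsto_const_nhds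
    exact tendsto_nhds_unique h1 h2
  have hw'L : L w' = 0 := by
    have h1 : Tendsto (fun n => L (w (φ n))) atTop (𝓝 (L w')) :=
      (L.continuous.tendsto w').comp hlim
    have h2 : Tendsto (fun n => L (w (φ n))) atTop (𝓝 0) := by
      simp only [hwL]; exact tendsto_const_nhds
    exact tendsto_nhds_unique h1 h2
  refine ⟨y + w', by rw [add_sub_cancel_left]; exact hw'R,
    by rw [add_sub_cancel_left]; exact hw'L, ?_⟩
  exact acc_of_tendsto (x := fun n => y + w n) hw hφ (tendsto_const_nhds.add hlim)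

theorem fin3_pairs : ∀ i j : Fin 3, i ≠ j → i ≠ 2 → j ≠ 2 → (i = 0 ∧ j = 1) ∨ (i = 1 ∧ j = 0) := by
  decide

theorem fin3_cover : ∀ i j : Fin 3, i ≠ j → i ≠ 2 → j ≠ 2 → ∀ k, k = i ∨ k = j ∨ k = 2 := by
  decide

/-- geometry of the square: a chord of the boundary lies in a side -/
theorem side_of_chord {y v : V3} {s : ℝ} (hs : 0 < s) (h0 : rr y = 0) (h1 : rr (y + s • v) = 0)
    (h2 : rr (y + (-s) • v) = 0) (hv2 : v 2 = 0) (hv : v ≠ 0) :
    ∃ i j : Fin 3, i ≠ j ∧ i ≠ 2 ∧ j ≠ 2 ∧ |y i| = 1 ∧ |y j| < 1 ∧ v i = 0 ∧ v j ≠ 0 := by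
  have ex : ∀ a b : ℝ, |a| = 1 → |a + s * b| ≤ 1 → |a + (-s) * b| ≤ 1 → b = 0 := by
    intro a b ha h1 h2
    have h1' := abs_le.1 h1
    have h2' := abs_le.1 h2
    rcases (abs_eq zero_le_one).1 ha with h | h
    · have hb1 : s * b ≤ 0 := by linarith
      have hb2 : 0 ≤ s * b := by linarith
      have : s * b = 0 := le_antisymm hb1 hb2
      rcases mul_eq_zero.1 this with h3 | h3
      · exact absurd h3 hs.ne'
      · exact h3
    · have hb1 : s * b ≤ 0 := by linarith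
      have hb2 : 0 ≤ s * b := by linarith
      have : s * b = 0 := le_antisymm hb1 hb2
      rcases mul_eq_zero.1 this with h3 | h3
      · exact absurd h3 hs.ne'
      · exact h3
  unfold rr nn at h0 h1 h2
  have e0 : max |y 0| |y 1| = 1 := by linarith
  have e1 : max |(y + s • v) 0| |(y + s • v) 1| = 1 := by linarith
  have e2 : max |(y + (-s) • v) 0| |(y + (-s) • v) 1| = 1 := by linarith
  have a1 : |y 0 + s * v 0| ≤ 1 := (le_max_left _ _).trans e1.le
  have a2 : |y 0 + (-s) * v 0| ≤ 1 := (le_max_left _ _).trans e2.le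
  have b1 : |y 1 + s * v 1| ≤ 1 := (le_max_right _ _).trans e1.le
  have b2 : |y 1 + (-s) * v 1| ≤ 1 := (le_max_right _ _).trans e2.le
  have c0 : |y 0| ≤ 1 := (le_max_left _ _).trans e0.le
  have c1 : |y 1| ≤ 1 := (le_max_right _ _).trans e0.le
  rcases eq_or_lt_of_le c0 with h | h
  · have hv0 := ex _ _ h a1 a2
    rcases eq_or_lt_of_le c1 with h' | h'
    · exfalso
      have hv1 := ex _ _ h' b1 b2
      apply hv
      ext i; fin_cases i
      · exact hv0
      · exact hv1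
      · exact hv2
    · refine ⟨0, 1, by decide, by decide, by decide, h, h', hv0, fun hv1 => hv ?_⟩
      ext i; fin_cases i
      · exact hv0
      · exact hv1
      · exact hv2
  · have h' : |y 1| = 1 := by
      rcases max_choice |y 0| |y 1| with hh | hh
      · rw [hh] at e0; linarith
      · rw [hh] at e0; exact e0
    have hv1 := ex _ _ h' b1 b2
    refine ⟨1, 0, by decide, by decide, by decide, h', h, hv1, fun hv0 => hv ?_⟩
    ext i; fin_cases i
    · exact hv0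
    · exact hv1
    · exact hv2

/-- **Taper lemma** -/
theorem taper {A : Set V3} (hA : IsClosed A) (hc : LocCone A) (κ : ℝ)
    (hne : ∀ x ∈ A, 0 < rr x → x 2 ≠ κ * rr x) :
    ∃ ε > 0, ∀ x ∈ A, 0 < rr x → ε * rr x < |x 2 - κ * rr x| := by
  by_contra hcon
  push Not at hcon
  -- an accumulation point of bad points
  have h0 : ∃ y, Acc A κ 0 y := by
    have key : ∀ n : ℕ, ∃ x ∈ A, 0 < rr x ∧ |gg κ x| ≤ (1 / ((n:ℝ) + 1)) * rr x := by
      intro n
      obtain ⟨x, h1, h2, h3⟩ := hcon (1 / ((n:ℝ) + 1)) (by positivity)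
      exact ⟨x, h1, h2, h3⟩
    choose x hxA hxr hxg using key
    have hbd : Bornology.IsBounded (range x) := by
      refine isBounded_of_rr (C := |κ| + 1) ?_
      rintro _ ⟨n, rfl⟩
      refine ⟨(hxr n).le, ?_⟩
      have h1 := rr_le_one (x n)
      have h2 := hxg n
      have h3 : (1 / ((n:ℝ) + 1)) ≤ 1 := by
        rw [div_le_one (by positivity)]
        have : (0:ℝ) ≤ n := by positivity
        linarith
      have h4 : (1 / ((n:ℝ) + 1)) * rr (x n) ≤ 1 * 1 :=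
        mul_le_mul h3 h1 (hxr n).le zero_le_one
      have e : x n 2 = κ * rr (x n) + gg κ (x n) := by unfold gg; ring
      have h5 : |κ * rr (x n)| ≤ |κ| := by
        rw [abs_mul, abs_of_pos (hxr n)]
        calc |κ| * rr (x n) ≤ |κ| * 1 := by gcongr
          _ = |κ| := mul_one _
      rw [e]
      calc |κ * rr (x n) + gg κ (x n)| ≤ |κ * rr (x n)| + |gg κ (x n)| := abs_add_le _ _
        _ ≤ |κ| + 1 := by linarith
    obtain ⟨y, -, φ, hφ, hlim⟩ := tendsto_subseq_of_bounded hbd (fun n => mem_range_self n)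
    exact ⟨y, acc_of_tendsto (fun n => ⟨hxA n, hxr n, hxg n⟩) hφ hlim⟩
  obtain ⟨x, hx⟩ := h0
  obtain ⟨hxA, hx0, hx2⟩ := hx.spec hA hne
  have hgx : gg κ x = 0 := by unfold gg; rw [hx2, hx0]; ring
  obtain ⟨R₀, hR₀, hscale⟩ := hx.scale hc hA hne
  obtain ⟨r1, hr1, H1⟩ := hc.exists_translate x
  obtain ⟨r2, hr2, H2⟩ := conical_rr.exists_translate hx0
  obtain ⟨r3, hr3, H3⟩ := (conical_gg κ).exists_translate hgx
  set R := min R₀ (min (r1 / 2) (min (r2 / 2) (r3 / 2))) with hRdef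
  have hR : 0 < R := lt_min hR₀ (lt_min (by positivity) (lt_min (by positivity) (by positivity)))
  have hRr1 : R < r1 := by
    have : R ≤ r1 / 2 := (min_le_right _ _).trans (min_le_left _ _)
    linarith
  have hRr2 : R < r2 := by
    have : R ≤ r2 / 2 :=
      (min_le_right _ _).trans ((min_le_right _ _).trans (min_le_left _ _))
    linarith
  have hRr3 : R < r3 := by
    have : R ≤ r3 / 2 :=
      (min_le_right _ _).trans ((min_le_right _ _).trans (min_le_right _ _))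
    linarith
  obtain ⟨y, hyR, -, hy⟩ := hscale R hR (min_le_left _ _)
  obtain ⟨hyA, hy0, hy2⟩ := hy.spec hA hne
  set v := y - x with hv
  have exy : x + v = y := by rw [hv]; abel
  have hgy : gg κ y = 0 := by unfold gg; rw [hy2, hy0]; ring
  obtain ⟨ρ1, hρ1, T1⟩ := H1 v (hyR ▸ hRr1)
  obtain ⟨ρ2, hρ2, T2⟩ := H2 v (hyR ▸ hRr2) (by rw [exy]; exact hy0)
  obtain ⟨ρ3, hρ3, T3⟩ := H3 v (hyR ▸ hRr3) (by rw [exy]; exact hgy)
  rw [exy] at T1 T2 T3
  have hv0 : v ≠ 0 := by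
    intro h
    rw [h, norm_zero] at hyR
    exact hR.ne hyR
  have hv2 : v 2 = 0 := by rw [hv, Pi.sub_apply, hy2, hx2, sub_zero]
  obtain ⟨i, j, hij, hi2, hj2, hyi, hyj, hvi, hvj⟩ := side_of_chord hρ2 hy0
    (by
      have := T2 0 (by rw [norm_zero]; exact hρ2.le) ρ2 (by rw [abs_of_pos hρ2])
      rw [add_zero, add_zero] at this
      rw [this]; exact hy0)
    (by
      have := T2 0 (by rw [norm_zero]; exact hρ2.le) (-ρ2) (by rw [abs_neg, abs_of_pos hρ2])
      rw [add_zero, add_zero] at this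
      rw [this]; exact hy0) hv2 hv0
  -- accumulation inside the transversal plane
  have hacc : Acc A κ (ContinuousLinearMap.proj (R := ℝ) (φ := fun _ : Fin 3 => ℝ) j) y := by
    intro ε hε
    set C := ‖v‖ / |v j| + 1 with hC
    have hvj' : 0 < |v j| := abs_pos.2 hvj
    have hCpos : 0 < C := by positivity
    set δ := min (ε / C) (min (min ρ1 (min ρ2 ρ3)) ((min ρ1 (min ρ2 ρ3)) * |v j|)) with hδ
    have hρ : 0 < min ρ1 (min ρ2 ρ3) := lt_min hρ1 (lt_min hρ2 hρ3)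
    have hδpos : 0 < δ := lt_min (by positivity) (lt_min hρ (by positivity))
    obtain ⟨z, hzA, hzr, hzg, hzn, -⟩ := hy (min ε δ) (lt_min hε hδpos)
    set u := z - y with hu
    have huδ : ‖u‖ < δ := hzn.trans_le (min_le_right _ _)
    have hyz : y + u = z := by rw [hu]; abel
    have huj : |u j| ≤ ‖u‖ := by
      have := norm_le_pi_norm u j
      rwa [Real.norm_eq_abs] at this
    set s := -(u j / v j) with hs
    have hsabs : |s| ≤ min ρ1 (min ρ2 ρ3) := by
      rw [hs, abs_neg, abs_div, div_le_iff₀ hvj']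
      exact huj.trans (huδ.le.trans ((min_le_right _ _).trans (min_le_right _ _)))
    have huρ : ‖u‖ ≤ min ρ1 (min ρ2 ρ3) :=
      huδ.le.trans ((min_le_right _ _).trans (min_le_left _ _))
    have t1 := T1 u (huρ.trans (min_le_left _ _)) s (hsabs.trans (min_le_left _ _))
    have t2 := T2 u (huρ.trans ((min_le_right _ _).trans (min_le_left _ _))) s
      (hsabs.trans ((min_le_right _ _).trans (min_le_left _ _)))
    have t3 := T3 u (huρ.trans ((min_le_right _ _).trans (min_le_right _ _))) s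
      (hsabs.trans ((min_le_right _ _).trans (min_le_right _ _)))
    rw [hyz] at t1 t2 t3
    refine ⟨y + s • v + u, t1.2 hzA, by rw [t2]; exact hzr, ?_, ?_, ?_⟩
    · rw [t2, t3]
      refine hzg.trans ?_
      gcongr
      exact min_le_left _ _
    · have e : y + s • v + u - y = s • v + u := by abel
      rw [e]
      calc ‖s • v + u‖ ≤ |s| * ‖v‖ + ‖u‖ := by
            refine (norm_add_le _ _).trans ?_
            rw [norm_smul, Real.norm_eq_abs]
        _ ≤ ‖u‖ / |v j| * ‖v‖ + ‖u‖ := by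
            gcongr
            rw [hs, abs_neg, abs_div]
            gcongr
        _ = ‖u‖ * C := by rw [hC]; ring
        _ < ε / C * C := by
            gcongr
            exact huδ.trans_le (min_le_left _ _)
        _ = ε := by field_simp
    · show (y + s • v + u - y) j = 0
      simp only [Pi.sub_apply, Pi.add_apply, Pi.smul_apply, smul_eq_mul, hs]
      field_simp
      ring
  obtain ⟨R₁, hR₁, hscale'⟩ := hacc.scale hc hA hne
  obtain ⟨z, hzR, hzL, hz⟩ := hscale' (min R₁ 1) (lt_min hR₁ one_pos) (min_le_left _ _)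
  obtain ⟨-, hz0, hz2⟩ := hz.spec hA hne
  have hzj : z j = y j := by
    have : (z - y) j = 0 := hzL
    rw [Pi.sub_apply] at this; linarith
  have hzi' : |z i - y i| ≤ 1 := by
    have h1 := norm_le_pi_norm (z - y) i
    rw [Real.norm_eq_abs, Pi.sub_apply] at h1
    exact h1.trans (hzR.le.trans (min_le_right _ _))
  have hmax : max |z i| |z j| = 1 := by
    unfold rr nn at hz0
    have h1 : max |z 0| |z 1| = 1 := by linarith
    rcases fin3_pairs i j hij hi2 hj2 with ⟨rfl, rfl⟩ | ⟨rfl, rfl⟩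
    · exact h1
    · rw [max_comm]; exact h1
  have hzi1 : |z i| = 1 := by
    rw [hzj] at hmax
    rcases max_choice |z i| |y j| with h | h
    · rw [h] at hmax; exact hmax
    · rw [h] at hmax; rw [hmax] at hyj; exact absurd hyj (lt_irrefl _)
  have hzi : z i = y i := by
    have hh := abs_le.1 hzi'
    rcases (abs_eq zero_le_one).1 hzi1 with h1 | h1 <;>
      rcases (abs_eq zero_le_one).1 hyi with h2 | h2
    · rw [h1, h2]
    · rw [h1, h2] at hh; linarith [hh.2]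
    · rw [h1, h2] at hh; linarith [hh.1]
    · rw [h1, h2]
  have hzy : z = y := by
    ext k
    rcases fin3_cover i j hij hi2 hj2 k with rfl | rfl | rfl
    · exact hzi
    · exact hzj
    · rw [hz2, hy2]
  rw [hzy, sub_self, norm_zero] at hzR
  have : 0 < min R₁ 1 := lt_min hR₁ one_pos
  linarith

end Push

end P073
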